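import Vale.Agent.P354YC.Defs

/-!
Phase 3, piece LOC: local existence for the vacuum equations in a flat chart, with bounds in
space-time and Lipschitz dependence on the data. Exact statement.
-/

open scoped ContDiff
open Set Filter Topology

noncomputable section

namespace Vale.Agent.P354LC

open Vale.Agent.P354n (R4 mink)
open Vale.Agent.P354I (X Dat pd)
open Vale.Agent.P354R (Met Vac)
open Vale.Agent.P354XE (Tw pt Bd Lor)
open Vale.Agent.P354YC (IndAt)

/-- The flat data. -/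
def eu : Dat := ⟨fun _ => 1, fun _ => 0⟩

/-- The derivatives of order at most m of the components of d - d' are at most ε. -/
def Dif (m : ℕ) (ε : ℝ) (d d' : Dat) : Prop :=
  ∀ j ≤ m, ∀ a b y, ‖iteratedFDeriv ℝ j (fun z => d.h z a b - d'.h z a b) y‖ ≤ ε ∧
    ‖iteratedFDeriv ℝ j (fun z => d.K z a b - d'.K z a b) y‖ ≤ ε

/-- Smooth data on the whole space, with h ≥ c, flat outside the ball of radius ρ. No constraint
equations are assumed. -/
structure Adm (ρ c : ℝ) (d : Dat) : Prop where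
  smooth : ∀ a b, ContDiff ℝ ∞ (fun y => d.h y a b) ∧ ContDiff ℝ ∞ fun y => d.K y a b
  symm : ∀ y, (d.h y).IsSymm ∧ (d.K y).IsSymm
  pos : ∀ y (v : Fin 3 → ℝ), c * ∑ i, v i ^ 2 ≤ ∑ i, ∑ j, v i * d.h y i j * v j
  flat : ∀ y, ρ ≤ ‖y‖ → d.h y = 1 ∧ d.K y = 0

/-- The constraint equations at the point y (the conclusion of P354XS.GC). -/
def ConAt (d : Dat) (y : X) : Prop :=
  d.scal y + d.trK y ^ 2 - d.sqK y = 0 ∧ ∀ j, d.divK j y - pd j d.trK y = 0

/-- The slab. -/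
def slab (δ : ℝ) : Set R4 := {p | |p.1| < δ}

/-- The point p lies in a lens to the future (s = 1) or to the past (s = -1) of the slice t = 0:
a relatively compact set 0 ≤ s t ≤ T, φ i < 0, where the φ i do not decrease in the causal
directions of g which point away from the slice, and the constraints hold on its base. -/
def Lens (g : Tw) (d : Dat) (δ s : ℝ) (p : R4) : Prop :=
  ∃ (ι : Type) (_ : Fintype ι) (φ : ι → R4 → ℝ) (T : ℝ) (D : Set R4), IsCompact D ∧ D ⊆ slab δ ∧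
    (∀ i, ContDiff ℝ 1 (φ i)) ∧
    (∀ q : R4, s * q.1 ∈ Icc 0 T → (∀ i, φ i q < 0) → q ∈ D ∧
      ∀ i v, g q v v ≤ 0 → 0 < v.1 → 0 ≤ s * fderiv ℝ (φ i) q v) ∧
    (∀ y, (∀ i, φ i (pt 0 y) < 0) → ConAt d y) ∧ s * p.1 ∈ Icc 0 T ∧ ∀ i, φ i p < 0

/-- g is a Lorentzian metric on the slab with the future unit normal n of the slices t = const
(the lapse is 1 / n.1), uniformly nondegenerate; it induces d on t = 0 and is vacuum on every open
set which is covered by lenses. -/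
structure Sol (d : Dat) (δ c : ℝ) (g : Tw) (n : R4 → R4) : Prop where
  met : Met g (slab δ)
  sig : ∀ p ∈ slab δ, ∃ L : R4 → R4, IsLinearMap ℝ L ∧ L.Injective ∧
    ∀ v w, g p v w = mink (L v) (L w)
  smn : ContDiffOn ℝ ∞ n (slab δ)
  nor : ∀ p ∈ slab δ, c ≤ (n p).1 ∧ ‖n p‖ ≤ c⁻¹ ∧ ∀ v, (n p).1 * g p v (n p) = -v.1
  pos : ∀ p ∈ slab δ, ∀ v, c * ‖v‖ ^ 2 ≤ g p v v + 2 * g p v (n p) ^ 2
  ind : ∀ y, IndAt g n (pt 0) d y
  lor : ∀ D, IsOpen D → D ⊆ slab δ → (∀ p ∈ D, Lens g d δ 1 p ∨ Lens g d δ (-1) p) → Lor g D n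

/-- LOC. The time δ and the constant c' depend only on ρ, c and the bound B of 12 derivatives of
the data; the bounds for k derivatives in space-time depend also on the bound B' of k + 12
derivatives. -/
def LOC : Prop :=
  ∀ ρ c B : ℝ, 0 < c → ∃ δ > 0, ∃ c' > 0, ∃ (g : Dat → Tw) (n : Dat → R4 → R4),
    (∀ d, Adm ρ c d → Dif 12 B d eu → Sol d δ c' (g d) (n d)) ∧
    ∀ (k : ℕ) (B' : ℝ), ∃ C, ∀ d, Adm ρ c d → Dif 12 B d eu → Dif (k + 12) B' d eu →
      (∀ p ∈ slab δ, Bd k (g d) p C) ∧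
      ∀ d' ε, Adm ρ c d' → Dif 12 B d' eu → Dif (k + 12) B' d' eu → Dif (k + 12) ε d d' →
        ∀ p ∈ slab δ, Bd k (g d - g d') p (C * ε)

end Vale.Agent.P354LC
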