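import Vale.Agent.P354P.Flip
import Vale.Agent.P354J.Uq
import Vale.Agent.P354C.Propag
import Vale.Agent.P354Q.Vac

/-!
The geometry of a solution of the reduced system.
-/

set_option backward.isDefEq.respectTransparency false

open scoped ContDiff
open Set Filter Topology

namespace Vale.Agent.P354LC

open Vale.Agent.P354H Vale.Agent.P354C Vale.Agent.P354C.Ix
open Vale.Agent.P354n (R4 IsConn mink cu cv c1 c2)
open Vale.Agent.P354R (Met Vac)
open Vale.Agent.P354J (nU Con1 DT dsl)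
open Vale.Agent.P354Q (th_lin fr_th th_fr fin4)

variable {U : R4 → Ix → ℝ} {D : Set R4} {p : R4}

theorem met_sig (hP : detP (U p) ≠ 0) (hO : U p O ≠ 0) : ∃ L : R4 → R4, IsLinearMap ℝ L ∧
    L.Injective ∧ ∀ v w, met U p v w = mink (L v) (L w) := by
  have l : IsLinearMap ℝ fun v => U p O • ((th (U p) v 0 + th (U p) v 1,
      th (U p) v 0 - th (U p) v 1, th (U p) v 2, th (U p) v 3) : R4) := by
    refine ⟨fun a b => ?_, fun c a => ?_⟩
    · simp only [(th_lin _).map_add, Pi.add_apply, smul_eq_mul, Prod.smul_mk, Prod.mk_add_mk,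
        Prod.mk.injEq]
      exact ⟨by ring, by ring, by ring, by ring⟩
    · simp only [(th_lin _).map_smul, Pi.smul_apply, smul_eq_mul, Prod.smul_mk, Prod.mk.injEq]
      exact ⟨by ring, by ring, by ring, by ring⟩
  refine ⟨_, l, (injective_iff_map_eq_zero (l.mk' _)).2 fun v hv => ?_, fun v w => ?_⟩
  · have a := (smul_eq_zero.1 hv).resolve_left hO
    simp only [Prod.mk_eq_zero] at a
    rw [← fr_th hP v, Fin.sum_univ_four, a.2.2.1, a.2.2.2,
      show th (U p) v 0 = 0 by linarith [a.1, a.2.1], show th (U p) v 1 = 0 by linarith [a.1, a.2.1]]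
    simp
  · simp only [met, eta, mink, cu, cv, c1, c2, Prod.smul_mk, smul_eq_mul]
    ring

theorem met_nU (hP : detP (U p) ≠ 0) (hO : U p O ≠ 0) (v : R4) :
    met U p v (nU (U p)) = -(U p O * v.1) := by
  rw [met, P354J.th_nU hP]
  simp only [eta, th, Matrix.cons_val]
  field_simp
  ring

theorem nU_fst (u : Ix → ℝ) : (nU u).1 = (u O)⁻¹ := by
  simp only [nU, fr, vec, E, Matrix.cons_val, Prod.smul_fst, Prod.fst_add, smul_eq_mul, mul_inv]
  ring

theorem fr_le {u : Ix → ℝ} {M : ℝ} (h1 : 1 ≤ M) (h : ∀ i, |u i| ≤ M) (k : Fin 4) :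
    ‖fr u k‖ ≤ M := by
  have h0 : 0 ≤ M := by linarith
  revert k
  refine fin4 ?_ ?_ ?_ ?_ <;>
    simp only [fr, vec, E, Matrix.cons_val, norm_prod_le_iff, Real.norm_eq_abs, abs_one, abs_zero,
      abs_neg, h, h1, h0, and_self]

theorem nU_le {u : Ix → ℝ} {M c0 : ℝ} (h1 : 1 ≤ M) (h : ∀ i, |u i| ≤ M) (h0 : 0 < c0)
    (hO : c0 ≤ u O) : ‖nU u‖ ≤ M / c0 := by
  have a := (norm_add_le _ _).trans (add_le_add (fr_le h1 h 0) (fr_le h1 h 1))
  have b : 0 < u O := h0.trans_le hO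
  rw [nU, norm_smul, Real.norm_of_nonneg (by positivity), inv_mul_le_iff₀ (by positivity)]
  refine a.trans ?_
  rw [← mul_div_assoc, le_div_iff₀ h0]
  nlinarith

theorem met_pos {M c0 : ℝ} (h1 : 1 ≤ M) (h : ∀ i, |U p i| ≤ M) (h0 : 0 < c0) (hO : c0 ≤ U p O)
    (hP : detP (U p) ≠ 0) (v : R4) :
    c0 ^ 2 / (4 * M ^ 2) * ‖v‖ ^ 2 ≤ met U p v v + 2 * met U p v (nU (U p)) ^ 2 := by
  have b : 0 < U p O := h0.trans_le hO
  have e : v.1 = th (U p) v 0 + th (U p) v 1 := by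
    simp only [th, Matrix.cons_val]
    ring
  have a : ‖v‖ ≤ M * (|th (U p) v 0| + |th (U p) v 1| + |th (U p) v 2| + |th (U p) v 3|) := by
    conv_lhs => rw [← fr_th hP v]
    refine (norm_sum_le _ _).trans ?_
    rw [← Fin.sum_univ_four fun k => |th (U p) v k|, Finset.mul_sum]
    refine Finset.sum_le_sum fun k _ => ?_
    rw [norm_smul, mul_comm]
    exact mul_le_mul_of_nonneg_right (fr_le h1 h k) (abs_nonneg _)
  rw [met_nU hP b.ne', e, met, eta]
  generalize th (U p) v 0 = x0 at *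
  generalize th (U p) v 1 = x1 at *
  generalize th (U p) v 2 = x2 at *
  generalize th (U p) v 3 = x3 at *
  have s : (|x0| + |x1| + |x2| + |x3|) ^ 2 ≤ 4 * (x0 ^ 2 + x1 ^ 2 + x2 ^ 2 + x3 ^ 2) := by
    rw [← sq_abs x0, ← sq_abs x1, ← sq_abs x2, ← sq_abs x3]
    nlinarith [sq_nonneg (|x0| - |x1|), sq_nonneg (|x0| - |x2|), sq_nonneg (|x0| - |x3|),
      sq_nonneg (|x1| - |x2|), sq_nonneg (|x1| - |x3|), sq_nonneg (|x2| - |x3|)]
  have a2 := pow_le_pow_left₀ (norm_nonneg _) a 2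
  rw [mul_pow] at a2
  have a3 : ‖v‖ ^ 2 / (4 * M ^ 2) ≤ x0 ^ 2 + x1 ^ 2 + x2 ^ 2 + x3 ^ 2 := by
    rw [div_le_iff₀ (by positivity)]
    nlinarith [mul_le_mul_of_nonneg_left s (sq_nonneg M)]
  have a4 := mul_le_mul (pow_le_pow_left₀ h0.le hO 2) a3 (by positivity) (sq_nonneg _)
  rw [div_mul_eq_mul_div, mul_div_assoc]
  nlinarith [mul_nonneg (sq_nonneg (U p O)) (add_nonneg (sq_nonneg x0) (sq_nonneg x1))]

theorem sm_nU (h : SmU U D) (hO : ∀ p ∈ D, U p O ≠ 0) :
    ContDiffOn ℝ ∞ (fun p => nU (U p)) D := by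
  have a := fun k => P354Q.sm_E (P354Q.sm7_of h) k
  have b : ∀ k, ContDiffOn ℝ ∞ (fun p => fr (U p) k) D := fun k =>
    (a k 0).prodMk ((a k 1).prodMk ((a k 2).prodMk (a k 3)))
  exact ((contDiffOn_const.mul (h O)).inv fun p hp => mul_ne_zero two_ne_zero (hO p hp)).smul
    ((b 0).add (b 1))

/-- The causality condition for the frame from the causality condition for the metric. -/
theorem causal_of {s : ℝ} {φ : R4 → ℝ} (hs : s = 1 ∨ s = -1) (hP : detP (U p) ≠ 0)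
    (h : ∀ v, met U p v v ≤ 0 → 0 < v.1 → 0 ≤ s * fderiv ℝ φ p v) : Causal s U φ p := by
  have k : ∀ c : Fin 4 → ℝ, 0 < c 0 + c 1 → c 2 ^ 2 + c 3 ^ 2 ≤ 4 * (c 0 * c 1) →
      0 ≤ s * ∑ k, c k * fderiv ℝ φ p (fr (U p) k) := fun c h1 h2 => by
    have := h (∑ k, c k • fr (U p) k) (by
      rw [met, th_fr hP, eta]
      exact mul_nonpos_of_nonneg_of_nonpos (sq_nonneg _) (by nlinarith))
      (by simpa [Fin.sum_univ_four, fr, vec, E] using h1)
    simpa only [map_sum, map_smul, smul_eq_mul] using this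
  have s2 : s ^ 2 = 1 := by rcases hs with rfl | rfl <;> norm_num
  have a := k ![1, 0, 0, 0] (by simp) (by simp)
  have b := k ![0, 1, 0, 0] (by simp) (by simp)
  simp only [Fin.sum_univ_four, Matrix.cons_val, one_mul, zero_mul, add_zero, zero_add] at a b k
  refine ⟨a, b, ?_⟩
  generalize fderiv ℝ φ p (fr (U p) 0) = A at *
  generalize fderiv ℝ φ p (fr (U p) 1) = B at *
  generalize fderiv ℝ φ p (fr (U p) 2) = C at *
  generalize fderiv ℝ φ p (fr (U p) 3) = E at *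
  have q : ∀ x : ℝ, 0 ≤ ((C ^ 2 + E ^ 2) * (s * B)) * (x * x) + (-2 * (C ^ 2 + E ^ 2)) * x +
      s * A := fun x => by
    have := k ![1, (C ^ 2 + E ^ 2) * x ^ 2, -2 * s * C * x, -2 * s * E * x]
      (by simp only [Matrix.cons_val]; positivity)
      (by
        simp only [Matrix.cons_val]
        exact le_of_eq (by linear_combination (4 * C ^ 2 * x ^ 2 + 4 * E ^ 2 * x ^ 2) * s2))
    simp only [Matrix.cons_val] at this
    refine this.trans (le_of_eq ?_)
    linear_combination (-2 * (C ^ 2 + E ^ 2) * x) * s2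
  have r := discrim_le_zero q
  rw [discrim] at r
  rcases (show 0 ≤ C ^ 2 + E ^ 2 by positivity).eq_or_lt with z | z
  · rw [← z]
    nlinarith [mul_nonneg a b]
  · refine le_of_mul_le_mul_left ?_ z
    nlinarith

theorem DT_dfr {t : ℝ} {y : X3} (hU : ∀ i, DifferentiableAt ℝ (fun z => U z i) (t, y)) :
    DT (dfr U (t, y)) = DT (dsl (sl U t) y) := by
  funext s
  rw [P354J.DT_dsl]
  funext i
  have k : ∀ j, pd j (fun z => sl U t z i) y = fderiv ℝ (fun z => U z i) (t, y) (0, e j) := by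
    intro j
    have h1 : HasFDerivAt (fun z : X3 => ((t, z) : R4)) (ContinuousLinearMap.inr ℝ ℝ X3) y :=
      hasFDerivAt_prodMk_right t y
    have h2 := ((hU i).hasFDerivAt.comp y h1).fderiv
    unfold pd
    exact congrFun (congrArg DFunLike.coe h2) (e j)
  simp only [P354J.DT_apply, Pi.smul_apply, P354J.fd, k, dfr, smul_eq_mul, Finset.mul_sum,
    ← mul_assoc]
  simp only [← smul_eq_mul (a := tang s _), ← smul_eq_mul (a := P354J.cT s * _), ← map_smul,
    ← map_sum]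
  congr 1
  fin_cases s <;>
    simp [tang, P354J.cT, P354J.Eu, fr, P354C.vec, E, e, sl, Fin.sum_univ_four,
      Fin.sum_univ_three]
  ring_nf
  simp

/-- No torsion at a point where the first order constraints hold. -/
theorem tor_of (hD : IsOpen D) (hU : SmU U D) (hS : ∀ p ∈ D, detP (U p) ≠ 0 ∧ Solves U p)
    (hp : p ∈ D) (hc : Con1 (U p) (DT (dfr U p))) :
    (∀ x y μ, torC (U p) (dEof (dfr U p)) x y μ = 0) ∧ ∀ x, dfr U p x O = U p O * sg (U p) x := by
  have hP : ∀ p ∈ D, detP (U p) ≠ 0 := fun p hp => (hS p hp).1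
  have R := red hD hU hP fun p hp => (hS p hp).2
  have ht : ∀ s t μ, ∑ x, ∑ y, tang s x * tang t y * torC (U p) (dEof (dfr U p)) x y μ = 0 :=
    fun s t μ => by rw [P354J.torT_eq, hc.1, sub_self]
  have hT : ∀ x y m, ev ⟨p, hp⟩ ((FA hD hU hP).T (Gam (UA hU)) x y m) = 0 := fun x y m => by
    refine form_zero (D := fun x y => ev ⟨p, hp⟩ ((FA hD hU hP).T (Gam (UA hU)) x y m))
      (fun x y => by rw [T_anti, map_neg]) (fun x => by simp [Fr.T, Fr.diag]) ?_ (fun s t => ?_) x y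
    · by_cases hm : m = 1
      · exact Or.inl fun y => by rw [hm, R.tl, map_zero]
      · exact Or.inr fun y => by rw [R.tn _ _ hm, map_zero]
    · have h0 := ht s t 0
      have h1 := ht s t 1
      have h2 := ht s t 2
      have h3 := ht s t 3
      simp only [T_tor, map_sum, map_mul, map_torC, ev_UA, ev_dd]
      simp only [Fin.sum_univ_four] at h0 h1 h2 h3 ⊢
      linear_combination ev ⟨p, hp⟩ (thA (UA hU) hA (dA hU hP) m 0) * h0 +
        ev ⟨p, hp⟩ (thA (UA hU) hA (dA hU hP) m 1) * h1 +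
        ev ⟨p, hp⟩ (thA (UA hU) hA (dA hU hP) m 2) * h2 +
        ev ⟨p, hp⟩ (thA (UA hU) hA (dA hU hP) m 3) * h3
  refine ⟨fun x y μ => ?_, fun x => ?_⟩
  · rw [← ev_dd hD hU hP ⟨p, hp⟩, ← ev_UA hU ⟨p, hp⟩, ← map_torC, tor_T]
    simp [hT]
  · have e : ev ⟨p, hp⟩ (SO (FA hD hU hP) (UA hU) 1) = dfr U p 1 O - U p O * sg (U p) 1 := by
      rw [SO, map_sub, map_mul, map_sg, ev_UA]
      exact congrArg₂ _ (congrFun (congrFun (ev_dd hD hU hP ⟨p, hp⟩) 1) O) rfl
    rw [R.SO, map_zero] at e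
    have a := hc.2 0
    have b := hc.2 1
    have c := hc.2 2
    simp [P354J.DT_apply, tang, Fin.sum_univ_four, P354J.sgT] at a b c
    revert x
    refine fin4 ?_ ?_ ?_ ?_ <;> simp only [sg, Matrix.cons_val] at e ⊢
    · linear_combination a - e
    · linear_combination -e
    · exact b
    · exact c

theorem conn_at (hD : IsOpen D) (h : SmU U D) (hU : ∀ p ∈ D, detP (U p) ≠ 0 ∧ U p O ≠ 0)
    (hp : p ∈ D) (ht : (∀ x y μ, torC (U p) (dEof (dfr U p)) x y μ = 0) ∧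
      ∀ x, dfr U p x O = U p O * sg (U p) x) : IsConn (met U) (con U) p := by
  have he := P354Q.frame_fe hD (P354Q.sm7_of h) fun p hp => (hU p hp).1
  have hg := P354Q.isMet_fe (P354Q.sm7_of h) (fun p hp => (hU p hp).1) fun p hp => (hU p hp).2
  obtain ⟨B, K, hS⟩ := P354Q.exists_sm P354Q.eta_ok he hg
  have hN := hS.nab P354Q.eta_ok he hg hp (P354Q.isCo_gm U p) (fun a => by
    have h1 := P354Q.dd_mul (X := P354Q.fe U a) (P354Q.diffAt hD (h O) hp)
      (P354Q.diffAt hD (h O) hp)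
    have h2 : P354Q.dd (P354Q.fe U a) (fun z => U z O) p = U p O * sg (U p) a := ht.2 a
    simp only [sq]
    rw [h1, h2]
    ring) ((P354Q.noTor_iff hD (P354Q.sm7_of h) hp).2 ht.1)
  intro a b c
  have := P354Q.conn_formula he (θ := fun y => th (U y)) (fun y hy => fr_th (hU y hy).1) hp hN a b
  rw [show con U p a b = K p a b from this.symm]
  exact hS.isConn hp a b c

theorem vac_of (hD : IsOpen D) (h : SmU U D)
    (hU : ∀ p ∈ D, detP (U p) ≠ 0 ∧ U p O ≠ 0 ∧ Full (U p) (dfr U p)) : Vac (met U) D :=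
  ⟨con U, fun p hp =>
    have a := P354Q.vac U D hD h (fun p hp => ⟨(hU p hp).1, (hU p hp).2.1, (hU p hp).2.2.tor,
      (hU p hp).2.2.dO⟩) p hp
    ⟨a.1, a.2.2 (hU p hp).2.2⟩⟩

end Vale.Agent.P354LC
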