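import Vale.Agent.P354LC.St
import Vale.Agent.P354Q.Vac

/-!
Time derivatives from the equation, and bounds for the metric.
-/

set_option maxSynthPendingDepth 3
set_option backward.isDefEq.respectTransparency false

open scoped ContDiff
open Set Filter Topology

namespace Vale.Agent.P354LC

open Vale.Agent.P354H
open Vale.Agent.P354n (R4)
open Vale.Agent.P354C (Ix detP th met eta cp)

/-- The coefficients are constant. -/
def Cst {V : Type} [NormedAddCommGroup V] [NormedSpace ℝ V] (S : Sys V) : Prop :=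
  ∀ p, (∀ j, S.a j p = S.a j 0 ∧ S.l j p = S.l j 0) ∧ S.b p = S.b 0 ∧ S.q p = S.q 0

theorem tp_dt {V : Type} [NormedAddCommGroup V] [NormedSpace ℝ V] {S : Sys V} (hS : Cst S)
    (k : ℕ) (c : ℝ) : ∃ C, ∀ O a ε W W', (∀ p ∈ O, S.Holds W p ∧ S.Holds W' p) →
      Tp O (k + 1) a ε W W' c → Tp O k a ε (dv (1, 0) W) (dv (1, 0) W') C := by
  refine ⟨?c, fun O a ε W W' H h => ?h⟩
  case h =>
    have h0 := h.mono k.le_succ le_rfl le_rfl
    have x := fun j => h.dv (v := (0, e j)) (Or.inl ⟨j, rfl, rfl⟩)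
    have t := fun j => ((x j).clm (S.a j 0)).add (h0.bil (x j) (S.l j 0))
    have key : ∀ (W : ℝ × X3 → V) p, S.Holds W p → dv (1, 0) W p =
        S.a 0 0 (dv (0, e 0) W p) + S.l 0 0 (W p) (dv (0, e 0) W p) +
        (S.a 1 0 (dv (0, e 1) W p) + S.l 1 0 (W p) (dv (0, e 1) W p)) +
        (S.a 2 0 (dv (0, e 2) W p) + S.l 2 0 (W p) (dv (0, e 2) W p)) +
        (S.b 0 (W p) + S.q 0 (W p) (W p)) := fun W p hp => by
      refine Eq.trans hp ?_
      simp only [Sys.A, Sys.F, Fin.sum_univ_three, add_apply, ((hS p).1 _).1, ((hS p).1 _).2,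
        (hS p).2.1, (hS p).2.2]
      rfl
    exact ((((t 0).add (t 1)).add (t 2)).add ((h0.clm (S.b 0)).add (h0.bil h0 (S.q 0)))).congr
      (fun p hp => key W p (H p hp).1) fun p hp => key W' p (H p hp).2

theorem tp_time {V : Type} [NormedAddCommGroup V] [NormedSpace ℝ V] {S : Sys V} (hS : Cst S)
    (k : ℕ) (c : ℝ) (a : ℕ) : ∃ C, ∀ O ε W W', (∀ p ∈ O, S.Holds W p ∧ S.Holds W' p) →
      Tp O (k + 1) 0 ε W W' c → Tp O (k + 1) a ε W W' C := by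
  induction a with
  | zero => exact ⟨c, fun _ _ _ _ _ h => h⟩
  | succ a ih =>
    obtain ⟨C, hC⟩ := ih
    obtain ⟨C', hC'⟩ := tp_dt hS k C
    exact ⟨max C C', fun O ε W W' H h => ((hC O ε W W' H h).mono le_rfl le_rfl
      (le_max_left _ _)).step ((hC' O a ε W W' H (hC O ε W W' H h)).mono le_rfl le_rfl
        (le_max_right _ _))⟩

/-- Functions of the unknowns which obey the bounds. -/
def Nice (Φ : (Ix → ℝ) → ℝ) : Prop :=
  ∀ (k : ℕ) (c c0 : ℝ), 0 < c0 → ∃ C, ∀ O ε (U U' : ℝ × X3 → Ix → ℝ),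
    (∀ p ∈ O, c0 ≤ |detP (U p)| ∧ c0 ≤ |detP (U' p)|) → Tp O k k ε U U' c →
      Tp O k k ε (fun p => Φ (U p)) (fun p => Φ (U' p)) C

section
variable {Φ Ψ : (Ix → ℝ) → ℝ}

theorem nice_const (r : ℝ) : Nice fun _ => r := fun _ _ _ _ => ⟨_, fun _ _ _ _ _ h => h.const r⟩

theorem nice_co (i : Ix) : Nice fun u => u i := fun _ _ _ _ =>
  ⟨_, fun _ _ _ _ _ h => h.clm (ContinuousLinearMap.proj (R := ℝ) (φ := fun _ : Ix => ℝ) i)⟩

theorem Nice.add (h : Nice Φ) (h' : Nice Ψ) : Nice fun u => Φ u + Ψ u := fun k c c0 h0 =>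
  let ⟨_, a⟩ := h k c c0 h0
  let ⟨_, b⟩ := h' k c c0 h0
  ⟨_, fun O ε U U' H t => (a O ε U U' H t).add (b O ε U U' H t)⟩

theorem Nice.mul (h : Nice Φ) (h' : Nice Ψ) : Nice fun u => Φ u * Ψ u := fun k c c0 h0 =>
  let ⟨_, a⟩ := h k c c0 h0
  let ⟨_, b⟩ := h' k c c0 h0
  ⟨_, fun O ε U U' H t => (a O ε U U' H t).bil (b O ε U U' H t) (ContinuousLinearMap.mul ℝ ℝ)⟩

theorem Nice.congr (h : Nice Φ) (e : ∀ u, Ψ u = Φ u) : Nice Ψ := by
  rwa [show Ψ = Φ from funext e]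

theorem Nice.neg (h : Nice Φ) : Nice fun u => -Φ u :=
  ((nice_const (-1)).mul h).congr fun u => by ring

theorem Nice.sub (h : Nice Φ) (h' : Nice Ψ) : Nice fun u => Φ u - Ψ u :=
  (h.add h'.neg).congr fun u => by ring

theorem nice_det : Nice detP := ((nice_co _).mul (nice_co _)).sub ((nice_co _).mul (nice_co _))

theorem nice_inv : Nice fun u => (detP u)⁻¹ := fun k c c0 h0 =>
  let ⟨C, a⟩ := nice_det k c c0 h0
  let ⟨_, b⟩ := tp_inv k C h0
  ⟨_, fun O ε U U' H t => b O k ε _ _ H (a O ε U U' H t)⟩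

theorem nice_th (a : R4) (k : Fin 4) : Nice fun u => th u a k := by
  have c := (nice_const a.2.2.1).sub ((nice_co Ix.b1).mul (nice_const ((a.1 + a.2.1) / 2)))
  have d := (nice_const a.2.2.2).sub ((nice_co Ix.b2).mul (nice_const ((a.1 + a.2.1) / 2)))
  revert k
  refine P354Q.fin4 (nice_const _) (nice_const _) ?_ ?_
  · exact (((nice_co Ix.P22).mul c).sub ((nice_co Ix.P21).mul d)).mul nice_inv
  · exact (((nice_co Ix.P11).mul d).sub ((nice_co Ix.P12).mul c)).mul nice_inv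

theorem nice_met (a b : R4) : Nice fun u => u Ix.O ^ 2 * eta (th u a) (th u b) := by
  have x := nice_th a
  have y := nice_th b
  exact (((nice_co Ix.O).mul (nice_co Ix.O)).mul
    (((((nice_const 2).mul (((x 0).mul (y 1)).add ((x 1).mul (y 0)))).neg).add
      ((x 2).mul (y 2))).add ((x 3).mul (y 3)))).congr fun u => by rw [pow_two]; rfl

end

/-- The coordinate vectors. -/
def bs : Fin 4 → R4 := ![(1, 0, 0, 0), (0, 1, 0, 0), (0, 0, 1, 0), (0, 0, 0, 1)]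

theorem bs_dec (v : R4) : v = ∑ μ, cp v μ • bs μ := by
  simp [bs, cp, Fin.sum_univ_four]

theorem cp_le (v : R4) (μ : Fin 4) : |cp v μ| ≤ ‖v‖ := by
  revert μ
  exact P354Q.fin4 (norm_fst_le v) ((norm_fst_le v.2).trans (norm_snd_le v))
    ((norm_fst_le v.2.2).trans ((norm_snd_le v.2).trans (norm_snd_le v)))
    ((norm_snd_le v.2.2).trans ((norm_snd_le v.2).trans (norm_snd_le v)))

theorem met_dec (U : R4 → Ix → ℝ) (p v w : R4) :
    met U p v w = ∑ μ, ∑ ν, (cp v μ * cp w ν) * met U p (bs μ) (bs ν) := by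
  have e : ∀ v, th (U p) v = ∑ μ, cp v μ • th (U p) (bs μ) := fun v => by
    conv_lhs => rw [bs_dec v]
    simp only [Fin.sum_univ_four, (P354Q.th_lin _).map_add, (P354Q.th_lin _).map_smul]
  rw [met, e v, e w]
  simp only [met, eta, Fin.sum_univ_four, Pi.add_apply, Pi.smul_apply, smul_eq_mul]
  ring

theorem pk_sum {O : Set (ℝ × X3)} (hO : IsOpen O) {k a : ℕ} {c : ℝ} {f : Fin 4 → ℝ × X3 → ℝ}
    (h : ∀ μ, Pk O k a (f μ) c ∧ ContDiffOn ℝ ∞ (f μ) O) :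
    Pk O k a (fun p => ∑ μ, f μ p) (4 * c) ∧ ContDiffOn ℝ ∞ (fun p => ∑ μ, f μ p) O :=
  ⟨(((((h 0).1.add hO (h 1).1 (h 0).2 (h 1).2).add hO (h 2).1 ((h 0).2.add (h 1).2)
    (h 2).2).add hO (h 3).1 (((h 0).2.add (h 1).2).add (h 2).2) (h 3).2).congr hO fun p _ => by
      rw [Fin.sum_univ_four]).mono le_rfl le_rfl (le_of_eq (by ring)),
    ContDiffOn.sum fun μ _ => (h μ).2⟩

theorem iter_bil {O : Set (ℝ × X3)} (hO : IsOpen O) {k : ℕ} {c : ℝ} (hc : 0 ≤ c)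
    {G : Fin 4 → Fin 4 → ℝ × X3 → ℝ} (h : ∀ μ ν, Pk O k k (G μ ν) c ∧ ContDiffOn ℝ ∞ (G μ ν) O)
    {j : ℕ} (hj : j ≤ k) (v w : R4) {p : R4} (hp : p ∈ O) :
    ‖iteratedFDeriv ℝ j (fun x => ∑ μ, ∑ ν, (cp v μ * cp w ν) * G μ ν x) p‖ ≤
      4 ^ k * (16 * c) * (‖v‖ * ‖w‖) := by
  have a := pk_sum hO (c := 4 * (‖v‖ * ‖w‖ * c)) fun μ => pk_sum hO (k := j) (a := j)
    (f := fun ν x => (cp v μ * cp w ν) * G μ ν x) fun ν => ⟨(((h μ ν).1.clm hO
      (ContinuousLinearMap.mul ℝ ℝ (cp v μ * cp w ν)) (h μ ν).2).mono hj hj (by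
        refine mul_le_mul_of_nonneg_right ?_ hc
        rw [ContinuousLinearMap.opNorm_mul_apply, norm_mul]
        exact mul_le_mul (cp_le v μ) (cp_le w ν) (abs_nonneg _) (norm_nonneg _))),
      contDiffOn_const.mul (h μ ν).2⟩
  refine (Pk.iter hO j _ _ _ a.2 a.1 p hp).trans ?_
  have : (4 : ℝ) ^ j ≤ 4 ^ k := pow_le_pow_right₀ (by norm_num) hj
  calc (4 : ℝ) ^ j * (4 * (4 * (‖v‖ * ‖w‖ * c))) ≤ 4 ^ k * (4 * (4 * (‖v‖ * ‖w‖ * c))) := by
        gcongr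
    _ = _ := by ring

/-- Bounds for the metric and for the difference of two metrics. -/
theorem met_bd (k : ℕ) (c : ℝ) {c0 : ℝ} (h0 : 0 < c0) : ∃ C, ∀ O ε (U U' : ℝ × X3 → Ix → ℝ),
    (∀ p ∈ O, c0 ≤ |detP (U p)| ∧ c0 ≤ |detP (U' p)|) → Tp O k k ε U U' c → ∀ p ∈ O, ∀ j ≤ k,
      ∀ v w : R4, ‖iteratedFDeriv ℝ j (fun x => met U x v w) p‖ ≤ C * (‖v‖ * ‖w‖) ∧
        ‖iteratedFDeriv ℝ j (fun x => met U x v w - met U' x v w) p‖ ≤ C * ε * (‖v‖ * ‖w‖) := by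
  choose C hC using fun μ ν => nice_met (bs μ) (bs ν) k c c0 h0
  obtain ⟨C1, h1⟩ := (finite_range fun q : Fin 4 × Fin 4 => C q.1 q.2).bddAbove
  refine ⟨4 ^ k * (16 * C1), fun O ε U U' H t p hp j hj v w => ?_⟩
  have a := fun μ ν => (hC μ ν O ε U U' H t).mono le_rfl le_rfl (h1 ⟨(μ, ν), rfl⟩)
  have b1 := iter_bil t.op (a 0 0).hc (fun μ ν => ⟨(a μ ν).b, (a μ ν).s⟩) hj v w hp
  have b2 := iter_bil t.op (mul_nonneg (a 0 0).hc t.he)
    (fun μ ν => ⟨(a μ ν).d, (a μ ν).s.sub (a μ ν).s'⟩) hj v w hp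
  constructor
  · rw [show (fun x => met U x v w) = _ from funext fun x => met_dec U x v w]
    exact b1
  · rw [show (fun x => met U x v w - met U' x v w) = fun x => ∑ μ, ∑ ν, (cp v μ * cp w ν) *
      (met U x (bs μ) (bs ν) - met U' x (bs μ) (bs ν)) from funext fun x => by
        rw [met_dec U x v w, met_dec U' x v w]
        simp only [mul_sub, Finset.sum_sub_distrib]]
    exact b2.trans (le_of_eq (by ring))

end Vale.Agent.P354LC
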