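import Vale.Agent.P354LC.Dat
import Vale.Agent.P354LC.Geo
import Vale.Agent.P354LC.Nice
import Vale.Agent.P354H.Fin

/-!
The proof of LOC.
-/

set_option backward.isDefEq.respectTransparency false

open scoped ContDiff
open Set Filter Topology

noncomputable section

namespace Vale.Agent.P354LC

open Vale.Agent.P354H Vale.Agent.P354C Vale.Agent.P354C.Ix
open Vale.Agent.P354n (R4)
open Vale.Agent.P354I (X Dat ee)
open Vale.Agent.P354J (nU)
open Vale.Agent.P354XE (pt)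
open Vale.Agent.P354CS (sysK Di Di_le pert_eq)

/-- The system for the perturbation of the flat background, and the unknowns. -/
def S0 : Sys (EuclideanSpace ℝ Ix) := sysK fun _ => K0
def Uw (W : R4 → EuclideanSpace ℝ Ix) (p : R4) : Ix → ℝ := K0 + Di (W p)

theorem S0_ok : S0.OK := P354CS.sysK_ok contDiff_const

theorem S0_bd (I : Set ℝ) : S0.Bd I fun _ => 10000 * (1 + ‖K0‖) :=
  P354CS.sysK_bd contDiff_const I (fun _ => ‖K0‖) fun k _ _ i =>
    P354CS.sb_const k (norm_le_pi_norm K0 i)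

theorem S0_bk (t : ℝ) (k : ℕ) : BdK S0 t k (10000 * (1 + ‖K0‖)) := S0_bd univ k t trivial

theorem S0_cst : Cst S0 := fun p => ⟨fun _ => ⟨rfl, rfl⟩, by simp [S0, sysK, dx], rfl⟩

theorem slab_open (δ : ℝ) : IsOpen (slab δ) := isOpen_lt continuous_fst.abs continuous_const

theorem Uw_sm {W : R4 → EuclideanSpace ℝ Ix} (h : ContDiff ℝ ∞ W) : ContDiff ℝ ∞ (Uw W) :=
  contDiff_const.add (Di.contDiff.comp h)

theorem Uw_solves {W : R4 → EuclideanSpace ℝ Ix} {p : R4} (h : DifferentiableAt ℝ W p)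
    (H : S0.Holds W p) : Solves (Uw W) p := fun i => by
  have a := (P354CS.holds_iff (differentiableAt_const _) h).1 H i
  rw [pert_eq, show dfr (fun _ => K0) p = fun _ _ => 0 from funext fun _ => funext fun _ => by
    simp [dfr], K0_res] at a
  exact a

theorem dif_self (m : ℕ) (d : Dat) : Dif m 0 d d := fun j _ a b y => by
  simp [iteratedFDeriv_fun_zero]

theorem Dif.low {m m' : ℕ} {ε : ℝ} {d d' : Dat} (h : Dif m ε d d') (hm : m' ≤ m) :
    Dif m' ε d d' := fun j hj => h j (hj.trans hm)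

theorem tp_of {V : Type} [NormedAddCommGroup V] [NormedSpace ℝ V] {W W' : R4 → V} {δ ε c : ℝ}
    {k : ℕ} (h : ContDiff ℝ ∞ W) (h' : ContDiff ℝ ∞ W') (hε : 0 ≤ ε) (hc : 0 ≤ c)
    (b : ∀ t, |t| ≤ δ → Sb k (sl W t) c ∧ Sb k (sl W' t) c ∧ Sb k (sl W t - sl W' t) (c * ε)) :
    Tp (slab δ) k 0 ε W W' c :=
  ⟨slab_open δ, hε, hc, h.contDiffOn, h'.contDiffOn,
    pk_of_sb h fun p hp => (b p.1 (le_of_lt hp)).1,
    pk_of_sb h' fun p hp => (b p.1 (le_of_lt hp)).2.1,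
    pk_of_sb (h.sub h') fun p hp => (b p.1 (le_of_lt hp)).2.2⟩

theorem det_lip {u u' : Ix → ℝ} {M η : ℝ} (h : ∀ i, |u i| ≤ M) (h' : ∀ i, |u' i| ≤ M)
    (e : ∀ i, |u i - u' i| ≤ η) : detP u' - 4 * (M * η) ≤ detP u := by
  have k : ∀ i j, |u i * u j - u' i * u' j| ≤ 2 * (M * η) := fun i j => by
    rw [show u i * u j - u' i * u' j = u j * (u i - u' i) + u' i * (u j - u' j) by ring, two_mul]
    refine (abs_add_le _ _).trans (add_le_add ?_ ?_) <;> rw [abs_mul]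
    · exact mul_le_mul (h j) (e i) (abs_nonneg _) ((abs_nonneg _).trans (h i))
    · exact mul_le_mul (h' i) (e j) (abs_nonneg _) ((abs_nonneg _).trans (h i))
  have a := abs_le.1 (k P11 P22)
  have b := abs_le.1 (k P12 P21)
  unfold detP
  linarith [a.1, b.2]

/-- The solution with the data d. -/
structure Cor (d : Dat) (δ c0 M r : ℝ) (W : R4 → EuclideanSpace ℝ Ix) : Prop where
  sol : Sl S0 δ W
  init : sl W 0 = W0 d
  nk : ∀ t, |t| ≤ δ → Nk 8 (sl W t) r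
  bd : ∀ p ∈ slab δ, (∀ i, |Uw W p i| ≤ M) ∧ c0 ≤ Uw W p O ∧ c0 ≤ detP (Uw W p)

theorem Uw_zero {d : Dat} {W : R4 → EuclideanSpace ℝ Ix} (h : sl W 0 = W0 d) :
    sl (Uw W) 0 = UU d := funext fun x => by
  rw [sl, Uw, show W (0, x) = W0 d x from congrFun h x, W0, P354CU.Di_Dm, add_sub_cancel]

theorem core (ρ B : ℝ) {c : ℝ} (hc : 0 < c) : ∃ δ c0 M r : ℝ, 0 < δ ∧ δ ≤ 1 ∧ 0 < c0 ∧ 1 ≤ M ∧
    ∀ d, ∃ W, Adm ρ c d → Dif 12 B d eu → Cor d δ c0 M r W := by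
  obtain ⟨C, -, hC⟩ := W0_bd hc ρ 8 B
  obtain ⟨δ1, p1, q1, hl⟩ := localEx (fun _ => 10000 * (1 + ‖K0‖)) (C ^ 2)
  obtain ⟨δ0, p0, -, r, hr⟩ := apr0 (V := EuclideanSpace ℝ Ix) (10000 * (1 + ‖K0‖)) C
  obtain ⟨C1, h1⟩ := tp_dt S0_cst 0 (3 * r)
  obtain ⟨c0, c0p, h0⟩ := UU_low hc B
  obtain ⟨M, hM⟩ : ∃ M, M = ‖K0‖ + 3 * |r| + 1 := ⟨_, rfl⟩
  have M1 : 1 ≤ M := by rw [hM]; exact le_add_of_nonneg_left (by positivity)
  obtain ⟨δ, d0, d1, d2, d3⟩ : ∃ δ, 0 < δ ∧ δ ≤ δ1 ∧ δ ≤ δ0 ∧ 4 * (M * (|C1| * δ)) ≤ c0 / 2 := by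
    have : 0 < c0 / 2 / (4 * (M * |C1|) + 1) := by positivity
    refine ⟨min (min δ1 δ0) (c0 / 2 / (4 * (M * |C1|) + 1)), lt_min (lt_min p1 p0) this,
      (min_le_left _ _).trans (min_le_left _ _), (min_le_left _ _).trans (min_le_right _ _), ?_⟩
    have a := (le_div_iff₀ (by positivity)).1
      (min_le_right (min δ1 δ0) (c0 / 2 / (4 * (M * |C1|) + 1)))
    nlinarith [lt_min (lt_min p1 p0) this]
  refine ⟨δ, c0 / 2, M, r, d0, d1.trans q1, by positivity, M1, fun d => ?_⟩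
  by_cases H : Adm ρ c d ∧ Dif 12 B d eu
  swap
  · exact ⟨0, fun a b => (H ⟨a, b⟩).elim⟩
  obtain ⟨h, hB⟩ := H
  obtain ⟨g, n, -⟩ := hC d d 0 h h (hB.low (by norm_num)) (hB.low (by norm_num)) (dif_self _ d)
  obtain ⟨W, s1, s2, s3, s4⟩ := hl _ S0 0 (W0 d) S0_ok (S0_bd _) g n.hk
  have s : Sl S0 δ W := ⟨S0_ok, s1, s2, fun p hp => s4 p (by
    have := abs_le.1 (hp.trans d1)
    constructor <;> linarith [this.1, this.2])⟩
  have a := hr S0 W δ d2 s (fun t _ => S0_bk t 8) (s3 ▸ n)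
  have b : ∀ t, |t| ≤ δ → Sb 1 (sl W t) (3 * r) := fun t ht =>
    Nk.sb ((a t ht).low (by norm_num)) (s.good t)
  have r0 : 0 ≤ r := (a 0 (by simpa using d0.le)).nonneg
  have b1 := (h1 _ 0 0 W W (fun p hp => ⟨s.eq p (le_of_lt hp), s.eq p (le_of_lt hp)⟩)
    (tp_of s1 s1 le_rfl (by positivity) fun t ht => ⟨b t ht, b t ht, by
      rw [sub_self]; exact sb_zero' _ (by simp)⟩)).b.zero
  have bU : ∀ p ∈ slab δ, ∀ i, |Uw W p i| ≤ M := fun p hp i => by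
    refine (norm_le_pi_norm (Uw W p) i).trans ((norm_add_le _ _).trans ?_)
    have := P354CS.ap_le Di_le ((b p.1 (le_of_lt hp)).zero p.2)
    rw [hM, abs_of_nonneg r0]
    exact (add_le_add le_rfl this).trans (by linarith)
  refine ⟨W, fun _ _ => ⟨s, s3, a, fun p hp => ?_⟩⟩
  have z : ((0, p.2) : R4) ∈ slab δ := by simpa [slab] using d0
  have l := Convex.norm_image_sub_le_of_norm_hasDerivWithin_le (𝕜 := ℝ) (s := Ioo (-δ) δ)
    (f := fun t => W (t, p.2)) (f' := fun t => dv (1, 0) W (t, p.2)) (C := C1)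
    (fun t _ => ((s1.differentiable (by simp) (t, p.2)).hasFDerivAt.comp_hasDerivAt t
      ((hasDerivAt_id t).prodMk (hasDerivAt_const t p.2))).hasDerivWithinAt)
    (fun t ht => b1 (t, p.2) (abs_lt.2 ht)) (convex_Ioo _ _) (abs_lt.1 z) (abs_lt.1 hp)
  have e : ∀ i, |Uw W p i - Uw W (0, p.2) i| ≤ |C1| * δ := fun i => by
    refine (norm_le_pi_norm (Uw W p - Uw W (0, p.2)) i).trans ?_
    rw [Uw, Uw, add_sub_add_left_eq_sub, ← map_sub]
    refine (P354CS.ap_le Di_le l).trans ?_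
    rw [one_mul, sub_zero]
    exact mul_le_mul (le_abs_self _) (le_of_lt hp) (norm_nonneg _) (abs_nonneg _)
  have i0 := h0 ρ d h (hB.low (by norm_num)) p.2
  rw [← Uw_zero s3] at i0
  have e1 := det_lip (bU p hp) (bU _ z) e
  have e2 := (abs_le.1 (e O)).1
  have e3 : |C1| * δ ≤ M * (|C1| * δ) := le_mul_of_one_le_left (by positivity) M1
  have e4 : 0 ≤ |C1| * δ := by positivity
  unfold sl at i0
  exact ⟨bU p hp, by linarith [i0.1], by linarith [i0.2]⟩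

theorem pd_pt (i : Fin 3) : P354I.pd i (pt 0) = fun _ => ((0, e i) : R4) := funext fun y => by
  have := ((ContinuousLinearMap.inr ℝ ℝ X3).comp io.symm.toContinuousLinearMap).fderiv (x := y)
  unfold P354I.pd
  rw [show fderiv ℝ (pt 0) y = _ from this, ← io_e]
  simp

theorem Cor.sol' {d : Dat} {ρ c δ c0 M r : ℝ} {W : R4 → EuclideanSpace ℝ Ix} (h : Adm ρ c d)
    (hc : 0 < c) (d0 : 0 < δ) (h0 : 0 < c0) (M1 : 1 ≤ M) (H : Cor d δ c0 M r W) :
    Sol d δ (min (min M⁻¹ (c0 / M)) (c0 ^ 2 / (4 * M ^ 2))) (met (Uw W))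
      (fun p => nU (Uw W p)) := by
  have sU := contDiff_pi.1 (Uw_sm H.sol.sm)
  have sm : ∀ D, SmU (Uw W) D := fun D i => (sU i).contDiffOn
  have dU := fun p i => (sU i).differentiable (by simp) p
  have hO : ∀ p ∈ slab δ, 0 < Uw W p O := fun p hp => h0.trans_le (H.bd p hp).2.1
  have hP : ∀ p ∈ slab δ, detP (Uw W p) ≠ 0 := fun p hp => (h0.trans_le (H.bd p hp).2.2).ne'
  have hS : ∀ p ∈ slab δ, detP (Uw W p) ≠ 0 ∧ Solves (Uw W) p := fun p hp =>
    ⟨hP p hp, Uw_solves (H.sol.sm.differentiable (by simp) p) (H.sol.eq p (le_of_lt hp))⟩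
  have i0 := Uw_zero H.init
  have i1 : ∀ x, Uw W (0, x) = UU d x := congrFun i0
  have L := (P354J.sl1 _ _ (h.pd hc)).2
  have sn := sm_nU (sm (slab δ)) fun p hp => (hO p hp).ne'
  refine ⟨P354P.met_Met (sm _) fun p hp => ⟨(hO p hp).ne', hP p hp⟩,
    fun p hp => met_sig (hP p hp) (hO p hp).ne', sn, fun p hp => ⟨?_, ?_, fun v => ?_⟩,
    fun p hp v => ?_, fun y => ?_, fun D hD hs hL => ?_⟩
  · rw [nU_fst]
    exact ((min_le_left _ _).trans (min_le_left _ _)).trans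
      (inv_anti₀ (hO p hp) ((le_abs_self _).trans ((H.bd p hp).1 O)))
  · refine (nU_le M1 (H.bd p hp).1 h0 (H.bd p hp).2.1).trans ?_
    rw [← inv_div]
    exact inv_anti₀ (by positivity) ((min_le_left _ _).trans (min_le_right _ _))
  · rw [nU_fst, met_nU (hP p hp) (hO p hp).ne', mul_neg, inv_mul_cancel_left₀ (hO p hp).ne']
  · exact (mul_le_mul_of_nonneg_right (min_le_right _ _) (sq_nonneg _)).trans
      (met_pos M1 (H.bd p hp).1 h0 (H.bd p hp).2.1 (hP p hp) v)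
  · obtain ⟨x, rfl⟩ := io.surjective y
    have z : ((0, x) : R4) ∈ slab δ := by simpa [slab] using d0
    have c1 := conn_at (slab_open δ) (sm _) (fun p hp => ⟨hP p hp, (hO p hp).ne'⟩) z
      (tor_of (slab_open δ) (sm _) hS z (by
        rw [DT_dfr (dU _), i0, i1]
        exact (h.pd hc).con0 x))
    obtain ⟨a, b⟩ := P354J.ind (Uw W) (0, x) (hP _ z) (hO _ z).ne'
    refine ⟨con (Uw W), nU (Uw W (0, x)), c1, a, a.trans_lt (by norm_num), fun i k => ?_⟩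
    have e := (L x).2.2.2.2.1 i k
    rw [pd_pt, pd_pt, show P354I.pd i (fun _ => ((0, P354H.e k) : R4)) (io x) = 0 by
      simp [P354I.pd], zero_add]
    refine ⟨(b _ 0).1, (b _ _).2.2.1.trans ?_, (b _ _).2.2.2.trans ?_⟩
    · rw [i1]; exact e.1
    · rw [i1]; exact e.2
  · have key : ∀ s : ℝ, s = 1 ∨ s = -1 → ∀ p, Lens (met (Uw W)) d δ s p →
        Full (Uw W p) (dfr (Uw W) p) := by
      rintro s hs p ⟨ι, _, φ, T, K, k1, k2, k3, k4, k5, k6, k7⟩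
      refine propag (Uw W) ι φ (slab δ) K s 0 T hs (slab_open δ) k1 k2 (sm _) hS k3
        (fun q hq hφ => ?_) (fun q hq hφ => ?_) p (by simpa using k6) k7
      · obtain ⟨a, b⟩ := k4 q (by simpa using hq) hφ
        exact ⟨a, fun i => causal_of hs (hP q (k2 a)) (b i)⟩
      · obtain ⟨t, x⟩ := q
        obtain rfl : t = 0 := hq
        rw [P354J.dslThm _ _ _ (dU _), i0, i1]
        refine (L x).2.2.2.2.2.1 (h.cc hc ?_)
        refine (eventually_all.2 fun i => (((k3 i).continuous.comp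
          (Continuous.prodMk_right 0)).continuousAt.eventually_lt continuousAt_const
          (hφ i))).mono fun z hz => k5 _ hz
    refine ⟨hD, P354P.met_Met (sm _) fun p hp => ⟨(hO p (hs hp)).ne', hP p (hs hp)⟩,
      vac_of hD (sm _) fun p hp => ⟨hP p (hs hp), (hO p (hs hp)).ne',
        (hL p hp).elim (key 1 (Or.inl rfl) p) (key _ (Or.inr rfl) p)⟩,
      fun p hp => met_sig (hP p (hs hp)) (hO p (hs hp)).ne', fun p hp => ?_,
      sn.continuousOn.mono hs⟩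
    exact (P354J.ind (Uw W) p (hP p (hs hp)) (hO p (hs hp)).ne').1.trans_lt (by norm_num)

theorem cor_est {c : ℝ} (hc : 0 < c) (ρ r B : ℝ) (k : ℕ) : ∃ C, ∀ δ c0 M d d' ε W W', δ ≤ 1 →
    Adm ρ c d → Adm ρ c d' → Dif (k + 12) B d eu → Dif (k + 12) B d' eu → Dif (k + 12) ε d d' →
    Cor d δ c0 M r W → Cor d' δ c0 M r W' → Tp (slab δ) k k ε (Uw W) (Uw W') C := by
  obtain ⟨C, C0, hC⟩ := W0_bd hc ρ (k + 8) B
  obtain ⟨c1, h1⟩ := aprk (V := EuclideanSpace ℝ Ix) (fun _ => 10000 * (1 + ‖K0‖)) r C k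
  obtain ⟨Γ, Γ0, h2⟩ := apr_dif (V := EuclideanSpace ℝ Ix) (k + 3) (10000 * (1 + ‖K0‖)) (3 * c1)
  obtain ⟨C2, h3⟩ := tp_time S0_cst k (3 * |c1| + 3 * (Γ * C)) k
  refine ⟨‖K0‖ + ‖Di‖ * C2, fun δ c0 M d d' ε W W' hδ h h' b b' hε H H' => ?_⟩
  have e0 : 0 ≤ ε := (norm_nonneg _).trans (hε 0 (Nat.zero_le _) 0 0 0).1
  obtain ⟨-, n1, n2⟩ := hC d d' ε h h' (b.low (by omega)) (b'.low (by omega)) (hε.low (by omega))
  obtain ⟨-, n3, -⟩ := hC d' d' 0 h' h' (b'.low (by omega)) (b'.low (by omega)) (dif_self _ _)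
  have a1 : ∀ t, |t| ≤ δ → Sb (k + 5) (sl W t) (3 * c1) := fun t ht => Nk.sb
    (h1 S0 W δ hδ H.sol (fun k t _ => S0_bk t k) H.nk (H.init ▸ n1) t ht) (H.sol.good t)
  have a2 : ∀ t, |t| ≤ δ → Sb (k + 5) (sl W' t) (3 * c1) := fun t ht => Nk.sb
    (h1 S0 W' δ hδ H'.sol (fun k t _ => S0_bk t k) H'.nk (H'.init ▸ n3) t ht) (H'.sol.good t)
  have a3 := h2 S0 W W' δ (C * ε) hδ H.sol H'.sol (fun t ht => ⟨S0_bk t _, a1 t ht, a2 t ht⟩)
    (by rw [H.init, H'.init]; exact n2.low (by omega))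
  have p1 := le_abs_self c1
  have p2 : 0 ≤ Γ * C := by positivity
  have p3 : 0 ≤ |c1| * ε := by positivity
  have t := (h3 _ ε W W' (fun p hp => ⟨H.sol.eq p (le_of_lt hp), H'.sol.eq p (le_of_lt hp)⟩)
    (tp_of H.sol.sm H'.sol.sm e0 (by positivity) fun t ht =>
      ⟨(a1 t ht).mono (by omega) (by linarith), (a2 t ht).mono (by omega) (by linarith),
        (Nk.sb (k := k + 1) (a3 t ht) ((H.sol.good t).sub (H'.sol.good t))).mono le_rfl
          (by linarith)⟩)).mono k.le_succ le_rfl le_rfl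
  exact (t.const K0).add (t.clm Di)

/-- **LOC.** -/
theorem loc : LOC := by
  intro ρ c B hc
  obtain ⟨δ, c0, M, r, d0, d1, h0, M1, H⟩ := core ρ B hc
  choose W hW using H
  refine ⟨δ, d0, _, by positivity, fun d => met (Uw (W d)), fun d p => nU (Uw (W d) p),
    fun d h b => (hW d h b).sol' h hc d0 h0 M1, fun k B' => ?_⟩
  obtain ⟨C, hC⟩ := cor_est hc ρ r B' k
  obtain ⟨C', hC'⟩ := met_bd k C h0
  have key := fun d d' ε h b b2 h' b' b2' hε => hC' (slab δ) ε _ _ (fun p hp =>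
    ⟨((hW d h b).bd p hp).2.2.trans (le_abs_self _),
      ((hW d' h' b').bd p hp).2.2.trans (le_abs_self _)⟩)
    (hC δ c0 M d d' ε _ _ d1 h h' b2 b2' hε (hW d h b) (hW d' h' b'))
  exact ⟨C', fun d h b b2 => ⟨fun p hp j hj v w =>
    (key d d 0 h b b2 h b b2 (dif_self _ d) p hp j hj v w).1,
    fun d' ε h' b' b2' hε p hp j hj v w => (key d d' ε h b b2 h' b' b2' hε p hp j hj v w).2⟩⟩

end Vale.Agent.P354LC
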