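import Vale.Agent.P354LC.Lcf
import Vale.Agent.P354NU.Num
import Vale.Agent.P354TS.Tz

/-! LCG: the geometric part of the link. -/

set_option linter.all false

open scoped ContDiff
open Set Filter Topology Function

noncomputable section

namespace Vale.Agent.P354LC

open Vale.Agent.P354n (R4)
open Vale.Agent.P354XG (E6)
open Vale.Agent.P354XD (pj)
open Vale.Agent.P354XE (Tw Bd gin rd En)
open Vale.Agent.P354XO Vale.Agent.P354CQ Vale.Agent.P354Z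
open Vale.Agent.P354YI (Jb ex_jb)
open Vale.Agent.P354YO (sh rd_sh sh_inv')
open Vale.Agent.P354CS (s6_mem pj_s6)
open Vale.Agent.P354NU (Nums bl)
open Vale.Agent.P354TS (ta tz_ok)
open Vale.Agent.P354MG (lo Lc)
open Vale.Agent.P354XR (rd_pj)

/-- The size k of the chart is small with respect to κ. -/
def Kk (M r1 Rs κ k : ℝ) (A : ℝ → ℝ) : Prop := 5 * k < κ ∧
  ∀ r ∈ Icc r1 (Rs + 1), ∀ s ∈ Icc r1 (Rs + 1), |r - s| ≤ k → |ta M A r - ta M A s| ≤ κ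

theorem ex_kk (M Rs : ℝ) {r1 κ : ℝ} {A : ℝ → ℝ} (h0 : 0 < r1) (hA : Continuous A) (κ0 : 0 < κ) :
    ∃ k' > 0, ∀ k ≤ k', Kk M r1 Rs κ k A := by
  have cb : ContinuousOn (ta M A) (Icc r1 (Rs + 1)) :=
    hA.continuousOn.sub (continuousOn_const.div continuousOn_id fun r m => (h0.trans_le m.1).ne')
  obtain ⟨δ, δ0, hδ⟩ := Metric.uniformContinuousOn_iff_le.1
    (isCompact_Icc.uniformContinuousOn_of_continuous cb) κ κ0
  exact ⟨min δ (κ / 6), by positivity, fun k hk => ⟨by linarith [hk.trans (min_le_right _ _)],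
    fun r m s m' j => hδ r m s m' (j.trans (hk.trans (min_le_left _ _)))⟩⟩

/-- The input. -/
structure Gi (z : Z1) (a0 : C1) (c : Cs) (n : Kn) (Lv : Set ℝ) (a : E6 → E6) (α : E6 → ℝ)
    (A B H : ℝ → ℝ) (k ti' ti tw cH us κ : ℝ) : Prop where
  ok : z.Ok
  nu : Nums z a0 A B H k ti' ti tw cH us
  M : c.M = z.M
  R1 : c.R1 = z.R1
  r1 : c.r1 = a0.r1
  del : c.del = a0.del
  t1 : c.t1 = a0.t1
  bt : c.bt = a0.bt
  su : Su c n Lv a α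
  nr : n.r1 = z.r1
  nt : n.τ = tz z A B c.Rs
  ti : ti' ≤ n.ti
  one : ∀ x : E6, x.1 < us → α x = 1
  kk : Kk c.M c.r1 c.Rs κ n.k A

namespace Gi
variable {z : Z1} {a0 : C1} {c : Cs} {n : Kn} {Lv : Set ℝ} {a a' : E6 → E6} {α : E6 → ℝ}
  {A B H : ℝ → ℝ} {k ti' ti tw cH us κ : ℝ} {U : Set E6} {x : E6} {p : R4} {E : Est}
  (h : Gi z a0 c n Lv a α A B H k ti' ti tw cH us κ)
include h

theorem pm : (lo z c.Rs).Ok := by
  obtain ⟨a1, a2, a3, -⟩ := h.su.nm.rad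
  exact (h.ok.ok c.Rs (by linarith [h.R1]) _ le_rfl).1.1

theorem r0 : 0 < a0.r1 ∧ a0.r1 < z.r1 := ⟨h.r1 ▸ h.su.num.1, h.nu.r1.2.1⟩

theorem tau (r : 0 < x.2.1) (ξ : x.2.2 ≠ 0) :
    (lo z c.Rs).tau (pj x) = n.τ ((hp' c.M A B x).1, (hp' c.M A B x).2.1) := by
  obtain ⟨a1, a2, a3, -⟩ := h.su.nm.rad
  obtain ⟨L, hL⟩ := tz_ok z A B h.ok h.nu.th
  obtain ⟨c1, -, e⟩ := hL c.Rs (by linarith [h.R1])
  rw [h.nt, ← e (z.R1 + 2) (hp' c.M A B x) ⟨r, hp_ne ξ⟩, h.M, ph_hp]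
  rfl

theorem psi_ge (r : 0 < rd p) (b : ℝ) :
    b ≤ (lo z c.Rs).psi p ↔ bl z (rd p) + (b + 2) * (z.del * rd p) ≤ p.1 := by
  rw [← not_lt, h.pm.psi_lt r, not_lt]; rfl

theorem dv (r : z.r1 < x.2.1) (ξ : x.2.2 ≠ 0) (t : (lo z c.Rs).tau (pj x) ∈ Lv) :
    hp' c.M A B x ∈ Om (Dv n.r1 n.τ Lv) :=
  ⟨⟨h.nr ▸ r, h.tau (by linarith [h.r0.1, h.r0.2]) ξ ▸ t⟩, hp_ne ξ⟩

theorem us0 : us < 0 ∧ 0 ≤ n.ti ∧ -(2 * c.R1) < us :=
  ⟨by linarith [h.nu.us3.2, h.su.nm.rad.1, h.R1], h.su.nm.t0, by linarith [h.nu.us3.1, h.R1]⟩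

theorem t_le (hx : hp' c.M A B x ∈ Om (Dv n.r1 n.τ Lv)) (t : x.1 - A x.2.1 + 1 ≤ a0.t1) :
    (ac c a α (hp' c.M A B x)).1 ≤ c.t1 := by
  have r : n.r1 < x.2.1 := hx.1.1
  have m : 4 * z.M ^ 2 / x.2.1 ≤ 4 * z.M ^ 2 / a0.r1 :=
    div_le_div_of_nonneg_left (by positivity) h.r0.1 (by linarith [h.r0.2, h.nr])
  have := t_early h.su hx (by
    rw [hp_1, h.M]; linarith [h.ti, h.nu.hti', h.nu.cH0])
  rw [hp_1, hp_r] at this
  linarith [h.t1]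

theorem bot (hx : hp' c.M A B x ∈ Om (Dv n.r1 n.τ Lv)) (t : a0.bt x.2.1 + 1 ≤ x.1 - A x.2.1) :
    hp' c.M A B x ∈ Om (D0 c (Dv n.r1 n.τ Lv)) ∧ Est.Ab c (ac c a α (hp' c.M A B x)) := by
  have e : bb c x.2.1 + 1 / 4 ≤ (hp' c.M A B x).1 := by rw [hp_1, bb, h.bt]; linarith
  exact ⟨⟨⟨hx.1, show bb c x.2.1 - 1 < _ by linarith⟩, hx.2⟩, ab_up h.su hx e⟩

variable (ha : a' = ac c a α ∘ hp' c.M A B)
include ha

/-- The early chart is explicit. -/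
theorem early (r : 0 < rd p) (t : p.1 - A (rd p) + 4 * c.M ^ 2 / rd p < us) :
    dn4 a' =ᶠ[𝓝 p] sh (-A) (-B) := by
  have cr : ContinuousAt rd p := P354XA.rd_cont.continuousAt
  filter_upwards [continuousAt_const.eventually_lt cr r, ((continuousAt_fst.sub
    (h.nu.sA.continuous.continuousAt.comp cr)).add (continuousAt_const.div cr r.ne')).eventually_lt
      continuousAt_const t] with y y0 yt
  obtain ⟨l1, l2, l3, l4⟩ := lift_p6 y0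
  have u : (hp' c.M A B (lift y)).1 < us := by rw [hp_1, l3, l4]; exact yt
  rw [dn4, dnf, ha, comp, ac, comp, glu_id h.su.id (by linarith [h.us0.1, h.us0.2.1]) (h.one _ u),
    hp', comp, ki_ko, pj_s6 l1, l2]

theorem cht' : Cht (ph c.M A B '' Om (Dv n.r1 n.τ Lv)) a' := ha ▸ cht_ph h.nu.sA h.nu.sB h.su.cht

theorem det' (hx : hp' c.M A B x ∈ Om (Dv n.r1 n.τ Lv)) (r : 0 < x.2.1) (ξ : x.2.2 ≠ 0) :
    0 < LinearMap.det (fderiv ℝ (dn4 a') (pj x) : R4 →ₗ[ℝ] R4) := by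
  obtain ⟨s, s1, s2⟩ : ∃ s, s ≤ x.1 ∧ s - A x.2.1 + 4 * c.M ^ 2 / x.2.1 < us :=
    ⟨min x.1 (us - 1 + A x.2.1 - 4 * c.M ^ 2 / x.2.1), min_le_left _ _, by
      linarith [min_le_right x.1 (us - 1 + A x.2.1 - 4 * c.M ^ 2 / x.2.1)]⟩
  have e : rd ((s, (pj x).2) : R4) = x.2.1 := rd_pj (x := (s, x.2)) r ξ
  refine det_line (h.cht' ha).dif4 (s := s) s1 (fun t ht => ⟨(t, x.2), mem_ph.2
    ⟨h.su.dk.down _ hx.1 _ ?_, hx.2⟩, rfl⟩) ?_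
  · rw [hp_1, hp_1]; exact add_le_add_left (sub_le_sub_right ht _) _
  · rw [(h.early ha (e ▸ r) (by rw [e]; exact s2)).fderiv_eq, P354XL.sh_det (A := -A) (B := -B) (e ▸ r.ne')
      (h.nu.sA.neg.differentiable (by simp) _) (h.nu.sB.neg.differentiable (by simp) _)]
    exact one_pos

theorem ext' {V : ℝ} (hV : Lv = Iio V) (m : ℕ) : ∃ C, ∀ p : R4, c.R1 + 4 ≤ rd p →
    (lo z c.Rs).tau p ≤ V → -1 ≤ (lo z c.Rs).psi p →
    Jb m (dn4 a') p C ∧ ∀ v, ‖v‖ ≤ C * ‖fderiv ℝ (dn4 a') p v‖ := by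
  obtain ⟨a1, -, -, a4⟩ := h.su.nm.rad
  obtain ⟨-, -, b2, b3⟩ := h.su.num
  have K := (h.pm.cpt_psi (b := -1) (by norm_num) V).inter_right
    (isClosed_le (continuous_const (y := c.R1 + 4)) P354XA.rd_cont)
  have F := (cht_ph (M := c.M) h.nu.sA h.nu.sB (far_cht h.su)).dif4
  generalize hf : dn4 ((ki (4 * c.M ^ 2) ∘ far (Ra c) a α) ∘ hp' c.M A B) = f at F
  have s : ∀ p : R4, c.R1 + 4 ≤ rd p → (lo z c.Rs).tau p ≤ V → p ∈ pj '' (ph c.M A B ''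
      Om {p ∈ Wd (Dv n.r1 n.τ Lv) (Ra c) | Ra c < p.2}) := fun p r t => by
    obtain ⟨x, x1, x2, rfl⟩ := P354XL.ex_pt (show 0 < rd p by linarith)
    rw [rd_pj x1 x2] at r
    rw [h.tau x1 x2] at t
    have := h.su.nm.tz.mono_r (u := (hp' c.M A B x).1) (r := Ra c) (r' := x.2.1) (by linarith)
      (by linarith) (by linarith)
    exact ⟨x, mem_ph.2 ⟨⟨⟨show n.r1 < Ra c by linarith, hV ▸ show n.τ (_, Ra c) < V by
      rw [hp_r] at t; linarith⟩, show Ra c < x.2.1 by linarith⟩, hp_ne x2⟩, rfl⟩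
  obtain ⟨C1, c1, k1⟩ := ex_jb m K fun p hp => F.sm p (s p hp.2 hp.1.2.1)
  obtain ⟨C2, c2, k2⟩ := low_bd K (T := fderiv ℝ f) (fun p hp => ((F.sm p
    (s p hp.2 hp.1.2.1)).continuousAt_fderiv (by simp)).continuousWithinAt)
      fun p hp => F.fd p (s p hp.2 hp.1.2.1)
  refine ⟨C1 + C2, fun p r t b => ?_⟩
  have e : dn4 a' =ᶠ[𝓝 p] f := by
    filter_upwards [continuousAt_const.eventually_lt P354XA.rd_cont.continuousAt
      (show Ra c + 1 / 4 < rd p by linarith)] with y y0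
    rw [← hf, dn4, dn4, dnf, dnf, ha, comp, ac, comp, comp, comp, glu_far (by
      rw [hp_r, (lift_p6 (by linarith)).2.2.1]; exact y0.le)]
  have r' : z.r1 < rd p := by linarith [h.nr]
  refine ⟨fun j hj => ?_, fun v => ?_⟩
  · rw [(e.iteratedFDeriv ℝ j).eq_of_nhds]
    exact (k1 p ⟨⟨r', t, b⟩, r⟩ j hj).trans (by linarith)
  · rw [e.fderiv_eq]
    exact (k2 p ⟨⟨r', t, b⟩, r⟩ v).trans (mul_le_mul_of_nonneg_right (by linarith) (norm_nonneg _))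

variable (hU : U = ph c.M A B '' Om (D0 c (Dv n.r1 n.τ Lv)))
include hU

omit ha in
theorem mem (hx : x ∈ U) : hp' c.M A B x ∈ Om (Dv n.r1 n.τ Lv) ∧ z.r1 < x.2.1 ∧ 0 < x.2.1 ∧
    x.2.2 ≠ 0 ∧ a0.bt x.2.1 - 1 < x.1 - A x.2.1 := by
  obtain ⟨y, hy, rfl⟩ := hU ▸ hx
  have r : z.r1 < y.2.1 := h.nr ▸ hy.1.1.1
  have r0 : 0 < y.2.1 := by linarith [h.r0.1, h.r0.2]
  have b : bb c y.2.1 - 1 < y.1 := hy.1.2
  have e := hp_1 (M := c.M) (A := A) (B := B) (ph c.M A B y)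
  rw [hp_ph] at e ⊢
  rw [bb, h.bt] at b
  refine ⟨⟨hy.1.1, hy.2⟩, r, r0, (P354CS.ph_eq c.M A B ▸ s6_mem (x := y) ⟨r0, hy.2⟩).2, ?_⟩
  have : (ph c.M A B y).2.1 = y.2.1 := rfl
  rw [this] at e ⊢
  linarith

theorem cht : Cht U a' := hU ▸ ha ▸ cht_ph h.nu.sA h.nu.sB (h.su.cht.mono (cn_om h.su.op0
  fun q hq => by linarith [hq.1.1, h.su.num.1, h.su.num.2.1]) fun x hx => ⟨hx.1.1, hx.2⟩)

omit ha in
theorem dom (hx : x ∈ U) : pj x ∈ En z.M z.a z.r1 z.θ ∧ (lo z c.Rs).tau (pj x) ∈ Lv := by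
  obtain ⟨m, r, r0, ξ, b⟩ := h.mem hU hx
  obtain ⟨e1, e2⟩ := h.nu.en x.1 x.2.1 (by linarith)
  refine ⟨(h.pm.En_iff z.θ _).2 ⟨show z.r1 < rd (pj x) by rwa [rd_pj r0 ξ],
    le_trans (by linarith [h.ok.θ.1, h.ok.θ.2]) e1.le, ?_⟩, h.tau r0 ξ ▸ m.1.2⟩
  rw [rd_pj r0 ξ]
  exact fun j => le_trans (le_add_of_nonneg_right (by norm_num)) (e2 j)

theorem tm (hx : x ∈ U) (r : x.2.1 < c.Rs) : |(a' x).2.1 - x.2.1| ≤ κ ∧
    |(sh A B (dn4 a' (pj x))).1 - x.1| ≤ κ * (1 + |x.1|) := by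
  obtain ⟨m, r1, r0, ξ, -⟩ := h.mem hU hx
  have C := h.cht ha hU
  have k := h.su.r_near m r
  obtain ⟨k0, -, -, k1⟩ := h.su.nm.k1 h.su.e0
  have kκ := h.kk.1
  have e : (a' x).2.1 = (glu (Ra c) a α (hp' c.M A B x)).2.1 := ha ▸ rfl
  have e1 : (a' x).1 = (glu (Ra c) a α (hp' c.M A B x)).1 - 4 * c.M ^ 2 / (a' x).2.1 := ha ▸ rfl
  rw [hp_r, ← e] at k
  refine ⟨k.trans (by linarith), ?_⟩
  have u := abs_le.1 (h.kk.2 _ ⟨e ▸ (r_ge h.su m).1, by linarith [(abs_le.1 k).2]⟩ _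
    ⟨by linarith [h.r1, h.r0.2], by linarith⟩ k)
  have l : |(glu (Ra c) a α (hp' c.M A B x)).1 - (hp' c.M A B x).1| ≤ κ * |x.1| := by
    rcases le_total (hp' c.M A B x).1 n.ti with t | t
    · rw [(glu_early h.su.id t).1, sub_self, abs_zero]
      exact mul_nonneg (by linarith) (abs_nonneg _)
    refine (h.su.lb.glu_late h.su.dk h.su.id m t).trans (mul_le_mul
      (by linarith [(h.su.nm.k0 h.su.e0).1]) ?_ (sub_nonneg.2 t) (by linarith))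
    have h1 := (abs_le.1 (h.nu.hcH x.2.1 (by linarith [h.r0.2]))).2
    have h2 : 0 ≤ H x.2.1 := (h.nu.H0 _ (min_le_right x.2.1 z.R1)).ge.trans
      (h.nu.Hm (min_le_left _ _))
    have h3 : 0 ≤ 4 * z.M ^ 2 / a0.r1 := div_nonneg (by positivity) h.r0.1.le
    rw [hp_1, h.M]
    linarith [le_abs_self x.1, h.ti, h.nu.hti', h.nu.big, h.su.nm.rad.1, h.R1]
  rw [C.eqv.pj_dn hx, show (sh A B (pj (a' x))).1 = (a' x).1 + A (rd (pj (a' x))) from rfl,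
    rd_pj (C.pos x hx) (C.eqv.ne x hx), e1]
  rw [hp_1, abs_le] at l
  simp only [ta] at u
  exact abs_le.2 ⟨by linarith [u.1, l.1], by linarith [u.2, l.2]⟩

/-- **LCG.** -/
theorem lcg {gc g : Tw} {Cl e : ℝ} (R : Rg c n Lv a α E)
    (o1 : E.O1 = ac c a α '' Om (D1 c (Dv n.r1 n.τ Lv))) (met : E.g = P354XE.pb (b4 U a') g)
    (lv : ∃ W, P354XV.Lv g W ∧ pj '' U ⊆ W)
    (ini : ∀ x ∈ U, x.2.1 < c.Rs → (a' x).1 ≤ c.t1 →
      Jb c.N0 (fun y => sh A B (dn4 a' y) - y) (pj x) (Cl * e))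
    (col : ∀ p ∈ En z.M z.a z.r1 z.θ, rd p ≤ c.t1 + 6 → p.1 ≤ tw + 6 →
      g =ᶠ[𝓝 p] gc ∧ Bd c.N0 (gc - gin z.M z.a) p (Cl * e))
    (d2 : ∀ x ∈ U, x.2.1 < c.Rs → ‖fderiv ℝ (dn4 a') (pj x)‖ ≤ Cl ∧
      ‖fderiv ℝ (fderiv ℝ (dn4 a')) (pj x)‖ ≤ Cl) : Lc z c gc g E κ Cl e U a' A B tw := by
  have ap : ∀ x, a' x = ac c a α (hp' c.M A B x) := fun x => ha ▸ rfl
  have N := h.nu
  obtain ⟨q0, q1⟩ := h.r0
  obtain ⟨a1, -, -, a4⟩ := h.su.nm.rad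
  refine ⟨N.th, h.cht ha hU, met, lv, fun x hx => ?_, fun x hx => R.lv ▸ h.dom hU hx,
    fun x r0 ξ o b t => ?_, ?_, fun y hy => ?_, fun x hx m => ?_, fun x hx m => ?_,
    fun u y ny => ?_, fun x hx r t => ?_, ini, fun x hx b => ?_, by linarith [N.big, h.R1, h.t1],
    fun r m => ?_, fun p r t => ?_, fun x hx r t => ?_, fun x ξ r r' t l => ?_, col,
    fun x hx => h.tm ha hU hx, d2, fun V m hV => ?_⟩
  · obtain ⟨m, -, r0, ξ, -⟩ := h.mem hU hx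
    exact h.det' ha m r0 ξ
  · have e := rd_pj r0 ξ
    have m := h.dv (e ▸ o.1) ξ (R.lv ▸ t)
    rw [h.psi_ge (e ▸ r0), e] at b
    obtain ⟨k1, k2⟩ := h.bot m (N.cov x.1 _ r0.le (by
      have : (pj x).1 = x.1 := rfl
      linarith))
    refine ⟨hU ▸ mem_ph.2 k1, ap x ▸ k2, fun r => ?_⟩
    have f : Est.Fa c (ac c a α (hp' c.M A B x)) :=
      (fa_iff h.su.nm.ok).2 ⟨(r_ge h.su m).2 r, k2⟩
    exact ap x ▸ ⟨R.m2 _ ⟨⟨k1.1, show _ < x.2.1 by linarith⟩, k1.2⟩ f, f⟩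
  · rw [o1]
    refine Subset.antisymm (fun _ ⟨y, hy, e⟩ => ⟨ph c.M A B y, ⟨hU ▸ ⟨y, ⟨hy.1.1, hy.2⟩, rfl⟩,
      hy.1.2⟩, by rw [ap, hp_ph, e]⟩) fun _ ⟨x, hx, e⟩ => ⟨_, ?_, ap x ▸ e⟩
    have := mem_ph.1 (hU ▸ hx.1)
    exact ⟨⟨this.1, hx.2⟩, this.2⟩
  · obtain ⟨w, hw, e⟩ := R.s2 hy
    exact ⟨ph c.M A B w, hU ▸ ⟨w, ⟨hw.1.1, hw.2⟩, rfl⟩, by rw [ap, hp_ph, e]⟩
  · obtain ⟨m', -, r0, ξ, -⟩ := h.mem hU hx
    rw [ap] at m ⊢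
    rw [rv, R.sig _ m' m, h.tau r0 ξ, Complex.ofReal_re]
  · obtain ⟨m', -, r0, ξ, -⟩ := h.mem hU hx
    rw [ap] at m ⊢
    rw [rv, R.tau _ m' m, h.tau r0 ξ, Complex.ofReal_re]
  · obtain rfl : Lv = univ := R.lv ▸ u
    refine ⟨fun r r' b => o1 ▸ h.su.onto1 ny (by linarith [h.kk.1, h.nr]) r' b, fun b => ?_⟩
    obtain ⟨w, hw, rfl⟩ := h.su.onto2 ny b
    exact R.m2 w hw b
  · obtain ⟨m, -, r0, ξ, -⟩ := h.mem hU hx
    have e := rd_pj r0 ξ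
    have k := h.su.lb.glu_ge h.su.dk h.su.id m
    rw [ap, ac_uu] at t
    obtain ⟨u1, u2, u3⟩ := h.us0
    have j : (hp' c.M A B x).1 < us := by
      rcases min_le_iff.1 (k.trans t) with j | j <;> linarith
    filter_upwards [h.early ha (p := pj x) (e ▸ r0) (by rw [e]; exact hp_1 x ▸ j)] with y hy
    rw [hy, sh_inv']
  · obtain ⟨m, r, r0, ξ, -⟩ := h.mem hU hx
    have e := rd_pj r0 ξ
    refine ap x ▸ h.t_le m (N.low _ _ (by linarith) (not_lt.1 fun j => ?_))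
    have d := mul_pos h.pm.del.1 r0
    rw [P354YT.Pm.psi, e, sub_le_iff_le_add, div_le_iff₀ d] at b
    exact j.not_ge (by
      have b' : x.1 - bl z x.2.1 ≤ (1 + 2) * (z.del * x.2.1) := b
      linarith)
  · obtain ⟨k1, k2⟩ := N.num r ⟨by linarith [m.1], h.t1 ▸ m.2⟩
    rw [h.bt, h.t1]
    exact ⟨by linarith, by linarith⟩
  · have t1 := N.big
    rw [h.t1] at r
    rw [h.M, h.del, N.del] at t
    rw [h.pm.psi_lt (by linarith [h.R1]), zero_add]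
    exact N.lay _ _ (by linarith [h.R1]) t
  · have k := N.out x.1 _ (h.t1 ▸ r) t
    have u : (hp' c.M A B x).1 ≤ -(2 * c.R1) := by rw [hp_1, h.M, h.R1]; linarith
    rw [ap, ac_uu, ac_r, h.su.early u]
    exact ⟨show _ ≤ x.2.1 by linarith [N.big, h.R1, h.t1], u⟩
  · have m := h.dv r ξ (R.lv ▸ l)
    obtain ⟨k1, k2⟩ := N.num x.2.1 ⟨by linarith, h.t1 ▸ r'⟩
    rw [abs_le] at t
    obtain ⟨k3, k4⟩ := h.bot m (by linarith [t.1])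
    exact ⟨hU ▸ mem_ph.2 k3, ap x ▸ k4, ap x ▸ h.t_le m (by linarith [t.2])⟩
  · obtain ⟨C, hC⟩ := h.ext' ha (R.lv ▸ hV) m
    refine ⟨C, fun x hx r b => ?_⟩
    obtain ⟨-, -, r0, ξ, -⟩ := h.mem hU hx
    have t := (h.dom hU hx).2
    rw [← R.lv, hV] at t
    exact hC _ (by rwa [rd_pj r0 ξ]) (le_of_lt t) b

end Gi

end Vale.Agent.P354LC
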