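import Vale.Agent.P354LC.Agr2
import Vale.Agent.P354YI.Defs

/-!
AGR: uniqueness in the far band.
-/

set_option maxSynthPendingDepth 3

open scoped ContDiff
open Set Filter Topology Metric

noncomputable section

namespace Vale.Agent.P354LC

open Vale.Agent.P354n (R4)
open Vale.Agent.P354I (X Dat rm rp)
open Vale.Agent.P354R (Pull)
open Vale.Agent.P354RC (at_df surj_of_inj)
open Vale.Agent.P354XE
open Vale.Agent.P354XV (Lv GUS clens)
open Vale.Agent.P354YR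
open Vale.Agent.P354YT (tb tb_d)
open Vale.Agent.P354YI (Fb Fg AGR)

variable {M a ρ δ : ℝ} {x : R4} {d : Dat} {A W W' D : Set R4} {g g' : Tw}

theorem pull_pb {f : R4 → R4} {V : Set R4} (L : Lv g V) (hD : IsOpen D)
    (s : ∀ x ∈ D, ContDiffAt ℝ ∞ f x) (mp : MapsTo f D V)
    (i : ∀ x ∈ D, Function.Injective (fderiv ℝ f x)) : Pull f (pb f g) D g V :=
  ⟨hD, L.isOpen, L.met, fun x hx => (s x hx).contDiffWithinAt, mp, i, fun _ _ _ _ => rfl⟩

theorem s3_rd (x : R4) : s3 x x = rd x ^ 2 := by rw [rd_sq, s3]; ring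

variable (h : |a| < M)
include h

/-- The lens lies in the band. -/
theorem lens_in (hρ : 22 * M ≤ ρ) (hδ : δ ∈ Ioc (0 : ℝ) (1 / 100))
    (hx : x ∈ clens (ph ρ) (8 / 5 * (δ * ρ))) :
    x ∈ DX M ∧ Xi M a x ∈ {p ∈ Fb M a ρ δ | rd p ≤ 4 * ρ} := by
  have ρ0 := (big h hρ).2.2.1
  have k1 : s3 x x - (7 / 2 * ρ) ^ 2 + 30 * ρ * x.1 ≤ 0 := hx.2 true
  have k2 : (9 / 5 * ρ) ^ 2 - s3 x x + 30 * ρ * x.1 ≤ 0 := hx.2 false
  have k0 := mul_nonneg ρ0.le hx.1.1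
  rw [s3_rd] at k1 k2
  have r1 : rd x ≤ 7 / 2 * ρ := (abs_le_of_sq_le_sq' (by linarith) (by positivity)).2
  have r2 : 9 / 5 * ρ ≤ rd x := (abs_le_of_sq_le_sq' (by linarith) (rd_nn x)).2
  have s0 := hx.1.1
  have s1 := hx.1.2
  have d1 := mul_le_mul_of_nonneg_right hδ.2 ρ0.le
  have q : x ∈ DX M := ⟨by linarith, by linarith⟩
  have t := tb_bd h q.1.le (le_add_of_nonneg_right s0)
  have d2 := mul_le_mul_of_nonneg_left (r2.trans (le_add_of_nonneg_right s0)) hδ.1.le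
  refine ⟨q, ⟨?_, ?_⟩, ?_⟩ <;> rw [Xi_rd h q]
  · linarith
  · rw [show (Xi M a x).1 = xt M a x from rfl, xt]
    exact ⟨by linarith [t.1], by linarith [t.2]⟩
  · linarith

/-- Agreement on the slice. -/
theorem base_ag (F : Fg M a d A W g) (F' : Fg M a d A W' g')
    (P : Pull (Xi M a) (pb (Xi M a) g) D g (W ∩ W'))
    (P' : Pull (Xi M a) (pb (Xi M a) g') D g' (W ∩ W')) (hx : x ∈ D) (q : x ∈ DX M) (x0 : x.1 = 0)
    (hA : Xi M a x ∈ A) : Ag (pb (Xi M a) g) (pb (Xi M a) g') x Prod.fst := by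
  have sl : ∀ z ∈ DX M, z.1 = 0 → (Xi M a z).1 - tb M a (rd (Xi M a z)) = 0 := fun z hz z0 => by
    rw [Xi_rd h hz, show (Xi M a z).1 = xt M a z from rfl, xt, z0, add_zero]; ring
  obtain ⟨r1, r2, r3, -⟩ := big h (Xi_rd h q ▸ q.2.le : 22 * M ≤ rd (Xi M a x))
  obtain ⟨L, k, e⟩ := hd_rd (xs_ne r3)
  have hσ := (hasFDerivAt_fst (𝕜 := ℝ) (p := Xi M a x)).fun_sub
    ((tb_d h r1).comp_hasFDerivAt _ k)
  have l0 : (ContinuousLinearMap.fst ℝ ℝ (ℝ × ℝ × ℝ) - P354YT.qm M a (rd (Xi M a x)) • L) eT ≠ 0 := by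
    rw [sub_apply, smul_apply, e]
    simp [dr, dT_c, eT]
  have k1 := ker_iff hσ l0 (at_df (Xi_cd h q)) (Xi_inj h q) x0
    (mem_of_superset (DX_open.mem_nhds q) sl)
  refine (ag_pull P P' hx k1).2 ?_
  have e0 := sub_eq_zero.1 (sl x q x0)
  have l1 := (k1 eT).not.1 one_ne_zero
  have mV := P.maps hx
  rw [Xi_eT h q] at l1
  generalize Xi M a x = p at *
  have z0 := kap_sl h r1 e0
  have zE := kap_mem h r2
  have zp := kin_kap h r2
  generalize kap M a p = z at *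
  subst zp
  have o := F.lv.isOpen.inter F'.lv.isOpen
  have o1 : IsOpen (DE M a true ∩ kin M a ⁻¹' (W ∩ W')) := ContinuousOn.isOpen_inter_preimage
    (fun _ hz => (s_kin hz).continuousAt.continuousWithinAt) (open_DE true) o
  have i := (isCh h true).back.inj
  have Q := pull_pb (f := kin M a) (F.lv.mono o inter_subset_left) o1 (fun _ hz => s_kin hz.1)
    (fun _ hz => hz.2) fun _ hz => i _ hz.1
  have Q' := pull_pb (f := kin M a) (F'.lv.mono o inter_subset_right) o1 (fun _ hz => s_kin hz.1)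
    (fun _ hz => hz.2) fun _ hz => i _ hz.1
  have k2 := ker_iff hσ l0 (at_df (s_kin zE)) (i _ zE) z0
    (mem_of_superset ((open_DE true).mem_nhds zE) fun w hw w0 => sub_eq_zero.2 (kin_sl h hw w0))
  refine (ag_pull Q Q' ⟨zE, mV⟩ k2).1 ?_
  obtain ⟨u, hu⟩ := surj_of_inj (F := fderiv ℝ (kin M a) z) (i _ zE) (Lo M a (kin M a z))
  obtain ⟨y, rfl⟩ : ∃ y, pt 0 y = z := ⟨xs z, z0 ▸ pt_xs z⟩
  refine ag_in0 ((F.lv.mono o inter_subset_left).pull Q) ((F'.lv.mono o inter_subset_right).pull Q')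
    ⟨zE, mV⟩ (F.ind y zE hA) (F'.ind y zE hA) (u := u) ((k2 u).not.2 (hu ▸ l1)) fun v => ?_
  simp only [pb, hu, F.flat _ mV.1 e0, F'.flat _ mV.2 e0]

omit h in
/-- **AGR.** -/
theorem agr (hG : GUS) : AGR := by
  intro M a h
  refine ⟨22 * M, 1 / 100, by norm_num, 1 / 16, by norm_num,
    fun ρ hρ δ hδ d W W' g g' F F' C p hp h3 => ?_⟩
  have ρ0 := (big h hρ).2.2.1
  have o := F.lv.isOpen.inter F'.lv.isOpen
  have L := F.lv.mono o inter_subset_left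
  have L' := F'.lv.mono o inter_subset_right
  obtain ⟨D, hD⟩ : ∃ D, D = DX M ∩ Xi M a ⁻¹' (W ∩ W' ∩
    {x | ∀ᶠ z in 𝓝 x, ∀ v, |g z v v - gin M a z v v| ≤ 1 / 8 * ‖v‖ ^ 2}) := ⟨_, rfl⟩
  have oD : IsOpen D := hD ▸ ContinuousOn.isOpen_inter_preimage
    (fun _ hz => (Xi_cd h hz).continuousAt.continuousWithinAt) DX_open
    (o.inter isOpen_setOfPred_eventually_nhds)
  have m := fun x (hx : x ∈ D) => hD ▸ hx
  have P := pull_pb L oD (fun x hx => Xi_cd h (m x hx).1) (fun x hx => (m x hx).2.1)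
    fun x hx => Xi_inj h (m x hx).1
  have P' := pull_pb L' oD (fun x hx => Xi_cd h (m x hx).1) (fun x hx => (m x hx).2.1)
    fun x hx => Xi_inj h (m x hx).1
  have lo := fun x hx => at_df (Lo_cd h (Xi_rd h (m x hx).1 ▸ (m x hx).1.2.le))
  have d0 := mul_pos hδ.1 ρ0
  have H : Two ρ (pb (Xi M a) g) (pb (Xi M a) g') D := ⟨L.pull P, L'.pull P', fun x hx c =>
    ⟨geo_pull P hx (lo x hx) (fun z hz => Xi_eT h (m z hz).1) (F.geo _ (m x hx).2.1.1) c,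
      geo_pull P' hx (lo x hx) (fun z hz => Xi_eT h (m z hz).1) (F'.geo _ (m x hx).2.1.2) c⟩,
    fun x hx v => Xi_cone h (m x hx).1 (m x hx).2.2.self_of_nhds, fun x hx x0 hb =>
      base_ag h F F' P P' hx (m x hx).1 x0 (lens_in h hρ hδ ⟨⟨x0.ge, by rw [x0]; positivity⟩, hb⟩).2⟩
  have sub : clens (ph ρ) (8 / 5 * (δ * ρ)) ⊆ D := fun x hx => by
    obtain ⟨k1, k2⟩ := lens_in h hρ hδ hx
    exact hD ▸ ⟨k1, ⟨F.sub k2, F'.sub k2⟩, near_ev (F.lv.isOpen.inter open_ne)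
      (met_mono F.lv.met inter_subset_left) (gin_met fun _ hz => hz.2)
      ⟨F.sub k2, xs_ne (ρ0.trans_le k2.1.1)⟩ (by norm_num) (C _ k2.1 k2.2)⟩
  have p1 := hp.1
  have p2 := hp.2.2.trans (mul_le_mul_of_nonneg_left h3 (half_pos hδ.1).le)
  have d1 := mul_le_mul_of_nonneg_right hδ.2 ρ0.le
  obtain ⟨q, q1, rfl, q2, q3⟩ := Xi_surj h rfl hp.2.1 (by linarith)
  have q4 := q2.2.trans p2
  have hb : ∀ b, ph ρ b q < 0 := fun b => by
    have a1 := mul_le_mul_of_nonneg_left (show q.1 ≤ 3 / 200 * ρ by linarith) ρ0.le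
    have a2 := pow_le_pow_left₀ (rd_nn q) (show rd q ≤ 3 * ρ by linarith [q2.1]) 2
    have a3 := pow_le_pow_left₀ (by positivity) (show 39 / 20 * ρ ≤ rd q by linarith) 2
    have a4 := mul_pos ρ0 ρ0
    cases b <;> simp only [ph, cond, s3_rd] <;> nlinarith
  have qD : q ∈ D := sub ⟨⟨q2.1, by linarith⟩, fun b => (hb b).le⟩
  have E := H.eq hG ρ0 sub ⟨q2.1, by linarith⟩ hb
  rw [← ((Xi_cd h q1).hasStrictFDerivAt (by simp)).map_nhds_eq_of_surj
    (LinearMap.range_eq_top.2 (surj_of_inj (Xi_inj h q1)))]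
  refine eventually_map.2 ?_
  filter_upwards [E, oD.mem_nhds qD] with z e hz
  funext v w
  obtain ⟨v, rfl⟩ := surj_of_inj (P.inj z hz) v
  obtain ⟨w, rfl⟩ := surj_of_inj (P.inj z hz) w
  exact congrFun (congrFun e v) w

end Vale.Agent.P354LC
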