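import Vale.Agent.P354YI.Near
import Vale.Agent.P354YR.Kap

/-!
The far band from windows of a fixed ratio.
-/

set_option maxSynthPendingDepth 3

open scoped ContDiff
open Set Filter Topology

noncomputable section

namespace Vale.Agent.P354LC

open Vale.Agent.P354n (R4)
open Vale.Agent.P354I (Dat)
open Vale.Agent.P354XS (BA)
open Vale.Agent.P354XE
open Vale.Agent.P354XV (Lv lv_local chr_congr)
open Vale.Agent.P354YR (rd_cont rd_nn s_kin ci)
open Vale.Agent.P354YI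

/-- WIN: one window of the far band. -/
def WIN : Prop :=
  ∀ M a : ℝ, |a| < M → ∃ R0, ∃ δ0 > 0, ∀ m, ∀ e > 0, ∃ m', ∃ η > 0, ∀ d ∈ BA M a m' η, ∀ ρ ≥ R0,
    ∃ W g, Fg M a d.1 {p ∈ Fb M a ρ δ0 | rd p ≤ 16 * ρ} W g ∧
      (∀ p ∈ W, ∀ v, g p (Lo M a p) v = gin M a p (Lo M a p) v) ∧
      ∀ p ∈ Fb M a ρ δ0, rd p ≤ 16 * ρ → Sm m e (g - gin M a) p

variable {M a R R' δ δ' e e' : ℝ} {m : ℕ} {p : R4} {h h' g : Tw} {d : Dat} {A A' W : Set R4}

theorem fb_mono (hp : p ∈ Fb M a R δ) (hR : R' ≤ rd p) (hδ : δ ≤ δ') : p ∈ Fb M a R' δ' :=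
  ⟨hR, hp.2.1, hp.2.2.trans (mul_le_mul_of_nonneg_right hδ (rd_nn p))⟩

theorem fg_mono (F : Fg M a d A W g) (s : A' ⊆ A) : Fg M a d A' W g :=
  ⟨F.lv, s.trans F.sub, F.geo, F.flat, fun y h k => F.ind y h (s k)⟩

theorem sm_mono (H : Sm m e h p) (he : e ≤ e') (k : h' =ᶠ[𝓝 p] h) : Sm m e' h' p :=
  fun j hj v w => by
    have : (fun x => h' x v w) =ᶠ[𝓝 p] fun x => h x v w := k.mono fun x k => by simp only [k]
    have r := rd_nn p
    rw [(this.iteratedFDeriv ℝ j).eq_of_nhds]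
    exact (H j hj v w).trans (mul_le_mul_of_nonneg_right
      (div_le_div_of_nonneg_right he (by positivity)) (by positivity))

theorem sm_zero (H : Sm m e h p) (he : 0 ≤ e) (v : R4) : |h p v v| ≤ e * ‖v‖ ^ 2 := by
  have k := H 0 m.zero_le v v
  rw [norm_iteratedFDeriv_zero, zero_add, pow_one, ← sq] at k
  exact k.trans (mul_le_mul_of_nonneg_right (div_le_self he (le_add_of_nonneg_right (rd_nn p)))
    (sq_nonneg _))

theorem pb_congr {f : R4 → R4} {g' : Tw} (hf : ContinuousAt f p) (k : g' =ᶠ[𝓝 (f p)] g) :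
    pb f g' =ᶠ[𝓝 p] pb f g := (hf.eventually k).mono fun x hx => by
  funext v w
  simp only [pb, hx]

/-- **FARW from the windows.** -/
theorem farw_of (hA : AGR) (hW : WIN) : FARW := by
  intro M a h
  obtain ⟨R1, δ1, d1, c0, c, hA⟩ := hA M a h
  obtain ⟨R2, δ2, d2, hW⟩ := hW M a h
  obtain ⟨R, r0, r1, r2⟩ : ∃ R > 0, R1 ≤ R ∧ R2 ≤ R :=
    ⟨max 1 (max R1 R2), by positivity, by simp, by simp⟩
  have d0 := lt_min d1 d2
  refine ⟨4 * R, min δ1 δ2 / 2, half_pos d0, fun m e e0 => ?_⟩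
  obtain ⟨m', η, η0, hW⟩ := hW m (min e c0) (lt_min e0 c)
  refine ⟨m', η, η0, fun d hd => ?_⟩
  choose W G F fl S using fun k : ℕ => hW d hd (2 ^ k * R)
    (r2.trans (le_mul_of_one_le_left r0.le (one_le_pow₀ one_le_two)))
  choose! κ hκ using fun r (hr : 1 ≤ r / (3 * R)) => exists_nat_pow_near hr one_lt_two
  have hk : ∀ r, 3 * R ≤ r → 3 * (2 ^ κ r * R) ≤ r ∧ r < 6 * (2 ^ κ r * R) := fun r hr => by
    obtain ⟨k1, k2⟩ := hκ r ((one_le_div (by positivity)).2 hr)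
    rw [le_div_iff₀ (by positivity)] at k1
    rw [div_lt_iff₀ (by positivity), pow_succ] at k2
    exact ⟨by linarith, by linarith⟩
  let g : Tw := fun x => G (κ (rd x)) x
  have key : ∀ p ∈ Fb M a (4 * R) (min δ1 δ2 / 2), (p ∈ Fb M a (2 ^ κ (rd p) * R) δ2 ∧
      rd p ≤ 16 * (2 ^ κ (rd p) * R)) ∧ g =ᶠ[𝓝 p] G (κ (rd p)) := fun p hp => by
    have p1 := hp.1
    let T : Set ℕ := {k | 2 ^ k * R ≤ 2 / 5 * rd p ∧ 4 * (2 / 5 * rd p) ≤ 16 * (2 ^ k * R)}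
    have tk : ∀ r, 19 / 20 * rd p < r → r < 21 / 20 * rd p → κ r ∈ T := fun r k1 k2 =>
      have k := hk r (by linarith)
      ⟨by linarith [k.1], by linarith [k.2]⟩
    have t0 := tk (rd p) (by linarith) (by linarith)
    have sub : ∀ k ∈ T, {x ∈ Fb M a (2 / 5 * rd p) (min δ1 δ2) | rd x ≤ 4 * (2 / 5 * rd p)} ⊆
        {x ∈ Fb M a (2 ^ k * R) δ2 | rd x ≤ 16 * (2 ^ k * R)} := fun k hk x hx =>
      ⟨fb_mono hx.1 (hk.1.trans hx.1.1) (min_le_right _ _), hx.2.trans hk.2⟩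
    have fin : T.Finite := by
      obtain ⟨N, hN⟩ := exists_nat_gt (2 / 5 * rd p / R)
      refine (finite_lt_nat N).subset fun k hk => ?_
      have k1 : (k : ℝ) < 2 ^ k := by exact_mod_cast Nat.lt_two_pow_self
      exact_mod_cast (k1.trans_le ((le_div_iff₀ r0).2 hk.1)).trans hN
    refine ⟨sub _ t0 ⟨fb_mono hp (by linarith) (half_le_self d0.le), by linarith⟩, ?_⟩
    have e1 := (eventually_all_finite fin).2 fun k hk => hA (2 / 5 * rd p) (by linarith) _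
      ⟨d0, min_le_left _ _⟩ d.1 _ _ _ _ (fg_mono (F k) (sub k hk)) (fg_mono (F _) (sub _ t0))
      (fun x hx x4 v => (sm_zero (S k x (sub k hk ⟨hx, x4⟩).1 (sub k hk ⟨hx, x4⟩).2)
        (lt_min e0 c).le v).trans (mul_le_mul_of_nonneg_right (min_le_right _ _) (sq_nonneg _)))
      p (fb_mono hp (by linarith) le_rfl) (by linarith)
    filter_upwards [e1, rd_cont.continuousAt.eventually_const_lt (show 19 / 20 * rd p < _ by linarith),
      rd_cont.continuousAt.eventually_lt_const (show _ < 21 / 20 * rd p by linarith)]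
      with x k1 k2 k3 using k1 _ (tk _ k2 k3)
  have f0 : ∀ p ∈ {p | ∃ k, p ∈ W k ∧ g =ᶠ[𝓝 p] G k}, ∀ v,
      g p (Lo M a p) v = gin M a p (Lo M a p) v := fun p ⟨k, k1, k2⟩ v => by
    rw [k2.eq_of_nhds, fl k p k1]
  refine ⟨{p | ∃ k, p ∈ W k ∧ g =ᶠ[𝓝 p] G k}, g, ⟨lv_local (isOpen_iff_mem_nhds.2
    fun _ ⟨k, k1, k2⟩ => (((F k).lv.isOpen.eventually_mem k1).and k2.eventually_nhds).mono
      fun _ z => ⟨k, z⟩) fun _ ⟨k, k1, k2⟩ => ⟨_, _, (F k).lv, k1, k2⟩,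
    fun p hp => ⟨_, (F _).sub (key p hp).1, (key p hp).2⟩, fun p ⟨k, k1, k2⟩ c => ?_,
    fun p hp _ => f0 p hp, fun y y1 y2 => in0_congr ((F _).ind y y1 (key _ y2).1)
      (pb_congr (s_kin y1).continuousAt (key _ y2).2)⟩, f0, fun p hp =>
    sm_mono (S _ p (key p hp).1.1 (key p hp).1.2) (min_le_left _ _) ((key p hp).2.sub .rfl)⟩
  rw [chr_congr k2, k2.eq_of_nhds]
  exact (F k).geo p k1 c

end Vale.Agent.P354LC
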