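import Vale.Agent.P354YI.Defs2
import Vale.Agent.P354LC.Fw
import Vale.Agent.P354LC.Agr
import Vale.Agent.P354YA.Exz
import Vale.Agent.P354DT.Gen
import Vale.Agent.P354YT.Main

/-!
AEN: the metric on the collar of one end.
-/

set_option maxSynthPendingDepth 3

open scoped ContDiff
open Set Filter Topology

noncomputable section

namespace Vale.Agent.P354LC

open Vale.Agent.P354n (R4)
open Vale.Agent.P354I (X Dat rm rp)
open Vale.Agent.P354R (Pull chr)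
open Vale.Agent.P354XS (BA)
open Vale.Agent.P354XE
open Vale.Agent.P354XV (Lv Spl Gq In0 jet Jet jet_congr)
open Vale.Agent.P354YR
open Vale.Agent.P354YT (tb tb_d qm Pm)
open Vale.Agent.P354YI

variable {M a e e' R : ℝ} {m m' k : ℕ} {p : R4} {g g' f : Tw} {D : Set R4} {c : Pm}
  {N : P354XV.Nat} {U : Set (R4 × Jet k)} {W : R4 × Jet k → R4}

theorem ba_sub (h : m ≤ m') (h' : e' ≤ e) : BA M a m' e' ⊆ BA M a m e := fun _ hd => by
  refine lt_of_le_of_lt ?_ (lt_of_lt_of_le hd (ENNReal.ofReal_le_ofReal h'))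
  have k := Finset.range_mono (Nat.succ_le_succ h)
  exact Finset.sum_le_sum fun i _ => Finset.sum_le_sum fun j _ =>
    add_le_add (Finset.sum_le_sum_of_subset k) (Finset.sum_le_sum_of_subset k)

theorem sm_bd (H : Sm m e f p) (he : 0 ≤ e) : Bd m f p e := fun j hj v w =>
  (H j hj v w).trans (mul_le_mul_of_nonneg_right
    (div_le_self he (one_le_pow₀ (le_add_of_nonneg_right (rd_nn p)))) (by positivity))

theorem bd_sm (H : Bd m f p (e / (1 + R) ^ (m + 1))) (he : 0 ≤ e) (hr : rd p ≤ R) : Sm m e f p :=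
  fun j hj v w => by
    have r := rd_nn p
    refine (H j hj v w).trans (mul_le_mul_of_nonneg_right
      (div_le_div_of_nonneg_left he (by positivity) ?_) (by positivity))
    exact (pow_le_pow_left₀ (by positivity) (by linarith) _).trans
      (pow_le_pow_right₀ (by linarith) (Nat.succ_le_succ hj))

theorem ex_cont : Continuous (ex M a) := by unfold ex; fun_prop

theorem spl_far (h : |a| < M) (hp : 22 * M ≤ rd p)
    (C : ∀ v, |g p v v - gin M a p v v| ≤ 1 / 8 * ‖v‖ ^ 2) :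
    Spl g (fun x => x.1 - tb M a (rd x)) p := fun v v0 hv => by
  obtain ⟨r1, -, r3, q0, q1⟩ := big h hp
  obtain ⟨L, k, e⟩ := hd_rd (xs_ne r3)
  have d := (hasFDerivAt_fst (𝕜 := ℝ) (p := p)).fun_sub ((tb_d h r1).comp_hasFDerivAt _ k)
  rw [show fderiv ℝ (fun x : R4 => x.1 - tb M a (rd x)) p = _ from d.fderiv,
    sub_apply, smul_apply, e, smul_eq_mul] at hv
  have k0 : v.1 = qm M a (rd p) * dr p v := sub_eq_zero.1 hv
  refine not_le.1 fun c => ?_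
  have k1 := cone_in h hp (C v) c
  have k2 := (gin_ge h hp v).2
  have k3 : v.1 ^ 2 ≤ 1 / 100 * dr p v ^ 2 := by
    rw [k0, mul_pow]
    exact mul_le_mul_of_nonneg_right (by nlinarith) (sq_nonneg _)
  linarith [nrm_le v, pow_pos (norm_pos_iff.2 v0) 2, sq_nonneg v.1]

theorem kin_pb (h : |a| < M) (hp : p ∈ DE M a true) :
    pb (kin M a) (pb (kap M a) g) =ᶠ[𝓝 p] g := by
  filter_upwards [(open_DE true).mem_nhds hp] with x hx
  have e : ∀ v, fderiv ℝ (kap M a) (kin M a x) (fderiv ℝ (kin M a) x v) = v := fun v => by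
    rw [fd_cp (u' := id) (s_kap h (kin_mem h hx.1)) (s_kin hx)
      (mem_of_superset ((open_DE true).mem_nhds hx) fun _ => kap_kin h), fderiv_id]
    rfl
  funext v w
  simp only [pb, e, kap_kin h hx]

theorem X_lo (o : c.Ok) (hp : c.R1 + 2 ≤ rd p) : c.X =ᶠ[𝓝 p] Lo c.M c.a := by
  have k : 1 / (2 * c.k) ≤ 1 := (div_le_one (by linarith [o.k])).2 (by linarith [o.k])
  exact (rd_cont.continuousAt.eventually_const_lt (show c.R1 + 1 < rd p by linarith)).mono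
    fun x hx => o.tauI.X_out x (by linarith)

theorem gq_far (o : c.Ok) (n : Nk c N k U W) (L : Lv g D) (hp : p ∈ D) (hr : c.R1 + 2 ≤ rd p) :
    Gq N p g c.X p ↔ ∀ v, g p (fderiv ℝ (Lo c.M c.a) p (Lo c.M c.a p)) v +
      chr g p (Lo c.M c.a p) (Lo c.M c.a p) v = 0 := by
  obtain ⟨k1, k2⟩ := n.far (p, jet N.m g p, c.X p) hr
  have z : ∀ v, g p 0 v = 0 := fun v => by
    rw [L.met.symm p hp, (L.met.lin p hp v).map_zero]
  rw [Gq, and_iff_right (n.is.sub k1), k2, (X_lo o hr).fderiv_eq, (X_lo o hr).eq_of_nhds]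
  simp only [z]

theorem fl_iff (o : c.Ok) (n : Nk c N k U W) (L : Lv g D) (hp : p ∈ D) (hs : p ∈ Sig0 c.M c.a)
    (hr : c.R1 + 2 ≤ rd p) (h1 : 22 * c.M ≤ c.R1) (b : Bd m (g - gin c.M c.a) p (1 / 8)) :
    c.X p = W (p, jet k g p) ↔ ∀ v, g p (Lo c.M c.a p) v = gin c.M c.a p (Lo c.M c.a p) v := by
  rw [(X_lo o hr).eq_of_nhds, eq_comm]
  exact n.wfar g D L p hp hs hr (spl_far o.sub (by linarith) fun v => sq ‖v‖ ▸ bd_zero b v v)

theorem ab_lt (o : c.Ok) {θ : ℝ} (hp : p ∈ Ab c θ) : c.r1 < rd p ∧ θ ≤ ex c.M c.a p ∧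
    (rp c.M c.a < rd p → tb c.M c.a (rd p) ≤ p.1) ∧ p.1 < c.be (rd p) + 4 * (c.del * rd p) := by
  obtain ⟨k1, k2, k3⟩ := (o.En_iff θ p).1 hp.1
  have := (o.psi_lt (o.pos k1) 2).1 (hp.2.trans_lt one_lt_two)
  exact ⟨k1, k2, k3, by linarith⟩

theorem far_ex (o : c.Ok) (hr : c.Rb + 1 ≤ rd p) (ht : tb c.M c.a (rd p) ≤ p.1) :
    Real.exp (ka c.M c.a * c.be 0) ≤ ex c.M c.a p :=
  Real.exp_le_exp.2 (mul_le_mul_of_nonneg_left
    ((o.be_mono (rd_nn p)).trans ((o.be_far hr).trans_le ht)) (ka_pos o.sub).le)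

/-- The compact set in the Kruskal chart. -/
theorem ex_K (h : |a| < M) {K : Set R4} (hK : IsCompact K) (s : ∀ p ∈ K, p ∈ DI M a) {r θ : ℝ}
    (hr : rm M a < r) (h0 : 0 < θ) (R T : ℝ) : ∃ K', IsCompact K' ∧
      (∀ p ∈ K', p ∈ DK M a ∧ 0 ≤ p.1) ∧
      ∀ p, p ∈ K ∨ p ∈ Nq M a r θ R T → 0 ≤ (kap M a p).1 → kap M a p ∈ K' := by
  have c : IsCompact {p : R4 | rd p ∈ Icc r R ∧ p.1 ∈ Icc (Real.log θ / ka M a) T} := by
    refine Metric.isCompact_of_isClosed_isBounded ((isClosed_Icc.preimage rd_cont).inter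
      (isClosed_Icc.preimage continuous_fst)) (isBounded_iff_forall_norm_le.2
        ⟨|Real.log θ / ka M a| + |T| + R, fun p hp => (P354XA.norm_le p).trans ?_⟩)
    have := abs_le_max_abs_abs hp.2.1 hp.2.2
    linarith [max_le_add_of_nonneg (abs_nonneg (Real.log θ / ka M a)) (abs_nonneg T), hp.1.2]
  have s' : ∀ p ∈ K ∪ {p : R4 | rd p ∈ Icc r R ∧ p.1 ∈ Icc (Real.log θ / ka M a) T},
      p ∈ DI M a := fun p hp => hp.elim (s p) fun k => hr.trans_le k.1.1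
  refine ⟨_, ((hK.union c).image_of_continuousOn (f := kap M a) fun p hp =>
    (s_kap h (s' p hp)).continuousAt.continuousWithinAt).inter_right
      (isClosed_le continuous_const continuous_fst), ?_, fun p hp k => ⟨⟨p, hp.imp_right
        fun q => ⟨⟨q.1, q.2.1⟩, ?_, q.2.2.2.2⟩, rfl⟩, k⟩⟩
  · rintro _ ⟨⟨p, hp, rfl⟩, k⟩
    exact ⟨(kap_mem h (s' p hp)).1, k⟩
  · rw [div_le_iff₀' (ka_pos h), Real.log_le_iff_le_exp h0]
    exact q.2.2.1

/-- The two pieces: g' on the near part, gF on the far band. -/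
structure Pc2 (c : Pm) (N : P354XV.Nat) (k : ℕ) (W : R4 × Jet k → R4) (θ θ1 : ℝ) (m : ℕ) (e : ℝ)
    (d : Dat) (g : Tw) (D : Set R4) (g' : Tw) (D' : Set R4) (b : R4 → R4) (gF : Tw)
    (DF : Set R4) : Prop where
  r1 : 22 * c.M ≤ c.R1
  rb : c.R1 + 2 ≤ c.Rb
  t0 : 0 < θ
  t1 : θ ≤ θ1
  t2 : 2 * θ1 ≤ Real.exp (ka c.M c.a * c.be 0)
  e0 : e ∈ Icc (0 : ℝ) (1 / 8)
  lv : Lv g D
  nr : Nr c N k W θ1 (Nq c.M c.a c.r1 θ (5 * (c.Rb + 1))
    (c.be (5 * (c.Rb + 1)) + 8 * c.del * (5 * (c.Rb + 1)))) m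
    (e / (1 + 5 * (c.Rb + 1)) ^ (m + 1)) g D g' D' b
  ind : ∀ y, pt 0 y ∈ DE c.M c.a true → kin c.M c.a (pt 0 y) ∈ Nq c.M c.a c.r1 θ (5 * (c.Rb + 1))
    (c.be (5 * (c.Rb + 1)) + 8 * c.del * (5 * (c.Rb + 1))) → In0 (pb (kin c.M c.a) g') d y
  fg : Fg c.M c.a d (Fb c.M c.a (c.Rb + 1) (8 * c.del)) DF gF
  fl : ∀ p ∈ DF, ∀ v, gF p (Lo c.M c.a p) v = gin c.M c.a p (Lo c.M c.a p) v
  sm : ∀ p ∈ Fb c.M c.a (c.Rb + 1) (8 * c.del), Sm m e (gF - gin c.M c.a) p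

variable {θ θ1 : ℝ} {d : Dat} {D' DF : Set R4} {b : R4 → R4} {gF : Tw}

theorem nq_mem (o : c.Ok) (h1 : c.r1 ≤ rd p) (h2 : rd p ≤ R) (h3 : θ ≤ ex c.M c.a p)
    (h4 : rp c.M c.a < rd p → tb c.M c.a (rd p) ≤ p.1)
    (h5 : p.1 ≤ c.be (rd p) + 8 * c.del * rd p) :
    p ∈ Nq c.M c.a c.r1 θ R (c.be R + 8 * c.del * R) :=
  ⟨h1, h2, h3, h4, h5.trans (add_le_add (o.be_mono h2)
    (mul_le_mul_of_nonneg_left h2 (by linarith [o.del.1])))⟩

theorem ab_nq (o : c.Ok) (hp : p ∈ Ab c θ) (h2 : rd p ≤ R) :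
    p ∈ Nq c.M c.a c.r1 θ R (c.be R + 8 * c.del * R) := by
  obtain ⟨k1, k2, k3, k4⟩ := ab_lt o hp
  exact nq_mem o k1.le h2 k2 k3 (by linarith [mul_nonneg o.del.1.le (rd_nn p)])

theorem ab_fb (o : c.Ok) (hp : p ∈ Ab c θ) (h1 : c.Rb + 1 ≤ R) (h2 : R ≤ rd p) :
    p ∈ Fb c.M c.a R (8 * c.del / 2) := by
  obtain ⟨-, -, k3, k4⟩ := ab_lt o hp
  rw [o.be_far (h1.trans h2)] at k4
  exact ⟨h2, sub_nonneg.2 (k3 (P354YT.rp_lt o.sub (by linarith [o.Rb]))), by linarith⟩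

theorem Pc2.bd (P : Pc2 c N k W θ θ1 m e d g D g' D' b gF DF)
    (hp : p ∈ Nq c.M c.a c.r1 θ (5 * (c.Rb + 1))
      (c.be (5 * (c.Rb + 1)) + 8 * c.del * (5 * (c.Rb + 1)))) :
    Sm m e (g' - gin c.M c.a) p ∧ Bd m (g' - gin c.M c.a) p e :=
  have k := bd_sm (P.nr.bd p hp) P.e0.1 hp.2.1
  ⟨k, sm_bd k P.e0.1⟩

/-- The near piece is a solution in the window. -/
theorem Pc2.win (P : Pc2 c N k W θ θ1 m e d g D g' D' b gF DF) (o : c.Ok) (n : Nk c N k U W) :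
    (∀ p ∈ Fb c.M c.a (c.Rb + 1) (8 * c.del), rd p ≤ 4 * (c.Rb + 1) →
      Bd m (g' - gin c.M c.a) p e) ∧ ∃ V, Fg c.M c.a d
        {p ∈ Fb c.M c.a (c.Rb + 1) (8 * c.del) | rd p ≤ 4 * (c.Rb + 1)} V g' := by
  have L := P.lv.pull P.nr.pull
  have m0 := o.M0
  have r1 := P.r1
  have rb := P.rb
  have t0 := P.t0
  have t1 := P.t1
  have t2 := P.t2
  have lt := o.lt
  have s : ∀ p ∈ Fb c.M c.a (c.Rb + 1) (8 * c.del), rd p ≤ 4 * (c.Rb + 1) →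
      2 * θ1 ≤ ex c.M c.a p ∧ p ∈ Nq c.M c.a c.r1 θ (5 * (c.Rb + 1))
        (c.be (5 * (c.Rb + 1)) + 8 * c.del * (5 * (c.Rb + 1))) := fun p hp h4 => by
    have k1 := sub_nonneg.1 hp.2.1
    have k2 := t2.trans (far_ex o hp.1 k1)
    exact ⟨k2, nq_mem o (by linarith [hp.1]) (by linarith) (by linarith) (fun _ => k1)
      (by linarith [o.be_far hp.1, hp.2.2])⟩
  have oV : IsOpen (D' ∩ {p | rd p ∈ Ioo (c.R1 + 2) (5 * (c.Rb + 1)) ∧
      7 / 5 * θ1 < ex c.M c.a p}) := L.isOpen.inter ((isOpen_Ioo.preimage rd_cont).inter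
        (isOpen_lt continuous_const ex_cont))
  refine ⟨fun p hp h4 => (P.bd (s p hp h4).2).2, _, L.mono oV inter_subset_left,
    fun p hp => ⟨P.nr.sub (s p hp.1 hp.2).2, ⟨by linarith [hp.1.1], by linarith [hp.2]⟩,
      by linarith [(s p hp.1 hp.2).1]⟩,
    fun p hp => (gq_far o n L hp.1 hp.2.1.1.le).1 (P.nr.gau p hp.1 hp.2.2.le), fun p hp e => ?_,
    fun y hy k => P.ind y hy (s _ k.1 k.2).2⟩
  obtain ⟨k0, ⟨k1, k2⟩, k3⟩ := hp
  have r : rp c.M c.a < rd p := P354YT.rp_lt o.sub (by linarith)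
  have q := nq_mem o (θ := θ) (by linarith) k2.le (by linarith) (fun _ => e.ge)
    (by linarith [o.be_ge r, mul_nonneg o.del.1.le (rd_nn p)])
  exact (fl_iff o n L k0 ⟨r, e⟩ k1.le r1 (bd_le (P.bd q).2 le_rfl P.e0.2)).1
    (P.nr.ini p q ⟨r, e⟩ k3.le)

/-- The glued metric. -/
theorem Pc2.glue (P : Pc2 c N k W θ θ1 m e d g D g' D' b gF DF) (o : c.Ok) (n : Nk c N k U W)
    (A : ∀ p ∈ Fb c.M c.a (2 * (c.Rb + 1)) (8 * c.del / 2), rd p ≤ 3 * (c.Rb + 1) →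
      g' =ᶠ[𝓝 p] gF)
    (C : ∀ gc W0, Lv gc W0 → Ab c θ ⊆ W0 → (∀ p ∈ Ab c θ, Bd m (gc - gin c.M c.a) p e) →
      (∀ p ∈ c.sc.Cl 0, Gq N p gc c.X p) → P354XV.Col N c.sc gc) :
    ∃ gc, Cg c N k W θ θ1 m e gc ∧
      (∀ p ∈ Ab c θ, ex c.M c.a p ≤ 6 / 5 * θ1 → gc =ᶠ[𝓝 p] g) ∧
      ∀ y, pt 0 y ∈ DE c.M c.a true → kin c.M c.a (pt 0 y) ∈ Ab c θ →
        In0 (pb (kin c.M c.a) gc) d y := by
  have L := P.lv.pull P.nr.pull
  have m0 := o.M0
  have d0 := o.del.1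
  have r1 := P.r1
  have rb := P.rb
  have t0 := P.t0
  have t1 := P.t1
  have t2 := P.t2
  obtain ⟨gc, hc⟩ : ∃ gc : Tw, ∀ x, gc x = if rd x < 5 / 2 * (c.Rb + 1) then g' x else gF x :=
    ⟨_, fun _ => rfl⟩
  have key : ∀ p ∈ Ab c θ, (rd p < 5 / 2 * (c.Rb + 1) ∧ gc =ᶠ[𝓝 p] g' ∧
      p ∈ Nq c.M c.a c.r1 θ (5 * (c.Rb + 1))
        (c.be (5 * (c.Rb + 1)) + 8 * c.del * (5 * (c.Rb + 1)))) ∨
      (5 / 2 * (c.Rb + 1) ≤ rd p ∧ gc =ᶠ[𝓝 p] gF ∧ p ∈ Fb c.M c.a (c.Rb + 1) (8 * c.del)) :=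
    fun p hp => by
    refine (lt_or_ge _ _).imp (fun k => ⟨k, ?_, ab_nq o hp (by linarith)⟩) fun k =>
      ⟨k, ?_, fb_mono (ab_fb o hp le_rfl (by linarith)) (by linarith) (by linarith)⟩
    · exact (rd_cont.continuousAt.eventually_lt_const k).mono fun x hx => by rw [hc, if_pos hx]
    · rcases le_or_gt (rd p) (3 * (c.Rb + 1)) with l | l
      · exact (A p (ab_fb o hp (by linarith) (by linarith)) l).mono fun x hx => by
          rw [hc, hx, ite_self]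
      · exact (rd_cont.continuousAt.eventually_const_lt
          (show 5 / 2 * (c.Rb + 1) < rd p by linarith)).mono fun x hx => by rw [hc, if_neg hx.not_gt]
  have sub : Ab c θ ⊆ vd gc := fun p hp => (key p hp).elim
    (fun k => ⟨_, _, L, P.nr.sub k.2.2, k.2.1⟩) fun k => ⟨_, _, P.fg.lv, P.fg.sub k.2.2, k.2.1⟩
  have sml : ∀ p ∈ Ab c θ, Sm m e (gc - gin c.M c.a) p := fun p hp => (key p hp).elim
    (fun k => sm_mono (P.bd k.2.2).1 le_rfl (k.2.1.sub .rfl))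
    fun k => sm_mono (P.sm p k.2.2) le_rfl (k.2.1.sub .rfl)
  have gau : ∀ p ∈ Ab c θ, 3 / 2 * θ1 ≤ ex c.M c.a p → ∀ᶠ x in 𝓝 p, Gq N x gc c.X x :=
    fun p hp k0 => by
    rcases key p hp with k | k
    · filter_upwards [k.2.1.eventually_nhds, L.isOpen.mem_nhds (P.nr.sub k.2.2),
        ex_cont.continuousAt.eventually_const_lt (show 7 / 5 * θ1 < ex c.M c.a p by linarith)]
        with x a1 a2 a3 using (P.nr.gau x a2 a3.le).congr a1 .rfl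
    · filter_upwards [k.2.1.eventually_nhds, P.fg.lv.isOpen.mem_nhds (P.fg.sub k.2.2),
        rd_cont.continuousAt.eventually_const_lt (show c.R1 + 2 < rd p by linarith [k.1])]
        with x a1 a2 a3 using ((gq_far o n P.fg.lv a2 a3.le).2 (P.fg.geo x a2)).congr a1 .rfl
  refine ⟨gc, ⟨⟨_, lv_vd gc, sub⟩, C gc _ (lv_vd gc) sub (fun p hp => sm_bd (sml p hp) P.e0.1)
    fun p hp => ?_, sml, gau, fun p hp k0 => ?_⟩, fun p hp k0 => ?_, fun y hy hp => ?_⟩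
  · have k := o.mem_En hp.1.1 hp.1.2.le
    exact (gau p ⟨⟨k.1, by linarith [k.2.1], k.2.2⟩, (hp.2.trans one_pos).le⟩
      (le_trans (by linarith) k.2.1)).self_of_nhds
  · have q : c.r1 < rd p := o.r1.2.trans hp.1
    have a : p ∈ Ab c θ := ⟨(o.En_iff θ p).2 ⟨q, by linarith, fun _ => hp.2.ge⟩,
      ((o.psi_lt (o.pos q) 1).2 (by linarith [o.be_ge hp.1, hp.2, mul_pos d0 (o.pos q)])).le⟩
    have fi := fun hr => fl_iff o n (lv_vd gc) (sub a) hp hr r1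
      (bd_le (sm_bd (sml p a) P.e0.1) le_rfl P.e0.2)
    rcases key p a with k | k
    · have e := P.nr.ini p k.2.2 hp (le_trans (by linarith) k0)
      rw [← jet_congr _ k.2.1] at e
      exact ⟨e, fun hr => (fi hr).1 e⟩
    · have e := fun v => (congrFun₂ k.2.1.eq_of_nhds _ v).trans (P.fl p (P.fg.sub k.2.2) v)
      exact ⟨(fi (by linarith [k.1])).2 e, fun _ => e⟩
  · rcases key p hp with k | k
    · refine k.2.1.trans ?_
      have e : ∀ᶠ x in 𝓝 p, x ∈ D' ∧ b x = id x := by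
        filter_upwards [L.isOpen.mem_nhds (P.nr.sub k.2.2), ex_cont.continuousAt.eventually_lt_const
          (show ex c.M c.a p < 13 / 10 * θ1 by linarith)] with x a1 a2 using
          ⟨a1, P.nr.idn x a1 (Or.inl a2.le)⟩
      filter_upwards [e.eventually_nhds] with x hx
      have e' : b =ᶠ[𝓝 x] id := hx.mono fun _ z => z.2
      funext v w
      rw [P.nr.pull.eq x hx.self_of_nhds.1, e'.fderiv_eq, e'.eq_of_nhds, fderiv_id]
      rfl
    · linarith [far_ex o k.2.2.1 (sub_nonneg.1 k.2.2.2.1)]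
  · exact (key _ hp).elim
      (fun k => in0_congr (P.ind y hy k.2.2) (pb_congr (s_kin hy).continuousAt k.2.1))
      fun k => in0_congr (P.fg.ind y hy k.2.2) (pb_congr (s_kin hy).continuousAt k.2.1)

/-- **AEN.** -/
theorem aen : AEN := by
  intro hN hC hI hF hA M a h θ t0
  have m0 := M_pos h
  refine ⟨max θ (Real.exp (ka M a * tb M a (10 * M + 1))), fun θ1 tt => ?_⟩
  obtain ⟨t1, t3⟩ := max_le_iff.1 tt
  obtain ⟨RF, δF, dF, hF⟩ := hF M a h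
  obtain ⟨RA, δA, dA, c0, cA, hA⟩ := hA M a h
  obtain ⟨R, k1, k2, k3, k4, k5, k6⟩ := (((Real.tendsto_exp_atTop.comp
    ((P354YA.tb_top h).const_mul_atTop (ka_pos h))).eventually_ge_atTop (2 * θ1)).and
      ((eventually_ge_atTop (22 * M)).and ((eventually_ge_atTop RF).and
        ((eventually_ge_atTop RA).and ((eventually_ge_atTop (8 / δF)).and
          (eventually_ge_atTop (8 / δA))))))).exists
  refine ⟨R, fun c eM ea N k U W ⟨o, a1, a2, a3⟩ n => ?_⟩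
  subst eM ea
  have d0 := o.del.1
  have t2 : 2 * θ1 ≤ Real.exp (ka c.M c.a * c.be 0) := k1.trans (Real.exp_le_exp.2
    (mul_le_mul_of_nonneg_left (P354YA.tb_be o (by linarith) (by linarith)) (ka_pos h).le))
  have dl : ∀ δ > 0, 8 / δ ≤ R → 8 * c.del ≤ δ := fun δ e1 e2 => by
    rw [div_le_iff₀ e1] at e2
    nlinarith [mul_le_mul_of_nonneg_right e2 d0.le, mul_le_mul_of_nonneg_left a3 e1.le]
  refine ⟨t2, fun m e e0 => ?_⟩
  obtain ⟨mC, eC, eC0, hC⟩ := hC c N k U W o n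
  obtain ⟨ε, ε0, ε1, ε2, ε3, ε4⟩ : ∃ ε > 0, ε ≤ e ∧ ε ≤ eC ∧ ε ≤ c0 ∧ ε ≤ 1 / 8 :=
    ⟨min (min e eC) (min c0 (1 / 8)), by positivity, by simp, by simp, by simp, by simp⟩
  have ρ0 : 0 < c.Rb + 1 := by linarith
  obtain ⟨K, cK, sK, mN, ηN, ηN0, hN⟩ := hN c N k U W θ θ1 (5 * (c.Rb + 1))
    (c.be (5 * (c.Rb + 1)) + 8 * c.del * (5 * (c.Rb + 1))) o n t0 t3 (max m mC)
    (ε / (1 + 5 * (c.Rb + 1)) ^ (max m mC + 1)) (by positivity)
  obtain ⟨mF, ηF, ηF0, hF⟩ := hF (max m mC) ε ε0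
  obtain ⟨C, C0, hB⟩ := P354DT.bd_pb (f := kap c.M c.a) mN cK fun p hp => s_kap h (sK p hp).1
  obtain ⟨K', cK', s1, s2⟩ := ex_K h cK (fun p hp => (sK p hp).1) o.r1.1 t0 (5 * (c.Rb + 1))
    (c.be (5 * (c.Rb + 1)) + 8 * c.del * (5 * (c.Rb + 1)))
  refine ⟨K', cK', s1, max mN mF, min (ηN / (C + 1)) ηF, by positivity,
    fun d hd g D L hg I => ?_⟩
  have o1 : IsOpen (DI c.M c.a ∩ kap c.M c.a ⁻¹' D) := ContinuousOn.isOpen_inter_preimage
    (fun _ hz => (s_kap h hz).continuousAt.continuousWithinAt) open_DI L.isOpen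
  have L1 := L.pull (pull_pb (f := kap c.M c.a) L o1 (fun _ hz => s_kap h hz.1) (fun _ hz => hz.2)
    fun _ hz => (kap_pull h).inj _ hz.1)
  obtain ⟨g', D', b, Z⟩ := hN _ _ L1 fun p hp => by
    obtain ⟨q1, q2⟩ := sK p hp
    obtain ⟨q3, q4⟩ := hg _ (s2 p (Or.inl hp) q2)
    refine ⟨⟨q1, q3⟩, bd_congr (bd_le (hB p hp g (gK c.M c.a) (D ∩ DK c.M c.a) (ηN / (C + 1))
      (L.isOpen.inter open_DK) (P354XV.met_mono L.met inter_subset_left)
      (P354XV.met_mono (gK_met h) inter_subset_right) ⟨q3, (kap_mem h q1).1⟩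
      (bd_le q4 (le_max_left _ _) (min_le_left _ _))) le_rfl ?_) ?_⟩
    · rw [← mul_div_assoc, div_le_iff₀ (by positivity)]
      nlinarith
    · filter_upwards [open_DI.mem_nhds q1] with x hx
      funext v w
      simp only [pb, Pi.sub_apply, kap_gK h hx]
  obtain ⟨DF, gF, F, fl, S⟩ := hF d (ba_sub (le_max_right _ _) (min_le_right _ _) hd)
  have sF : Fb c.M c.a (c.Rb + 1) (8 * c.del) ⊆ Fb c.M c.a RF δF := fun p hp =>
    fb_mono hp (by linarith [hp.1]) (dl _ dF k5)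
  have P : Pc2 c N k W θ θ1 (max m mC) ε d.1 _ _ g' D' b gF DF :=
    ⟨by linarith, a2, t0, t1, t2, ⟨ε0.le, ε4⟩, L1, Z, fun y hy hp => hI _ _ h b g' D' _ _ d.1 y
      Z.pull hy (Z.sub hp) (Z.det _ (Z.sub hp)) (fun x hx s => Z.idn x hx (Or.inr s))
      (in0_congr (I y (kap_kin h hy ▸ s2 _ (Or.inr hp) (by rw [kap_kin h hy]; exact le_rfl)))
        (kin_pb h hy)), fg_mono F sF, fl, fun p hp => S p (sF hp)⟩
  obtain ⟨w1, V, w2⟩ := P.win o n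
  obtain ⟨gc, G, e1, e2⟩ := P.glue o n (hA _ (by linarith) _ ⟨by linarith, dl _ dA k6⟩ d.1 _ _ _ _
    w2 (fg_mono P.fg fun _ z => z.1) fun p hp h4 v =>
      sq ‖v‖ ▸ bd_zero (bd_le (w1 p hp h4) le_rfl ε3) v v)
    fun gc W0 l s B => hC θ gc W0 (by linarith) l s fun p hp => bd_le (B p hp) (le_max_right _ _) ε2
  exact ⟨gc, ⟨G.lv, G.col, fun p hp => sm_mono (fun j hj => G.sml p hp j
    (hj.trans (le_max_left _ _))) ε1 .rfl, G.gau, G.ini⟩, e1, e2⟩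

end Vale.Agent.P354LC
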