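import Vale.Agent.P354UG.Ug
import Vale.Agent.P354XV.Loc

/-!
Uniqueness in a Gaussian null gauge: agreement of two metrics along a hypersurface, and an annular
lens.
-/

set_option maxSynthPendingDepth 3

open scoped ContDiff
open Set Filter Topology Metric

noncomputable section

namespace Vale.Agent.P354LC

open Vale.Agent.P354n (R4)
open Vale.Agent.P354I (X Dat ee)
open Vale.Agent.P354R (Met Pull chr)
open Vale.Agent.P354RC
open Vale.Agent.P354XE (Tw pt xs eT)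
open Vale.Agent.P354XV
open Vale.Agent.P354UG

variable {g g' k k' : Tw} {D D' : Set R4} {p x : R4} {f : R4 → R4} {ρ T : ℝ}

/-- The metrics agree at p, with the second fundamental forms of the kernel of l. -/
def Ag (g g' : Tw) (p : R4) (l : R4 → ℝ) : Prop :=
  g p = g' p ∧ ∀ v w n, l v = 0 → l w = 0 → (∀ u, l u = 0 → g p u n = 0) →
    chr g p v w n = chr g' p v w n

theorem ag_pull (P : Pull f k D' g D) (P' : Pull f k' D' g' D) (hx : x ∈ D') {l l' : R4 → ℝ}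
    (e : ∀ v, l' v = 0 ↔ l (fderiv ℝ f x v) = 0) : Ag k k' x l' ↔ Ag g g' (f x) l := by
  have su := surj_of_inj (P.inj x hx)
  have c := k2.2.2.2.2 _ _ _ _ _ P x hx
  have c' := k2.2.2.2.2 _ _ _ _ _ P' x hx
  constructor
  · rintro ⟨h1, h2⟩
    have e0 : g (f x) = g' (f x) := by
      funext v w
      obtain ⟨v, rfl⟩ := su v
      obtain ⟨w, rfl⟩ := su w
      rw [← P.eq x hx, ← P'.eq x hx, h1]
    refine ⟨e0, fun v w n hv hw hn => ?_⟩
    obtain ⟨v, rfl⟩ := su v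
    obtain ⟨w, rfl⟩ := su w
    obtain ⟨n, rfl⟩ := su n
    have := h2 v w n ((e v).2 hv) ((e w).2 hw) fun u hu => by
      rw [P.eq x hx]; exact hn _ ((e u).1 hu)
    rw [c, c', e0] at this
    exact add_right_cancel this
  · rintro ⟨h1, h2⟩
    refine ⟨funext fun v => funext fun w => by rw [P.eq x hx, P'.eq x hx, h1],
      fun v w n hv hw hn => ?_⟩
    rw [c, c', h1, h2 _ _ _ ((e v).1 hv) ((e w).1 hw) fun u hu => ?_]
    obtain ⟨u, rfl⟩ := su u
    rw [← P.eq x hx]; exact hn _ ((e u).2 hu)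

theorem dec0 {v : R4} (hv : v.1 = 0) :
    v = v.2.1 • pt 0 (ee 0) + v.2.2.1 • pt 0 (ee 1) + v.2.2.2 • pt 0 (ee 2) := by
  refine Prod.ext ?_ (Prod.ext ?_ (Prod.ext ?_ ?_)) <;> simp [pt, ee, hv]

theorem ag_in0 (L : Lv g D) (L' : Lv g' D) {y : X} {d : Dat} (hy : pt 0 y ∈ D) (I : In0 g d y)
    (I' : In0 g' d y) {u : R4} (u0 : u.1 ≠ 0) (e : ∀ v, g (pt 0 y) u v = g' (pt 0 y) u v) :
    Ag g g' (pt 0 y) Prod.fst := by
  obtain ⟨h, r⟩ := rp_of_met L.isOpen L.met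
  obtain ⟨h', r'⟩ := rp_of_met L'.isOpen L'.met
  obtain ⟨n, n1, n2, n3⟩ := I
  obtain ⟨n', m1, m2, m3⟩ := I'
  simp only [r.eq _ hy, r'.eq _ hy, r.chr hy, r'.chr hy] at e n1 n3 m1 m3
  have a0 : ∀ i j, h (pt 0 y) (pt 0 (ee i)) (pt 0 (ee j)) =
      h' (pt 0 y) (pt 0 (ee i)) (pt 0 (ee j)) := fun i j => (n3 i j).2.1.trans (m3 i j).2.1.symm
  have a1 : ∀ v w : R4, v.1 = 0 → w.1 = 0 → h (pt 0 y) v w = h' (pt 0 y) v w := fun v w hv hw => by
    rw [dec0 hv, dec0 hw]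
    simp only [map_add, map_smul, add_apply, smul_apply, a0]
  have dec : ∀ m : R4, m.1 ≠ 0 → ∀ v : R4, ∃ t : ℝ, ∃ w : R4, w.1 = 0 ∧ v = t • m + w :=
    fun m hm v => ⟨v.1 / m.1, v - (v.1 / m.1) • m, by simp [div_mul_cancel₀ _ hm], by abel⟩
  have a2 : h (pt 0 y) = h' (pt 0 y) := by
    refine ContinuousLinearMap.ext fun v => ContinuousLinearMap.ext fun w => ?_
    obtain ⟨t, v, hv, rfl⟩ := dec u u0 v
    obtain ⟨s, w, hw, rfl⟩ := dec u u0 w
    simp only [map_add, map_smul, add_apply, smul_apply, e, a1 v w hv hw, r.symm _ hy v u,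
      r'.symm _ hy v u]
  have ort : ∀ m : R4, (∀ i, h (pt 0 y) (pt 0 (ee i)) m = 0) → ∀ v : R4, v.1 = 0 →
      h (pt 0 y) v m = 0 := fun m hm v hv => by
    rw [dec0 hv]
    simp only [map_add, map_smul, add_apply, smul_apply, hm, smul_zero, add_zero]
  have o1 := ort n fun i => (n3 i i).1
  have mul : ∀ m : R4, (∀ v : R4, v.1 = 0 → h (pt 0 y) v m = 0) → ∃ t : ℝ, m = t • n := by
    intro m hm
    obtain ⟨t, w, hw, rfl⟩ := dec n n2.ne' m
    refine ⟨t, ?_⟩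
    rw [r.nd _ hy w fun b => ?_, add_zero]
    obtain ⟨s, b, hb, rfl⟩ := dec n n2.ne' b
    have := hm b hb
    rw [map_add, map_smul, o1 b hb, smul_zero, zero_add] at this
    rw [map_add, map_smul, o1 w hw, smul_zero, zero_add, r.symm _ hy, this]
  obtain ⟨t, rfl⟩ := mul n' (ort n' fun i => a2 ▸ (m3 i i).1)
  have t1 : t = 1 := by
    simp only [← a2, map_smul, smul_apply, smul_eq_mul, n1] at m1
    have : 0 < t := (mul_pos_iff_of_pos_right n2).1 m2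
    nlinarith
  rw [t1, one_smul] at m3
  have a3 : ∀ i j, C1 h (pt 0 y) (pt 0 (ee i)) (pt 0 (ee j)) n =
      C1 h' (pt 0 y) (pt 0 (ee i)) (pt 0 (ee j)) n := fun i j =>
    neg_injective ((n3 i j).2.2.trans (m3 i j).2.2.symm)
  refine ⟨funext fun v => funext fun w => by rw [r.eq _ hy, r'.eq _ hy, a2],
    fun v w m hv hw hm => ?_⟩
  obtain ⟨s, rfl⟩ := mul m fun v hv => r.eq _ hy v m ▸ hm v hv
  rw [r.chr hy, r'.chr hy, map_smul, map_smul, dec0 hv, dec0 hw]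
  simp only [C1_ap, map_add, map_smul, add_apply, smul_apply, smul_eq_mul] at a3 ⊢
  linear_combination s * (v.2.1 * (w.2.1 * a3 0 0 + w.2.2.1 * a3 0 1 + w.2.2.2 * a3 0 2) +
    v.2.2.1 * (w.2.1 * a3 1 0 + w.2.2.1 * a3 1 1 + w.2.2.2 * a3 1 2) +
    v.2.2.2 * (w.2.1 * a3 2 0 + w.2.2.1 * a3 2 1 + w.2.2.2 * a3 2 2))

/-- A map which sends the slice into a level set sends the tangent spaces onto each other. -/
theorem ker_iff {σ : R4 → ℝ} {l : R4 →L[ℝ] ℝ} (hσ : HasFDerivAt σ l (f x)) (l0 : l eT ≠ 0)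
    (hf : DifferentiableAt ℝ f x) (i : Function.Injective (fderiv ℝ f x)) (x0 : x.1 = 0)
    (e : ∀ᶠ z in 𝓝 x, z.1 = 0 → σ (f z) = 0) (v : R4) : v.1 = 0 ↔ l (fderiv ℝ f x v) = 0 := by
  have k : ∀ v : R4, v.1 = 0 → l (fderiv ℝ f x v) = 0 := fun v hv => by
    have d1 : HasDerivAt (fun t : ℝ => x + t • v) v 0 := by
      simpa using ((hasDerivAt_id (0 : ℝ)).smul_const v).const_add x
    have d2 := (hσ.comp x hf.hasFDerivAt).comp_hasDerivAt_of_eq 0 d1 (by simp)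
    refine d2.unique ((hasDerivAt_const (0 : ℝ) (0 : ℝ)).congr_of_eventuallyEq ?_)
    filter_upwards [(show Tendsto (fun t : ℝ => x + t • v) (𝓝 0) (𝓝 x) by
      simpa using d1.continuousAt.tendsto).eventually e] with t ht using ht (by simp [hv, x0])
  have k1 : ∀ v : R4, l (fderiv ℝ f x v) = v.1 * l (fderiv ℝ f x eT) := fun v => by
    have := k (v - v.1 • eT) (by simp [eT])
    simpa [sub_eq_zero] using this
  refine ⟨k v, fun hv => ?_⟩
  obtain ⟨w, hw⟩ := surj_of_inj i eT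
  rw [← hw, k1] at l0
  exact (mul_eq_zero.1 ((k1 v).symm.trans hv)).resolve_right (right_ne_zero_of_mul l0)

theorem geo_pull (P : Pull f k D' g D) (hx : x ∈ D') {L : R4 → R4}
    (hL : DifferentiableAt ℝ L (f x)) (e : ∀ z ∈ D', fderiv ℝ f z eT = L (f z))
    (H : ∀ c, g (f x) (fderiv ℝ L (f x) (L (f x))) c + chr g (f x) (L (f x)) (L (f x)) c = 0)
    (c : R4) : chr k x eT eT c = 0 := by
  have e1 : (fun z => fderiv ℝ f z eT) =ᶠ[𝓝 x] L ∘ f := mem_of_superset (P.open'.mem_nhds hx) e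
  rw [k2.2.2.2.2 _ _ _ _ _ P x hx, e1.fderiv_eq, fderiv_comp x hL (at_df (p_at P hx)),
    ContinuousLinearMap.comp_apply, e x hx, add_comm, H]

/-- Closeness is an open condition. -/
theorem near_ev (hD : IsOpen D) (m : Met g D) (m' : Met k D) (hp : p ∈ D) {c c' : ℝ} (hc : c < c')
    (H : ∀ v, |g p v v - k p v v| ≤ c * ‖v‖ ^ 2) :
    ∀ᶠ x in 𝓝 p, ∀ v, |g x v v - k x v v| ≤ c' * ‖v‖ ^ 2 := by
  obtain ⟨h, r⟩ := rp_of_met hD m
  obtain ⟨h', r'⟩ := rp_of_met hD m'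
  have c1 : ContinuousAt (fun x => ‖h x - h' x - (h p - h' p)‖) p :=
    (((r.at hp).continuousAt.sub (r'.at hp).continuousAt).sub continuousAt_const).norm
  filter_upwards [hD.mem_nhds hp, c1.eventually_lt_const (u := c' - c) (by simpa using hc)]
    with x hx k1 v
  have k2 := ((h x - h' x - (h p - h' p)).le_opNorm₂ v v).trans
    (mul_le_mul_of_nonneg_right (mul_le_mul_of_nonneg_right k1.le (norm_nonneg v)) (norm_nonneg v))
  have k3 := H v
  simp only [sub_apply, Real.norm_eq_abs] at k2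
  rw [r.eq _ hp, r'.eq _ hp] at k3
  rw [r.eq _ hx, r'.eq _ hx]
  have := abs_add_le (h x v v - h' x v v - (h p v v - h' p v v)) (h p v v - h' p v v)
  rw [sub_add_cancel] at this
  nlinarith

/-! ### The lens -/

/-- The gauge without acceleration. -/
def N0 : P354XV.Nat := ⟨0, univ, univ, fun _ => 0⟩

theorem N0_is : N0.Is :=
  ⟨isOpen_univ, Subset.rfl, fun _ _ _ => trivial, contDiffOn_const,
    fun _ _ _ _ _ _ _ _ _ _ _ _ => ⟨Iff.rfl, Iff.rfl, fun _ => map_zero _⟩⟩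

/-- The Euclidean product of the space parts, and the functions which bound the lens. -/
def s3 (x v : R4) : ℝ := x.2.1 * v.2.1 + x.2.2.1 * v.2.2.1 + x.2.2.2 * v.2.2.2
def ph (ρ : ℝ) (b : Bool) (x : R4) : ℝ :=
  (bif b then s3 x x - (7 / 2 * ρ) ^ 2 else (9 / 5 * ρ) ^ 2 - s3 x x) + 30 * ρ * x.1

theorem ph_cd (ρ : ℝ) (b : Bool) : ContDiff ℝ 1 (ph ρ b) := by
  cases b <;> unfold ph s3 <;> simp only [cond] <;> fun_prop

theorem ph_fd (ρ : ℝ) (b : Bool) (x v : R4) :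
    fderiv ℝ (ph ρ b) x v = (bif b then 2 else -2) * s3 x v + 30 * ρ * v.1 := by
  have x0 := hasFDerivAt_snd (𝕜 := ℝ) (p := x)
  have k := ((x0.fst.mul x0.fst).add (x0.snd.fst.mul x0.snd.fst)).add (x0.snd.snd.mul x0.snd.snd)
  have t := (hasFDerivAt_fst (𝕜 := ℝ) (p := x)).const_mul (30 * ρ)
  cases b
  · rw [show fderiv ℝ (ph ρ false) x = _ from ((k.const_sub ((9 / 5 * ρ) ^ 2)).add t).fderiv]
    simp [s3]; ring
  · rw [show fderiv ℝ (ph ρ true) x = _ from ((k.sub_const ((7 / 2 * ρ) ^ 2)).add t).fderiv]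
    simp [s3]; ring

theorem ph_le (hρ : 0 < ρ) (b : Bool) {s : ℝ} (h : s ≤ x.1) : ph ρ b (s, x.2) ≤ ph ρ b x :=
  add_le_add_right (mul_le_mul_of_nonneg_left h (by positivity)) _

theorem ph_le' (b : Bool) {s : ℝ} (h : s = x.1) : ph ρ b (s, x.2) = ph ρ b x := by rw [h]

theorem ph_neg (b : Bool) (x : R4) : ph ρ b (-x) = ph ρ b (-x.1, x.2) := by
  simp [ph, s3]

theorem ph_cpt (hρ : 0 < ρ) (T : ℝ) : IsCompact (clens (ph ρ) T) := by
  have c : IsClosed (clens (ph ρ) T) := by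
    rw [show clens (ph ρ) T = Prod.fst ⁻¹' Icc 0 T ∩ ⋂ i, {p | ph ρ i p ≤ 0} from by
      ext; simp [clens, -Bool.forall_bool]]
    exact (isClosed_Icc.preimage continuous_fst).inter
      (isClosed_iInter fun i => isClosed_le (ph_cd ρ i).continuous continuous_const)
  refine (isCompact_closedBall (0 : R4) (T + 4 * ρ)).of_isClosed_subset c fun x hx => ?_
  have k : s3 x x - (7 / 2 * ρ) ^ 2 + 30 * ρ * x.1 ≤ 0 := hx.2 true
  have k0 := mul_nonneg hρ.le hx.1.1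
  have k1 := hx.1.1.trans hx.1.2
  have k2 : ∀ u : ℝ, u * u ≤ s3 x x → ‖u‖ ≤ T + 4 * ρ := fun u hu =>
    abs_le_of_sq_le_sq' (by nlinarith) (by positivity) |> abs_le.2
  unfold s3 at k2
  refine mem_closedBall_zero_iff.2 (norm_prod_le_iff.2 ⟨?_, norm_prod_le_iff.2 ⟨k2 _ ?_,
    norm_prod_le_iff.2 ⟨k2 _ ?_, k2 _ ?_⟩⟩⟩)
  · exact abs_le.2 ⟨by linarith [hx.1.1], by linarith [hx.1.2]⟩
  all_goals nlinarith [mul_self_nonneg x.2.1, mul_self_nonneg x.2.2.1, mul_self_nonneg x.2.2.2]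

/-- Two vacuum metrics for which the lines of t are geodesics, with a bound for the speed. -/
structure Two (ρ : ℝ) (g g' : Tw) (D : Set R4) : Prop where
  lv : Lv g D
  lv' : Lv g' D
  geo : ∀ x ∈ D, ∀ c, chr g x eT eT c = 0 ∧ chr g' x eT eT c = 0
  cone : ∀ x ∈ D, ∀ v, g x v v ≤ 0 → s3 x v ^ 2 ≤ 16 * s3 x x * v.1 ^ 2 ∧ (v.1 = 0 → v = 0)
  base : ∀ x ∈ D, x.1 = 0 → (∀ b, ph ρ b x ≤ 0) → Ag g g' x Prod.fst

theorem gq0 (h : ∀ c, chr g x eT eT c = 0) :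
    Gq N0 x g (fun _ => eT) x := ⟨trivial, fun c => by
  rw [h, fderiv_fun_const, add_zero]; rfl⟩

theorem Two.half (hG : GUS) (H : Two ρ g g' D) (hρ : 0 < ρ) (sub : clens (ph ρ) T ⊆ D) :
    EqOn g g' (clens (ph ρ) T) := by
  have sp : ∀ x ∈ D, Spl g Prod.fst x := fun x hx => spl_fst.2 fun v v0 hv =>
    not_le.1 fun c => v0 ((H.cone x hx v c).2 hv)
  choose! n hn using fun y (hy : pt 0 y ∈ D) => nrm_ex H.lv hy (sp _ hy)
  refine ug hG N0 Bool (ph ρ) T g g' D id (fun _ => eT)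
    ⟨fun y => Matrix.of fun i k => g (pt 0 y) (pt 0 (ee i)) (pt 0 (ee k)),
      fun y => Matrix.of fun i k => -chr g (pt 0 y) (pt 0 (ee i)) (pt 0 (ee k)) (n y)⟩ N0_is
    ⟨H.lv, H.lv', continuousOn_id, contDiffOn_const, ph_cd ρ, ph_cpt hρ T, sub, fun x hx s hs => ?_,
      fun _ _ => ⟨one_ne_zero, rfl⟩, fun x hx => sp x (sub hx), fun x hx b => ⟨?_, fun v hv v0 => ?_⟩,
      fun x hx => ⟨gq0 fun c => (H.geo x (sub hx) c).1,
        gq0 fun c => (H.geo x (sub hx) c).2⟩⟩ fun y hy => ?_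
  · rw [uIcc_of_le hx.1.1] at hs
    exact ⟨⟨hs.1, hs.2.trans hx.1.2⟩, fun b => (ph_le hρ b hs.2).trans (hx.2 b)⟩
  · rw [ph_fd]
    simpa [s3, eT] using hρ
  · have k : s3 x x - (7 / 2 * ρ) ^ 2 + 30 * ρ * x.1 ≤ 0 := hx.2 true
    have k0 := mul_nonneg hρ.le hx.1.1
    have k1 := (H.cone x (sub hx) v hv).1
    have k2 := mul_pos hρ v0
    have k3 := abs_le_of_sq_le_sq' (a := s3 x v) (b := 14 * (ρ * v.1))
      (by nlinarith [sq_nonneg v.1]) (by positivity)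
    rw [ph_fd]
    cases b <;> simp only [cond] <;> linarith [k3.1, k3.2]
  · obtain ⟨a1, a2⟩ := H.base _ (sub hy) rfl hy.2
    obtain ⟨n1, n2, n3⟩ := hn y (sub hy)
    refine ⟨a1, ⟨n y, n1, n2, fun i k => ⟨n3 _ rfl, rfl, rfl⟩⟩, n y, a1 ▸ n1, n2, fun i k =>
      ⟨a1 ▸ n3 _ rfl, by rw [← a1]; rfl, ?_⟩⟩
    rw [← a2 _ _ _ rfl rfl n3]; rfl

theorem chr_neg (g : Tw) (x a b c : R4) : chr (fun x => g (-x)) x a b c = -chr g (-x) a b c := by
  have k : ∀ a b c, P354n.deriv (fun z => g (-z) b c) x a =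
      -P354n.deriv (fun z => g z b c) (-x) a := fun a b c => by
    unfold P354n.deriv
    rw [← lineDeriv_neg]
    simp only [lineDeriv, neg_add, smul_neg]
  simp only [chr, k]; ring

theorem lv_neg (L : Lv g D) : Lv (fun x => g (-x)) {x | -x ∈ D} := by
  obtain ⟨h, r⟩ := rp_of_met L.isOpen L.met
  have e : ∀ y v : R4, fderiv ℝ (fun x : R4 => -x) y v = -v := fun y v => by
    rw [show fderiv ℝ (fun x : R4 => -x) y = _ from (hasFDerivAt_id y).fun_neg.fderiv]; rfl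
  exact L.pull ⟨L.isOpen.preimage continuous_neg, L.isOpen, L.met, by fun_prop, fun _ h => h,
    fun y _ v w a => neg_injective (by rwa [e, e] at a), fun y hy v w => by
      simp only [e, r.eq _ hy, map_neg, neg_apply, neg_neg]⟩

theorem Two.neg (H : Two ρ g g' D) : Two ρ (fun x => g (-x)) (fun x => g' (-x)) {x | -x ∈ D} := by
  refine ⟨lv_neg H.lv, lv_neg H.lv', fun x hx c => ?_, fun x hx v hv => ?_, fun x hx x0 hb => ?_⟩
  · simp only [chr_neg, H.geo _ hx c, neg_zero, and_self]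
  · have e1 : s3 (-x) v ^ 2 = s3 x v ^ 2 := by simp only [s3, Prod.snd_neg, Prod.fst_neg]; ring
    have e2 : s3 (-x) (-x) = s3 x x := by simp [s3]
    exact e1 ▸ e2 ▸ H.cone _ hx v hv
  · obtain ⟨a1, a2⟩ := H.base (-x) hx (by simp [x0]) fun b => by
      rw [ph_neg]; exact (ph_le' b (by simp [x0])).trans_le (hb b)
    exact ⟨a1, fun v w n hv hw hn => by rw [chr_neg, chr_neg, a2 v w n hv hw hn]⟩

/-- Equality near the points of the lens, those of the base included. -/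
theorem Two.eq (hG : GUS) (H : Two ρ g g' D) (hρ : 0 < ρ) (sub : clens (ph ρ) T ⊆ D)
    (hx : x.1 ∈ Ico 0 T) (hb : ∀ b, ph ρ b x < 0) : g =ᶠ[𝓝 x] g' := by
  obtain ⟨δ, δ0, hδ⟩ := (ph_cpt hρ 0).exists_cthickening_subset_open H.lv.isOpen
    (fun z hz => sub ⟨⟨hz.1.1, hz.1.2.trans (hx.1.trans hx.2.le)⟩, hz.2⟩)
  have e1 := H.half hG hρ sub
  have e2 := H.neg.half hG hρ (T := δ) fun z hz => hδ (mem_cthickening_of_dist_le _ (0, -z.2) δ _
    ⟨⟨le_rfl, le_rfl⟩, fun b => by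
      have := ph_neg (ρ := ρ) b (0, z.2)
      simp only [Prod.neg_mk, neg_zero] at this
      exact this.trans_le ((ph_le hρ b hz.1.1).trans (hz.2 b))⟩ (by
      simpa [Prod.dist_eq, abs_of_nonneg hz.1.1, δ0.le] using hz.1.2))
  have c1 : ∀ᶠ z in 𝓝 x, ∀ b, ph ρ b z < 0 := eventually_all.2 fun b =>
    (ph_cd ρ b).continuous.continuousAt.eventually_lt_const (hb b)
  have c2 : ∀ᶠ z in 𝓝 x, ∀ b, ph ρ b (-z) < 0 := eventually_all.2 fun b =>
    ((ph_cd ρ b).continuous.comp continuous_neg).continuousAt.eventually_lt_const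
      ((ph_neg b x).trans_lt ((ph_le hρ b (neg_le_self hx.1)).trans_lt (hb b)))
  filter_upwards [c1, c2, continuousAt_fst.eventually_lt_const hx.2,
    continuousAt_fst.eventually_const_lt ((neg_lt_zero.2 δ0).trans_le hx.1)] with z k1 k2 k3 k4
  rcases le_total 0 z.1 with c | c
  · exact e1 ⟨⟨c, k3.le⟩, fun b => (k1 b).le⟩
  · simpa only [neg_neg] using e2 (x := -z) ⟨⟨neg_nonneg.2 c, neg_le.1 k4.le⟩, fun b => (k2 b).le⟩

end Vale.Agent.P354LC
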