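import Vale.Agent.P354LC.Agr1
import Vale.Agent.P354YR.Vac
import Vale.Agent.P354YT.Cut

/-!
The chart of the far band which straightens the outgoing principal null field.
-/

set_option maxSynthPendingDepth 3

open scoped ContDiff
open Set Filter Topology Metric

noncomputable section

namespace Vale.Agent.P354LC

open Vale.Agent.P354n (R4)
open Vale.Agent.P354I (X rm rp rnd Sg)
open Vale.Agent.P354R (Del)
open Vale.Agent.P354RC (at_df)
open Vale.Agent.P354XE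
open Vale.Agent.P354YR
open Vale.Agent.P354YT (tb qm tb_d qm_pos rp_lt Del_pos qm_mul)

variable {M a r : ℝ} {p q v : R4}

/-- The angle along Lo, the chart, and its domain. -/
def Jr (M a r : ℝ) : ℝ := a / √(M ^ 2 - a ^ 2) * (Real.log (r - rp M a) - Real.log (r - rm M a))
def xt (M a : ℝ) (q : R4) : ℝ := q.1 + 2 * tb M a (rd q + q.1) - tb M a (rd q)
def xl (q : R4) : ℝ := (rd q + q.1) * (rd q)⁻¹
def xc (M a : ℝ) (q : R4) : ℝ := Jr M a (rd q + q.1) - Jr M a (rd q)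
def Xi (M a : ℝ) : R4 → R4 := pol (xt M a) xl (xc M a)
def DX (M : ℝ) : Set R4 := {q | 22 * M < rd q ∧ 22 * M < rd q + q.1}

theorem DX_open : IsOpen (DX M) :=
  (isOpen_lt continuous_const rd_cont).inter (isOpen_lt continuous_const (rd_cont.add continuous_fst))

theorem nrm_le (v : R4) : ‖v‖ ^ 2 ≤ v.1 ^ 2 + s3 v v := by
  have k := add_nonneg (add_nonneg (mul_self_nonneg v.2.1) (mul_self_nonneg v.2.2.1))
    (mul_self_nonneg v.2.2.2)
  refine (Real.le_sqrt (norm_nonneg v) (add_nonneg (sq_nonneg _) k)).1 (norm_prod_le_iff.2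
    ⟨Real.abs_le_sqrt ?_, norm_prod_le_iff.2 ⟨Real.abs_le_sqrt ?_, norm_prod_le_iff.2
      ⟨Real.abs_le_sqrt ?_, Real.abs_le_sqrt ?_⟩⟩⟩) <;>
  nlinarith [mul_self_nonneg v.2.1, mul_self_nonneg v.2.2.1, mul_self_nonneg v.2.2.2, sq_nonneg v.1]

theorem alg {q0 q1 dt ds d0 : ℝ} (h0 : q0 ∈ Icc (0 : ℝ) (1 / 10)) (h1 : q1 ∈ Icc (0 : ℝ) (1 / 10))
    (e : dt = ds + 2 * (q1 * (d0 + ds)) - q0 * d0) (k : (d0 + ds) ^ 2 ≤ 9 / 5 * dt ^ 2) :
    |dt| ≤ 2 * |ds| ∧ d0 ^ 2 ≤ 16 * ds ^ 2 := by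
  have k1 : |d0 + ds| ≤ 27 / 20 * |dt| :=
    abs_le_of_sq_le_sq (by rw [mul_pow, sq_abs]; nlinarith [sq_nonneg dt]) (by positivity)
  have k2 : |dt| ≤ 11 / 10 * |ds| + 1 / 5 * |d0 + ds| := by
    rw [show dt = (1 + q0) * ds + (2 * q1 - q0) * (d0 + ds) by rw [e]; ring]
    refine (abs_add_le _ _).trans (add_le_add ?_ ?_) <;> rw [abs_mul] <;>
      refine mul_le_mul_of_nonneg_right (abs_le.2 ⟨?_, ?_⟩) (abs_nonneg _) <;>
      linarith [h0.1, h0.2, h1.1, h1.2]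
  have k3 : |d0| ≤ |d0 + ds| + |ds| := by
    simpa using abs_sub (d0 + ds) ds
  have k4 := abs_nonneg ds
  refine ⟨by linarith, ?_⟩
  have := pow_le_pow_left₀ (abs_nonneg d0) (show |d0| ≤ 4 * |ds| by linarith) 2
  rw [mul_pow, sq_abs, sq_abs] at this
  linarith

variable (h : |a| < M)
include h

theorem big (hr : 22 * M ≤ r) : rp M a < r ∧ rm M a < r ∧ 0 < r ∧ qm M a r ∈ Icc (0 : ℝ) (1 / 10) := by
  have h0 := M_pos h
  have h1 : rp M a < r := rp_lt h (by linarith)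
  refine ⟨h1, (rm_lt h).trans h1, by linarith, (qm_pos h h1).le, ?_⟩
  rw [qm, div_le_iff₀ (Del_pos h h1), Del]
  nlinarith [sq_nonneg a]

theorem Jr_d (hr : rp M a < r) : HasDerivAt (Jr M a) (2 * a / Del M a r) r := by
  have h1 := sub_pos.2 hr
  have h2 := sub_pos.2 ((rm_lt h).trans hr)
  have b0 := b_pos h
  refine ((((hasDerivAt_id r).sub_const _).log h1.ne').sub
    (((hasDerivAt_id r).sub_const _).log h2.ne')).const_mul _ |>.congr_deriv ?_
  rw [Del_eq h]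
  simp only [id]
  field_simp
  simp only [rp, rm]; ring

theorem lg_cd (hr : rp M a < r) : ContDiffAt ℝ ∞ (tb M a) r ∧ ContDiffAt ℝ ∞ (Jr M a) r :=
  have k1 := (contDiffAt_id.sub contDiffAt_const).log (n := ∞) (sub_pos.2 hr).ne'
  have k2 := (contDiffAt_id.sub contDiffAt_const).log (n := ∞) (sub_pos.2 ((rm_lt h).trans hr)).ne'
  ⟨(k1.sub (contDiffAt_const.mul k2)).div_const _, contDiffAt_const.mul (k1.sub k2)⟩

theorem tb_bd {r' : ℝ} (hr : 22 * M ≤ r) (k : r ≤ r') :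
    tb M a r' - tb M a r ∈ Icc 0 ((r' - r) / 10) := by
  have d : ∀ x ∈ Ici (22 * M), HasDerivAt (tb M a) (qm M a x) x := fun x hx => tb_d h (big h hx).1
  have c : ContinuousOn (tb M a) (Ici (22 * M)) := fun x hx =>
    (d x hx).continuousAt.continuousWithinAt
  have e : DifferentiableOn ℝ (tb M a) (interior (Ici (22 * M))) := fun x hx =>
    (d x (interior_subset hx)).differentiableAt.differentiableWithinAt
  have k1 := (convex_Ici _).mul_sub_le_image_sub_of_le_deriv c e (C := 0) (fun x hx => by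
    rw [(d x (interior_subset hx)).deriv]; exact (big h (interior_subset hx)).2.2.2.1)
    r hr r' (hr.trans k) k
  have k2 := (convex_Ici _).image_sub_le_mul_sub_of_deriv_le c e (C := 1 / 10) (fun x hx => by
    rw [(d x (interior_subset hx)).deriv]; exact (big h (interior_subset hx)).2.2.2.2)
    r hr r' (hr.trans k) k
  exact ⟨by linarith, by linarith⟩

/-- The cone of a metric which is close to gin. -/
theorem gin_ge (hp : 22 * M ≤ rd p) (v : R4) :
    -v.1 ^ 2 + 3 / 4 * s3 v v ≤ gin M a p v v ∧ dr p v ^ 2 ≤ s3 v v := by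
  have r0 := (big h hp).2.2.1
  have h0 := M_pos h
  obtain ⟨n1, n2⟩ := P354XA.rnd_nonneg r0.ne' v
  have k1 := mul_le_mul_of_nonneg_right (P354XA.Sg_ge a p) n1
  have k2 : 0 ≤ 2 * M * rd p / Sg a (rd p) (xs p) * (kf a p v * kf a p v) :=
    mul_nonneg (div_nonneg (by positivity) ((sq_nonneg _).trans (P354XA.Sg_ge a p)))
      (mul_self_nonneg _)
  have k3 : rd p ^ 2 * rnd (xs p) (xs v) (xs v) = s3 v v - dr p v ^ 2 := by
    rw [rnd_c, dr, s3]; field_simp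
  have k4 : 64 * a ^ 2 ≤ rd p ^ 2 := by nlinarith [sq_abs a, abs_nonneg a]
  have k5 := mul_le_mul k4 n2 (sq_nonneg _) (sq_nonneg _)
  have k6 := mul_nonneg (sq_nonneg (rd p)) n1
  refine ⟨?_, by linarith⟩
  rw [gin]
  nlinarith [sq_nonneg (dr p v - 8 * (a * dq p v)), sq_nonneg (dr p v)]

theorem cone_in {g : Tw} (hp : 22 * M ≤ rd p) (c : |g p v v - gin M a p v v| ≤ 1 / 8 * ‖v‖ ^ 2)
    (hv : g p v v ≤ 0) : s3 v v ≤ 9 / 5 * v.1 ^ 2 := by
  linarith [(gin_ge h hp v).1, (abs_le.1 c).1, nrm_le v]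

theorem Lo_cd (hp : 22 * M ≤ rd p) : ContDiffAt ℝ ∞ (Lo M a) p := by
  obtain ⟨k1, -, k2, -⟩ := big h hp
  have c := s_rd contDiffAt_id (xs_ne k2)
  have d : ContDiffAt ℝ ∞ (fun p => Del M a (rd p)) p := (P354YT.Del_cd M a).contDiffAt.comp p c
  have o : ContDiffAt ℝ ∞ (Om 2) p := by
    rw [show Om 2 = _ from funext Om2]; fun_prop
  exact ((((contDiffAt_const.mul ((c.pow 2).add contDiffAt_const)).div d (Del_pos h k1).ne').sub
    contDiffAt_const).prodMk ((c.inv k2.ne').smul contDiffAt_snd)).add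
    ((contDiffAt_const.div d (Del_pos h k1).ne').smul o)

variable (hq : q ∈ DX M)
include hq

theorem xl_pos : 0 < xl q := mul_pos (big h hq.2.le).2.2.1 (inv_pos.2 (big h hq.1.le).2.2.1)

theorem Xi_rd : rd (Xi M a q) = rd q + q.1 := by
  rw [Xi, pol_rd (xl_pos h hq).le, xl, inv_mul_cancel_right₀ (big h hq.1.le).2.2.1.ne']

theorem Xi_cd : ContDiffAt ℝ ∞ (Xi M a) q := by
  have c : ContDiffAt ℝ ∞ rd q := s_rd contDiffAt_id (xs_ne (big h hq.1.le).2.2.1)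
  have c1 : ContDiffAt ℝ ∞ (fun x => rd x + x.1) q := c.add contDiffAt_fst
  have k0 := lg_cd h (big h hq.1.le).1
  have k1 := lg_cd h (big h hq.2.le).1
  have a1 := ContDiffAt.comp (g := tb M a) q k1.1 c1
  have a2 := ContDiffAt.comp (g := Jr M a) q k1.2 c1
  exact pol_cd ((contDiffAt_fst.add (contDiffAt_const.mul a1)).sub (k0.1.comp q c))
    (c1.mul (c.inv (big h hq.1.le).2.2.1.ne')) (a2.sub (k0.2.comp q c))

theorem Xi_d : ∃ τ l c : R4 →L[ℝ] ℝ, HasFDerivAt (xt M a) τ q ∧ HasFDerivAt xl l q ∧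
    HasFDerivAt (xc M a) c q ∧ ∀ v,
      τ v = v.1 + 2 * (qm M a (rd q + q.1) * (dr q v + v.1)) - qm M a (rd q) * dr q v ∧
      l v = (rd q * v.1 - q.1 * dr q v) / rd q ^ 2 ∧
      c v = 2 * a / Del M a (rd q + q.1) * (dr q v + v.1) - 2 * a / Del M a (rd q) * dr q v := by
  have r0 := (big h hq.1.le).2.2.1
  obtain ⟨L, k, e⟩ := hd_rd (xs_ne r0)
  have t := hasFDerivAt_fst (𝕜 := ℝ) (p := q)
  have k1 := k.fun_add t
  have a1 := HasDerivAt.comp_hasFDerivAt (h₂ := tb M a) q (tb_d h (big h hq.2.le).1) k1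
  have a2 := HasDerivAt.comp_hasFDerivAt (h₂ := Jr M a) q (Jr_d h (big h hq.2.le).1) k1
  refine ⟨_, _, _, (t.add (a1.const_mul 2)).sub ((tb_d h (big h hq.1.le).1).comp_hasFDerivAt q k),
    k1.mul ((hasDerivAt_inv r0.ne').comp_hasFDerivAt q k),
    a2.sub ((Jr_d h (big h hq.1.le).1).comp_hasFDerivAt q k), fun v => ⟨?_, ?_, ?_⟩⟩ <;>
    simp [e] <;> field_simp
  ring

theorem Xi_form (v : R4) : (fderiv ℝ (Xi M a) q v).1 =
    v.1 + 2 * (qm M a (rd q + q.1) * (dr q v + v.1)) - qm M a (rd q) * dr q v ∧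
    dr (Xi M a q) (fderiv ℝ (Xi M a) q v) = dr q v + v.1 := by
  obtain ⟨τ, l, c, k1, k2, k3, e⟩ := Xi_d h hq
  have r0 := (big h hq.1.le).2.2.1
  have r1 := (big h hq.2.le).2.2.1
  refine ⟨by rw [Xi, pol_fd k1 k2 k3, (e v).1], ?_⟩
  rw [dr, Xi_rd h hq, Xi, pol_dT k1 k2 k3 (xl_pos h hq) (xs_ne r0), (e v).2.1, xl, dr]
  field_simp
  ring

theorem Xi_eT : fderiv ℝ (Xi M a) q eT = Lo M a (Xi M a q) := by
  obtain ⟨τ, l, c, k1, k2, k3, e⟩ := Xi_d h hq
  have r0 := (big h hq.1.le).2.2.1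
  have r1 := (big h hq.2.le).2.2.1
  have d0 := (Del_pos h (big h hq.2.le).1).ne'
  have z : dr q eT = 0 := by simp [dr, dT_c, eT]
  obtain ⟨e1, e2, e3⟩ := e eT
  rw [Lo, Xi_rd h hq, Xi, pol_fd k1 k2 k3, e1, e2, e3, z, ← qm_mul d0, Om2, pol_c]
  simp only [eT, xl, Prod.mk_add_mk, Prod.smul_mk, smul_eq_mul, Prod.fst_zero, Prod.snd_zero,
    Prod.mk.injEq]
  refine ⟨?_, ?_, ?_, ?_⟩ <;> field_simp <;> ring

theorem Xi_inj : Function.Injective (fderiv ℝ (Xi M a) q) := by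
  refine (injective_iff_map_eq_zero _).2 fun v hv => ?_
  obtain ⟨τ, l, c, k1, k2, k3, e⟩ := Xi_d h hq
  obtain ⟨f1, f2⟩ := Xi_form h hq v
  rw [hv] at f1 f2
  rw [(lin_dr _).map_zero] at f2
  rw [← f2, eq_neg_of_add_eq_zero_left f2.symm] at f1
  have v0 : v.1 = 0 := by
    have := (big h hq.1.le).2.2.2.1
    refine (mul_eq_zero.1 (show (1 + qm M a (rd q)) * v.1 = 0 from ?_)).resolve_left (by positivity)
    simp only [Prod.fst_zero] at f1
    linarith
  rw [v0, add_zero] at f2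
  obtain ⟨-, e2, e3⟩ := e v
  rw [Xi, pol_fd k1 k2 k3, e2, e3, v0, ← f2] at hv
  simp only [Prod.mk_eq_zero, mul_zero, sub_zero, zero_div, zero_mul, zero_add, add_zero,
    mul_eq_zero, (xl_pos h hq).ne', false_or] at hv
  obtain ⟨-, a1, a2, a3⟩ := hv
  have t := Real.cos_sq_add_sin_sq (xc M a q)
  refine Prod.ext v0 (Prod.ext ?_ (Prod.ext ?_ a3))
  · show v.2.1 = 0
    linear_combination Real.cos (xc M a q) * a1 + Real.sin (xc M a q) * a2 - v.2.1 * t
  · show v.2.2.1 = 0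
    linear_combination Real.cos (xc M a q) * a2 - Real.sin (xc M a q) * a1 - v.2.2.1 * t

theorem Xi_cone {g : Tw}
    (c : ∀ v, |g (Xi M a q) v v - gin M a (Xi M a q) v v| ≤ 1 / 8 * ‖v‖ ^ 2)
    (hv : pb (Xi M a) g q v v ≤ 0) : s3 q v ^ 2 ≤ 16 * s3 q q * v.1 ^ 2 ∧ (v.1 = 0 → v = 0) := by
  have hp : 22 * M ≤ rd (Xi M a q) := Xi_rd h hq ▸ hq.2.le
  have r0 := (big h hq.1.le).2.2.1
  have k1 := cone_in h hp (c _) hv
  obtain ⟨f1, f2⟩ := Xi_form h hq v
  obtain ⟨k2, k3⟩ := alg (big h hq.1.le).2.2.2 (big h hq.2.le).2.2.2 f1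
    (f2 ▸ (gin_ge h hp _).2.trans k1)
  refine ⟨?_, fun v0 => Xi_inj h hq ?_⟩
  · have e1 : s3 q v = rd q * dr q v := by rw [dr, dT_c, s3]; field_simp
    have e2 : s3 q q = rd q ^ 2 := by rw [rd_sq, s3]; ring
    rw [e1, e2, mul_pow]
    nlinarith [sq_nonneg (rd q)]
  · rw [v0, abs_zero, mul_zero, abs_nonpos_iff] at k2
    have := nrm_le (fderiv ℝ (Xi M a) q v)
    rw [k2] at k1 this
    rw [map_zero, ← norm_eq_zero, ← pow_eq_zero_iff two_ne_zero]
    exact le_antisymm (by linarith) (sq_nonneg _)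

omit hq

/-- The points over the slice are in the image. -/
theorem Xi_surj {σ : ℝ} (e : p.1 - tb M a (rd p) = σ) (h0 : 0 ≤ σ) (hp : 22 * M < rd p - σ) :
    ∃ q ∈ DX M, Xi M a q = p ∧ q.1 ∈ Icc 0 σ ∧ rd q = rd p - q.1 := by
  have c : ContinuousOn (fun s => s + tb M a (rd p) - tb M a (rd p - s)) (Icc 0 σ) := fun s hs =>
    ((continuousAt_id.add continuousAt_const).sub (ContinuousAt.comp (f := fun s => rd p - s)
      (tb_d h (big h (by linarith [hs.2])).1).continuousAt (by fun_prop))).continuousWithinAt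
  obtain ⟨s, hs, e1⟩ := intermediate_value_Icc h0 c (show σ ∈ _ from ⟨by simpa using h0, by
    linarith [(tb_bd h hp.le (sub_le_self _ h0)).1]⟩)
  have r1 : 22 * M < rd p - s := by linarith [hs.2]
  have r2 := (big h r1.le).2.2.1
  have r3 : 0 < rd p := by linarith [hs.1]
  obtain ⟨q, hq⟩ : ∃ q, q = pt s (((rd p - s) / rd p) •
    rz (-(Jr M a (rd p) - Jr M a (rd p - s))) (xs p)) := ⟨_, rfl⟩
  have q1 : q.1 = s := by rw [hq]; rfl
  have q2 : rd q = rd p - s := by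
    rw [hq, rd, xs_pt, norm_smul, rz_norm, Real.norm_of_nonneg (div_pos r2 r3).le, ← rd,
      div_mul_cancel₀ _ r3.ne']
  refine ⟨q, ⟨q2 ▸ r1, by rw [q1, q2]; linarith [hs.1]⟩, ?_, q1 ▸ hs, by rw [q1, q2]⟩
  rw [Xi, pol, xt, xl, xc, q1, q2, sub_add_cancel, hq, xs_pt, rz_smul, rz_rz, add_neg_cancel,
    rz_zero, smul_smul, show rd p * (rd p - s)⁻¹ * ((rd p - s) / rd p) = 1 by field_simp, one_smul,
    show s + 2 * tb M a (rd p) - tb M a (rd p - s) = p.1 by simp only at e1; linarith, pt_xs]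

/-! ### The slice in the Kruskal chart -/

theorem lg_mf (hr : rp M a < r) :
    ka M a * tb M a r = Real.log (r - rp M a) / 2 - Real.log (mf M a r) := by
  have := (ka_pos h).ne'
  have := (rp_pos h).ne'
  rw [mf, Real.log_rpow (sub_pos.2 ((rm_lt h).trans hr)), tb]
  field_simp

theorem kap_sl (hp : rp M a < rd p) (e : p.1 = tb M a (rd p)) : (kap M a p).1 = 0 := by
  have d : p ∈ DI M a := (rm_lt h).trans hp
  have v0 := pV_pos d
  have k : pV M a p ^ 2 = rd p - rp M a := by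
    refine Real.log_injOn_pos (pow_pos v0 2) (sub_pos.2 hp) ?_
    rw [Real.log_pow, pV, Real.log_mul (mf_pos d).ne' (Real.exp_pos _).ne', Real.log_exp, e,
      lg_mf h hp]
    push_cast; ring
  show (pU M a p + pV M a p) / 2 = 0
  rw [pU, ← k]
  field_simp
  ring

theorem kin_sl (hp : p ∈ DE M a true) (e : p.1 = 0) : (kin M a p).1 = tb M a (rd (kin M a p)) := by
  have v0 : 0 < kV M a p := hp.2
  have k : kr M a p - rp M a = kV M a p ^ 2 := by rw [kr, kV, e]; ring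
  have r1 : rp M a < kr M a p := sub_pos.1 (k ▸ pow_pos v0 2)
  refine mul_left_cancel₀ (ka_pos h).ne' ?_
  rw [kin_rd h hp.1, lg_mf h r1, k, Real.log_pow, show (kin M a p).1 = kt M a p from rfl, kt,
    mul_div_cancel₀ _ (ka_pos h).ne', Real.log_div v0.ne' (mf_pos hp.1.2).ne']
  push_cast; ring

end Vale.Agent.P354LC
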