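import Vale.Agent.P354LC.En
import Vale.Agent.P354HL.Local

/-!
A priori estimates and the estimate for the difference of two solutions.
-/

set_option maxSynthPendingDepth 3
set_option backward.isDefEq.respectTransparency false

open scoped ContDiff
open MeasureTheory Set Filter Topology

namespace Vale.Agent.P354LC

open Vale.Agent.P354H

theorem ex_sign (t : ℝ) : ∃ σ : ℝ, |σ| = 1 ∧ σ * |t| = t := by
  rcases le_total 0 t with h | h
  · exact ⟨1, abs_one, by rw [abs_of_nonneg h, one_mul]⟩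
  · exact ⟨-1, by simp, by rw [abs_of_nonpos h]; ring⟩

section
variable {e e' : ℝ → ℝ} {δ : ℝ}

theorem der_sign (hd : ∀ t, HasDerivAt e (e' t) t) (σ s : ℝ) :
    HasDerivAt (fun s => e (σ * s)) (e' (σ * s) * σ) s := by
  have := (hd (σ * s)).comp s ((hasDerivAt_id s).const_mul σ)
  rw [mul_one] at this
  exact this

theorem gron {Λ : ℝ} (hd : ∀ t, HasDerivAt e (e' t) t) (h0 : ∀ t, 0 ≤ e t) (hδ : δ ≤ 1)
    (hb : ∀ t, |t| ≤ δ → |e' t| ≤ Λ * e t) {t : ℝ} (ht : |t| ≤ δ) :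
    e t ≤ e 0 * Real.exp |Λ| := by
  obtain ⟨σ, h1, h2⟩ := ex_sign t
  have a := norm_le_gronwallBound_of_norm_deriv_right_le (K := |Λ|) (ε := 0) (a := 0) (b := |t|)
    (δ := e 0) (fun s _ => (der_sign hd σ s).continuousAt.continuousWithinAt)
    (fun s _ => (der_sign hd σ s).hasDerivWithinAt) (by simp [abs_of_nonneg (h0 0)])
    (fun s hs => by
      rw [Real.norm_eq_abs, abs_mul, h1, mul_one, add_zero, Real.norm_of_nonneg (h0 _)]
      refine (hb _ ?_).trans (mul_le_mul_of_nonneg_right (le_abs_self _) (h0 _))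
      rw [abs_mul, h1, one_mul, abs_of_nonneg hs.1]
      exact hs.2.le.trans ht) |t| ⟨abs_nonneg _, le_rfl⟩
  rw [h2, gronwallBound_ε0, Real.norm_of_nonneg (h0 _), sub_zero] at a
  refine a.trans (mul_le_mul_of_nonneg_left (Real.exp_le_exp.2 ?_) (h0 0))
  exact mul_le_of_le_one_right (abs_nonneg _) (ht.trans hδ)

theorem barr {m L : ℝ} (hd : ∀ t, HasDerivAt e (e' t) t) (hL : 0 ≤ L) (h0 : e 0 ≤ m)
    (hδ : (L + 1) * δ ≤ 1) (hb : ∀ t, |t| ≤ δ → e t ≤ m + 1 → |e' t| ≤ L) {t : ℝ}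
    (ht : |t| ≤ δ) : e t ≤ m + 1 := by
  obtain ⟨σ, h1, h2⟩ := ex_sign t
  have k : ∀ s, s ≤ |t| → m + (L + 1) * s ≤ m + 1 := fun s hs => by
    have := mul_le_mul_of_nonneg_left (hs.trans ht) (show 0 ≤ L + 1 by linarith)
    linarith
  have a := image_le_of_deriv_right_lt_deriv_boundary (a := 0) (b := |t|)
    (fun s _ => (der_sign hd σ s).continuousAt.continuousWithinAt)
    (fun s _ => (der_sign hd σ s).hasDerivWithinAt) (B := fun s => m + (L + 1) * s)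
    (B' := fun _ => L + 1) (by simpa using h0)
    (fun s => by simpa using ((hasDerivAt_id s).const_mul (L + 1)).const_add m)
    (fun s hs he => by
      have b := hb (σ * s) (by
        rw [abs_mul, h1, one_mul, abs_of_nonneg hs.1]
        exact hs.2.le.trans ht) (he.le.trans (k s hs.2.le))
      have c := le_abs_self (e' (σ * s) * σ)
      rw [abs_mul, h1, mul_one] at c
      linarith) (x := |t|) ⟨abs_nonneg _, le_rfl⟩
  rw [h2] at a
  exact a.trans (k _ le_rfl)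

end

variable {V : Type} [NormedAddCommGroup V] [InnerProductSpace ℝ V]

/-- A smooth solution with compact support on the slab. -/
structure Sl (S : Sys V) (δ : ℝ) (W : ℝ × X3 → V) : Prop where
  ok : S.OK
  sm : ContDiff ℝ ∞ W
  cs : HasCompactSupport W
  eq : ∀ p : ℝ × X3, |p.1| ≤ δ → S.Holds W p

theorem Sl.good {S : Sys V} {δ : ℝ} {W : ℝ × X3 → V} (h : Sl S δ W) (t : ℝ) : Good (sl W t) :=
  P354HG.good_sl h.sm h.cs t

theorem Sl.mono {S : Sys V} {δ δ' : ℝ} {W : ℝ × X3 → V} (h : Sl S δ W) (h' : δ' ≤ δ) :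
    Sl S δ' W := ⟨h.ok, h.sm, h.cs, fun p hp => h.eq p (hp.trans h')⟩

theorem apr_lin {k p : ℕ} (hp : p ≤ k) (hk : k ≤ 2 * p + 1) (c s : ℝ) : ∃ Γ, 0 ≤ Γ ∧
    ∀ (S : Sys V) W δ r, δ ≤ 1 → Sl S δ W →
      (∀ t, |t| ≤ δ → BdK S t (k + 1) c ∧ Sb (p + 1) (sl W t) s) → Nk (k + 1) (sl W 0) r →
      ∀ t, |t| ≤ δ → Nk (k + 1) (sl W t) (Γ * r) := by
  refine ⟨√(4 ^ (k + 1) * Real.exp |2 * 4 ^ (k + 1) * LL (k + 1) c s|), Real.sqrt_nonneg _,
    fun S W δ r hδ h hb hr t ht => (II_nk _ _).mono le_rfl ?_⟩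
  have a := gron (II_deriv (k + 1) h.sm h.cs) (fun t => II_nonneg _ _) hδ (fun t ht =>
    II_ineq h.ok (hb t ht).1 h.sm h.cs hp hk (fun x => h.eq (t, x) ht) (hb t ht).2) ht
  have b := mul_le_mul_of_nonneg_right (II_le' hr)
    (Real.exp_pos |2 * 4 ^ (k + 1) * LL (k + 1) c s|).le
  rw [← Real.sqrt_sq hr.nonneg, ← Real.sqrt_mul (by positivity)]
  exact Real.sqrt_le_sqrt ((a.trans b).trans (le_of_eq (by ring)))

theorem apr0 (c r : ℝ) : ∃ δ0, 0 < δ0 ∧ δ0 ≤ 1 ∧ ∃ r', ∀ (S : Sys V) W δ, δ ≤ δ0 → Sl S δ W →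
    (∀ t, |t| ≤ δ → BdK S t 8 c) → Nk 8 (sl W 0) r → ∀ t, |t| ≤ δ → Nk 8 (sl W t) r' := by
  obtain ⟨m, hm⟩ : ∃ m : ℝ, m = 4 ^ 8 * r ^ 2 := ⟨_, rfl⟩
  obtain ⟨Λ, hΛ⟩ : ∃ Λ : ℝ, Λ = 2 * 4 ^ (7 + 1) * LL (7 + 1) c (3 * √(m + 1)) := ⟨_, rfl⟩
  have m0 : 0 ≤ m := by rw [hm]; positivity
  have L0 : 0 ≤ |Λ| * (m + 1) := by positivity
  refine ⟨(|Λ| * (m + 1) + 1)⁻¹, by positivity, inv_le_one_of_one_le₀ (by linarith), √(m + 1),
    fun S W δ hδ h hb hr t ht => (II_nk _ _).mono le_rfl (Real.sqrt_le_sqrt ?_)⟩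
  refine barr (L := |Λ| * (m + 1)) (δ := δ) (II_deriv 8 h.sm h.cs) L0 (hm ▸ II_le' hr) ?_
    (fun t ht he => ?_) ht
  · exact (mul_le_mul_of_nonneg_left hδ (by linarith)).trans
      (mul_inv_cancel₀ (by positivity)).le
  · have a : Sb (3 + 1) (sl W t) (3 * √(m + 1)) :=
      Nk.sb ((II_nk 8 _).mono (by norm_num) (Real.sqrt_le_sqrt he)) (h.good t)
    refine (II_ineq (k := 7) h.ok (hb t ht) h.sm h.cs (by norm_num) (by norm_num)
      (fun x => h.eq (t, x) ht) a).trans ?_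
    rw [← hΛ]
    exact mul_le_mul (le_abs_self _) he (II_nonneg _ _) (abs_nonneg _)

theorem aprk (C : ℕ → ℝ) (r0 r : ℝ) (m : ℕ) : ∃ c, ∀ (S : Sys V) W δ, δ ≤ 1 → Sl S δ W →
    (∀ k t, |t| ≤ δ → BdK S t k (C k)) → (∀ t, |t| ≤ δ → Nk 8 (sl W t) r0) →
    Nk (m + 8) (sl W 0) r → ∀ t, |t| ≤ δ → Nk (m + 8) (sl W t) c := by
  induction m with
  | zero => exact ⟨r0, fun S W δ _ _ _ h _ => h⟩
  | succ m ih =>
    obtain ⟨c, hc⟩ := ih
    obtain ⟨Γ, -, hΓ⟩ := apr_lin (V := V) (k := m + 8) (p := m + 4) (by omega) (by omega)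
      (C (m + 8 + 1)) (3 * c)
    refine ⟨Γ * r, fun S W δ hδ h hb h0 hr t ht => (hΓ S W δ r hδ h (fun t ht => ⟨hb _ t ht, ?_⟩)
      (hr.low (by omega)) t ht).low (by omega)⟩
    exact Nk.sb ((hc S W δ hδ h hb h0 (hr.low (by omega)) t ht).low (by omega)) (h.good t)

/-- Exchange of the two arguments. -/
noncomputable def fl : (V →L[ℝ] V →L[ℝ] V) →L[ℝ] V →L[ℝ] V →L[ℝ] V :=
  (ContinuousLinearMap.flipₗᵢ ℝ V V V).toLinearIsometry.toContinuousLinearMap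

theorem fl_ap (A : V →L[ℝ] V →L[ℝ] V) (v w : V) : fl A v w = A w v := rfl

/-- The linear system for the difference of two solutions. -/
noncomputable def dS (S : Sys V) (W W' : ℝ × X3 → V) : Sys V where
  a j p := S.a j p + S.l j p (W p)
  l _ _ := 0
  b p := fl (S.l 0 p) (dx 0 W' p) + fl (S.l 1 p) (dx 1 W' p) + fl (S.l 2 p) (dx 2 W' p) + S.b p +
    S.q p (W p) + fl (S.q p) (W' p)
  q _ := 0

theorem Sl.dS {S : Sys V} {δ : ℝ} {W W' : ℝ × X3 → V} (h : Sl S δ W) (h' : Sl S δ W') :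
    Sl (dS S W W') δ (fun p => W p - W' p) := by
  have s := h.ok.sm
  have l := fun j => ((fl (V := V)).contDiff.comp (s.l j)).clm_apply (P354HL.dx_sm h'.sm j)
  refine ⟨⟨⟨fun j => (s.a j).add ((s.l j).clm_apply h.sm), fun _ => contDiff_const,
    (((((l 0).add (l 1)).add (l 2)).add s.b).add (s.q.clm_apply h.sm)).add
      (((fl (V := V)).contDiff.comp s.q).clm_apply h'.sm), contDiff_const⟩,
    fun j p => P354HL.sym_A h.ok j p (W p), fun j p w u v => by simp [P354LC.dS]⟩,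
    h.sm.sub h'.sm, h.cs.sub h'.cs, fun p hp => ?_⟩
  have a := P354HG.diff_eq (h.sm.differentiable (by simp) p) (h'.sm.differentiable (by simp) p)
    (h.eq p hp) (h'.eq p hp)
  rw [sub_eq_iff_eq_add'] at a
  rw [Sys.Holds, a]
  simp only [Sys.A, Sys.F, P354LC.dS, Fin.sum_univ_three, add_apply, fl_ap, zero_apply, add_zero]

theorem sb_zero' {F : Type} [NormedAddCommGroup F] [NormedSpace ℝ F] (k : ℕ) {c : ℝ}
    (hc : 0 ≤ c) : Sb k (0 : X3 → F) c := fun α _ x => by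
  rw [pdl_zero]
  simpa using hc

theorem dS_bd (k : ℕ) (c s : ℝ) : ∃ c', ∀ (S : Sys V) (W W' : ℝ × X3 → V) t, S.Sm →
    ContDiff ℝ ∞ W → ContDiff ℝ ∞ W' → BdK S t k c → Sb (k + 1) (sl W t) s →
    Sb (k + 1) (sl W' t) s → BdK (dS S W W') t k c' := by
  refine ⟨c + 2 ^ k * (c * s) + 4 * (2 ^ k * (‖fl (V := V)‖ * c * s)),
    fun S W W' t hS hW hW' hb h1 h2 => ?_⟩
  have c0 := hb.2.1.nonneg
  have s0 := h1.nonneg
  have p0 : 0 ≤ 2 ^ k * (‖fl (V := V)‖ * c * s) := by positivity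
  have p1 : 0 ≤ 2 ^ k * (c * s) := by positivity
  have w := sl_sm hW t
  have w' := sl_sm hW' t
  have sl' := fun j => (fl (V := V)).contDiff.comp (sl_sm (hS.l j) t)
  have sq' := (fl (V := V)).contDiff.comp (sl_sm hS.q t)
  have l := fun j => ((hb.1 j).2.clm (sl_sm (hS.l j) t) (fl (V := V))).ap (h2.pd j) (sl' j) (pd_sm j w')
  have m := fun j => ap_sm (sl' j) (pd_sm j w')
  have m3 := ((m 0).add (m 1)).add (m 2)
  have m4 := m3.add (sl_sm hS.b t)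
  have mq := ap_sm (sl_sm hS.q t) w
  refine ⟨fun j => ⟨(((hb.1 j).1.add ((hb.1 j).2.ap (h1.low k.le_succ) (sl_sm (hS.l j) t) w)
    (sl_sm (hS.a j) t) (ap_sm (sl_sm (hS.l j) t) w))).mono le_rfl (by linarith),
    sb_zero' k (by linarith)⟩, ?_, sb_zero' k (by linarith)⟩
  have r := (((((l 0).add (l 1) (m 0) (m 1)).add (l 2) ((m 0).add (m 1)) (m 2)).add hb.2.1 m3
    (sl_sm hS.b t)).add (hb.2.2.ap (h1.low k.le_succ) (sl_sm hS.q t) w) m4 mq).add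
    ((hb.2.2.clm (sl_sm hS.q t) (fl (V := V))).ap (h2.low k.le_succ) sq' w') (m4.add mq) (ap_sm sq' w')
  simp only [P354HL.pd_sl hW'] at r
  exact r.mono le_rfl (by linarith)

/-- The difference of two solutions. -/
theorem apr_dif (k : ℕ) (c s : ℝ) : ∃ Γ, 0 ≤ Γ ∧ ∀ (S : Sys V) W W' δ r, δ ≤ 1 → Sl S δ W →
    Sl S δ W' → (∀ t, |t| ≤ δ → BdK S t (k + 1) c ∧ Sb (k + 2) (sl W t) s ∧
      Sb (k + 2) (sl W' t) s) → Nk (k + 1) (sl W 0 - sl W' 0) r →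
    ∀ t, |t| ≤ δ → Nk (k + 1) (sl W t - sl W' t) (Γ * r) := by
  obtain ⟨c', hc'⟩ := dS_bd (V := V) (k + 1) c s
  obtain ⟨Γ, h0, hΓ⟩ := apr_lin (V := V) (k := k) (p := k) le_rfl (by omega) c' (s + s)
  refine ⟨Γ, h0, fun S W W' δ r hδ h h' hb hr t ht =>
    hΓ _ _ δ r hδ (h.dS h') (fun t ht => ?_) hr t ht⟩
  obtain ⟨b1, b2, b3⟩ := hb t ht
  refine ⟨hc' S W W' t h.ok.sm h.sm h'.sm b1 b2 b3, ?_⟩
  have := (b2.add b3.neg (h.good t).1 (h'.good t).1.neg).low (k + 1).le_succ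
  rwa [← sub_eq_add_neg] at this

end Vale.Agent.P354LC
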