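import Vale.Agent.P354LC.Pk
import Vale.Agent.P354MG.Key

/-! The assembly of CHART. -/

set_option linter.all false

open scoped ContDiff
open Set Filter Topology

noncomputable section

namespace Vale.Agent.P354LC

open Vale.Agent.P354n (R4)
open Vale.Agent.P354XG Vale.Agent.P354XD Vale.Agent.P354XR Vale.Agent.P354XI Vale.Agent.P354Z
open Vale.Agent.P354XE (Tw rd gin)
open Vale.Agent.P354XO (dn4)
open Vale.Agent.P354YI (Jb)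
open Vale.Agent.P354YO (sh IsTh)
open Vale.Agent.P354CQ (w0)
open Vale.Agent.P354MG

/-- The windows in terms of the bounds of the state. -/
def Wo (f : Fx) (v : Va) (q : Qn) (E : Est) (k : ℕ) (C e0 : ℝ) : Prop :=
  ∀ ρ ≥ f.z.R1 + 3, ∀ x ∈ f.X1 v q, (f.ac v q x).2.1 ≤ ρ → ∀ A Q,
    E.Past (f.c q) (E.eta k) ρ (f.ac v q x).1 A → E.Tail (f.c q) (f.ac v q x).1 Q →
    x.2.1 ≤ ρ + 1 / 4 ∧ Wn f v q.c.Rs k e0 (ρ + 1 / 4) x.1 (C * (A + Q))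

/-- The fields n1 and n2. -/
def N12 (c : Cs) (E : Est) : Prop :=
  (∀ ρ, c.R1 + 3 ≤ ρ → ∀ x ∈ E.O1, An x → x.2.1 ≤ ρ → ∀ A Q, E.Past c (E.eta c.L0) ρ x.1 A →
    E.Tail c x.1 Q → ∀ i, q2 (lt (hp _) (E.p1 c)) x c.N0 (E.d1 c i) ≤ (c.C ρ * (A + Q)) ^ 2) ∧
  ∀ ρ, c.R1 + 3 ≤ ρ → ∀ x ∈ E.O1, An x → x.2.1 ≤ ρ → Est.Fa c x → ∀ A Q,
    E.Past c (E.eta c.L0) ρ x.1 A → E.Tail c x.1 Q →
    ∀ i, q2 (lt (hp _) (E.p2 c)) x c.N0 (E.d2 c i) ≤ (c.C ρ * (A + Q)) ^ 2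

/-- The values of the data of the frame, and the metric at the order m. -/
def D1 (f : Fx) (v : Va) (q : Qn) (ε : ℝ) : Prop := ∀ y ∈ f.O1 v q, An y → ∀ i,
  ‖fv (dat (hp _) (pI _ f.z.M v.M v.a) ((fE _ (f.gE v q) f.z.M v.M v.a).ghp (ge _ (f.gE v q))) i -
    dat (hp _) (pI _ f.z.M v.M v.a) (kI (f.O1 v q) f.z.M v.M v.a).kerr i) y‖ ≤ ε
def Bm (f : Fx) (v : Va) (q : Qn) (m : ℕ) (ε : ℝ) : Prop := ∀ x ∈ f.X1 v q,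
  P354XE.Bd m (f.gE v q - kE v.M v.a v.A v.B) (pj (f.ac v q x)) ε

/-- The rows ETA and SGN with these hypotheses. -/
def ETA1 : Prop := ∀ f : Fx, f.Ok → ∃ Λ ≥ (1 : ℝ), ∃ m, ∀ Rs, ∃ e > 0, ∀ v q Rb F e0, q.c.Rs = Rs →
  Ge f v q Rb → Cz f v q e → D1 f v q e → Bm f v q m e → Et f v q (f.E v q F e0) Λ
def SGN1 : Prop := ∀ f : Fx, f.Ok → ∀ Rs, ∃ e > 0, ∀ v q Rb F e0 (E : Est), q.c.Rs = Rs →
  Ge f v q Rb → Cz f v q e → D1 f v q e → E = f.E v q F e0 → ∀ x ∈ E.O1,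
    0 ≤ rv (E.G1.th E.sig) x ∧ 0 ≤ rv (E.G1.tp E.sig) x ∧
    ‖fv (E.G1.et E.sig) x‖ ^ 2 ≤ rv (E.G1.th E.sig) x * rv (E.G1.tp E.sig) x

/-- KEY: the state is close to Kerr. -/
def KEY : Prop := ∀ f : Fx, f.Ok → ∀ F : ∀ O : Set E6, Tw → ℝ → ℝ → Fr (Sm (on O)),
  (∀ O g M a, P354F2.Pre f.z.M (f.z.R1 + 3) O g → P354F2.Gau O g (F O g M a) f.z.M M a) →
  P354F2.Ntwo f.z.M f.z.a (f.z.R1 + 3) F → ∀ N0 m, ∃ n, ∀ (k : ℕ) (C : ℝ → ℝ) (Cw : ℝ), Monotone C →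
  (∀ ρ, 1 ≤ C ρ) → 1 ≤ Cw → ∃ Cb : ℝ → ℝ, (∀ ρ, 1 ≤ Cb ρ) ∧ Cw ≤ Cb f.z.R1 ∧ ∀ Rs, ∀ ε > 0,
    ∃ Cm ≥ (0 : ℝ), ∃ e > 0, ∀ v q Rb E e0 e0', q.b.N0 = N0 → q.b.C = Cb → q.b.L0 = k →
      q.c.Rs = Rs → Ge f v q Rb → Zo f v Rs Rb k n C E e0 → IsTh f.z.M v.M v.a v.A v.B →
      |v.M - f.z.M| + |v.a - f.z.a| ≤ E → E ≤ e → (∀ u, Wn f v Rs k e0 Rs u E) →
      (∀ x ∈ f.X1 v q, P354XE.Bd 2 (v.g - gin f.z.M f.z.a) (f.S (pj x)) E) → q.k ≤ ε →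
      (Cz f v q ε ∧ D1 f v q ε ∧ Bm f v q m ε) ∧ (f.E v q F e0').Eqs (f.c q) ∧
      (∀ x ∈ f.X1 v q, Jb 1 (fderiv ℝ (dn4 (f.ch v q))) (f.S (pj x)) Cm ∧ (x.1 < f.ti → ∀ μ ≤ E,
        Wn f v Rs k e0 Rs x.1 μ →
        Jb N0 (fun y => sh f.A f.B (dn4 (f.ch v q) y) - y) (f.S (pj x)) (Cm * μ))) ∧
      (Wo f v q (f.E v q F e0') k Cw e0 → N12 (f.c q) (f.E v q F e0'))

theorem small {a b : ℝ} (ha : 0 ≤ a) (hb : 0 < b) : ∀ᶠ e in 𝓝[>] (0 : ℝ), a * e ≤ b :=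
  nhdsWithin_le_nhds ((show ContinuousAt (fun e : ℝ => a * e) 0 by fun_prop).eventually_le_const
    (by simpa using hb))

theorem arith {Cd C1 C0 c E1 e1 e dd b eL qe : ℝ} (Cd1 : 1 ≤ Cd) (C11 : 1 ≤ C1) (C01 : 1 ≤ C0)
    (p2 : 0 ≤ c) (he1 : e1 ∈ Ioc 0 E1) (he : e ∈ Ioc 0 E1) (hdd : dd ∈ Ioc 0 e)
    (l1 : Cd * C1 * 2 * E1 ≤ b) (l2 : c * (Cd * C1 * 2) * E1 ≤ eL)
    (l3 : C0 * (c * (Cd * C1 * 2)) * E1 ≤ qe) : ∃ E, 0 ≤ E ∧ E ≤ b ∧ C1 * (e1 + e) ≤ E ∧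
      C1 * dd ≤ C1 * e ∧ C1 * e ≤ E ∧ Cd * (C1 * e) ≤ E ∧ e1 + e ≤ E ∧ c * E ≤ eL ∧
      C0 * (c * E) ≤ qe ∧ 0 ≤ C1 * dd ∧ dd ≤ E := by
  obtain ⟨E, hE, E2⟩ : ∃ E, E = Cd * (C1 * (e1 + e)) ∧ E ≤ Cd * C1 * 2 * E1 :=
    ⟨_, rfl, by nlinarith [he1.2, he.2, mul_pos (one_pos.trans_le Cd1) (one_pos.trans_le C11)]⟩
  have e0 := he.1
  have e10 := he1.1
  have d0 := hdd.1
  have u1 : C1 * (e1 + e) ≤ E := hE ▸ le_mul_of_one_le_left (by positivity) Cd1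
  have u3 : C1 * e ≤ C1 * (e1 + e) := by gcongr; linarith
  have u5 : e1 + e ≤ C1 * (e1 + e) := le_mul_of_one_le_left (by positivity) C11
  have u6 : c * E ≤ c * (Cd * C1 * 2 * E1) := by gcongr
  have u7 : C0 * (c * E) ≤ C0 * (c * (Cd * C1 * 2 * E1)) := by gcongr
  exact ⟨E, by linarith, E2.trans l1, u1, by gcongr; exact hdd.2, u3.trans u1,
    by rw [hE]; gcongr, u5.trans u1, by linarith, by linarith, by positivity,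
    by linarith [hdd.2]⟩

theorem rd_x1 {f : Fx} {v : Va} {q : Qn} {Rb : ℝ} {x : E6} (G : Ge f v q Rb) (hx : x ∈ f.X1 v q) :
    rd (f.S (pj x)) ≤ q.c.Rs := by
  rw [Fx.S, st4, P354YO.rd_sh, rd_pj (by
    linarith [G.su.num.1, G.su.num.2.1, show (f.n q).r1 < x.2.1 from hx.1.1.1.1]) hx.2]
  exact hx.1.2.le

theorem tail_nn {c : Cs} {E : Est} {t Q : ℝ} (h : E.Tail c t Q) : 0 ≤ Q := by
  obtain ⟨s, -, s1, -⟩ := h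
  simpa using s1 0

theorem chart_of (hk : KEY) (zon : ZON) (lbd : LBD) (geo : GEO) (eta : ETA1) (sgn : SGN1)
    (wnd : WND) (wne : WNE) (layh : LAYH) (tri : TRI) (hyb : HYB) (two : P354F2.FTWO) : CHART Lk := by
  intro M a r1 θ θ1 del
  obtain ⟨Rm, hR⟩ := P354NU.num M a r1 θ θ1 del
  refine ⟨Rm, fun R1 h1 κ0 ok => ?_⟩
  obtain ⟨a0, A, B, H, k0, t0, ti, tw, cH, us, nu⟩ := hR R1 h1 κ0 ok
  generalize (⟨M, a, r1, θ, θ1, del, R1, κ0⟩ : Z1) = z at ok nu ⊢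
  obtain ⟨f, rfl, rfl, o⟩ : ∃ f : Fx, f.z = z ∧ f.a = a0 ∧ f.Ok :=
    ⟨⟨z, a0, A, B, H, k0, t0, ti, tw, cH, us⟩, rfl, rfl, ok, nu⟩
  clear nu hR h1
  obtain ⟨F, gau, ntwo, lay⟩ := two f.z.M f.z.a (f.z.R1 + 3)
    (ok.ok _ le_rfl _ le_rfl).1.1.sub (by linarith [o.nu.r1.2.2.2.2])
  obtain ⟨Λ, -, mE, hΛ⟩ := eta f o
  obtain ⟨C0, C01, eL, eL0, hL⟩ := lbd f o
  refine ⟨f.a, fun N0 => ?_⟩
  obtain ⟨n, hn⟩ := hk f o F gau ntwo N0 mE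
  obtain ⟨n', hz⟩ := zon f o n
  obtain ⟨k, k2, c0, c00, C, mC, hy⟩ := hyb f o n'
  obtain ⟨C', mC', C1', hz⟩ := hz k C mC
  obtain ⟨c1, c11, Cw, Cw1, hw⟩ := wne f o c0 c00 k Λ (C f.z.R1) (C' f.z.R1)
  obtain ⟨Cd, Cd1, eD, eD0, hd⟩ := wnd f o c0 c00 C mC
  obtain ⟨Cb, Cb1, Cbw, hn⟩ := hn k C' Cw mC' C1' Cw1
  obtain ⟨Lz, Rc, hq⟩ := q_ex o ⟨N0, k, c1, Cb⟩ c11 Cb1
  refine ⟨⟨N0, k, c1, Cb⟩, rfl, k, k2, k, Rc, fun L hL' c hc hs κ κ1 => ?_⟩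
  obtain ⟨s4, -, hq⟩ := hq c hc hs
  obtain ⟨mY, BY, eY, eY0, hY⟩ := lay_of layh o lay c.K
  obtain ⟨κw, κw0, hw⟩ := hw Lz c.Rs
  obtain ⟨eE, eE0, hE⟩ := hΛ c.Rs
  obtain ⟨eS, eS0, hS⟩ := sgn f o c.Rs
  obtain ⟨q, qb, rfl, qL, qB, qk, qe0, qe, nm, kk⟩ := hq BY κ κ1 (min κw (min eE eS)) (by positivity)
  obtain ⟨Cm, Cm0, eK, eK0, hn⟩ := hn q.c.Rs (min κw (min eE eS)) (by positivity)
  obtain ⟨T, hT⟩ := tri f o Λ L q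
  obtain ⟨eZ, eZ0, hz⟩ := hz q.c.Rs s4
  obtain ⟨eH, eH0, hy⟩ := hy L hL' q.c.Rs s4
  have s1 : f.z.R1 + 1 ≤ q.c.Rs := by linarith
  obtain ⟨eF, eF0, hF⟩ := scf ok s1 L (q.c.K + 2) T
  refine ⟨q.d, qb ▸ nm.ok, ?_⟩
  rw [← qb]
  refine eventually_atTop.1 ?_
  filter_upwards [hy, hF, P354NU.rb_big ok o.nu.sA.continuous s1 T, Gi.rb_col ok s1 (f.tw + 6)]
    with Rb ⟨C1, C11, mH, hy⟩ ⟨CF, CF1, mF, hF⟩ ⟨rb, _, bT⟩ ⟨_, bW⟩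
  obtain ⟨Cl0, hT⟩ := hT CF CF1
  have p1 : 0 ≤ Cd * C1 * 2 := by positivity
  have p2 := (C1' q.c.Rs).trans' zero_le_one
  obtain ⟨E1, ⟨⟨⟨l1, l2⟩, l3⟩, l4⟩, E0⟩ := (((((small p1 (lt_min eZ0 (lt_min eK0
    (lt_min eD0 (lt_min eH0 (lt_min eY0 one_pos)))))).and (small (mul_nonneg p2 p1) eL0)).and
      (small (mul_nonneg (zero_le_one.trans C01) (mul_nonneg p2 p1)) qe0)).and
      (small zero_le_one eF0)).and self_mem_nhdsWithin).exists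
  obtain ⟨Cl, g1, g2, g3, g4, g5, g6, g7⟩ : ∃ Cl, 1 ≤ Cl ∧ Cl0 ≤ Cl ∧ C1 ≤ Cl ∧ f.cH ≤ Cl ∧
      |f.tw| ≤ Cl ∧ Cm ≤ Cl ∧ Cm * (Cd * C1) ≤ Cl :=
    ⟨max 1 (max Cl0 (max C1 (max f.cH (max |f.tw| (max Cm (Cm * (Cd * C1))))))), by
      simp only [← max_le_iff, le_refl]⟩
  refine ⟨E1, E0, Cl, g1, max mH (max mF (max mY N0)), fun e1 he1 e he m hm dd hdd gc cg Lv g op lw
    ne st => ?_⟩
  obtain ⟨E, u0, l1, u1, u2, u3, u4, u5, u6, u7, u8, u9⟩ := arith Cd1 C11 C01 p2 he1 he hdd l1 l2 l3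
  simp only [ge_iff_le, max_le_iff, le_min_iff, one_mul] at hm l1 l4
  obtain ⟨n1, n2, n3, n4, n5, n6⟩ := l1
  have S : Sts f.z q.c.Rs Rb k L m e1 e dd gc Lv g := ⟨(ok.ok _ s1 _ rb).1.1, hdd.1.le, cg, op, st⟩
  have d0 := hdd.1.le
  obtain ⟨v, rfl, rfl, I, P, b2, dec⟩ := hy m hm.1 e1 e dd gc Lv g he1.1.le hdd.2 (u1.trans n4) lw S
  have W := hd v q.c.Rs Rb k n' _ _ (C1 * e) s4 I P (u1.trans n3) u2 (u3.trans n6) dec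
  have Z := hz Rb rb v E ⟨u0, n1⟩ (C1 * dd) ⟨u8, u2.trans u3⟩ (I.up u1)
  have w1 : ∀ u, 0 ≤ w0 u := fun u => Real.rpow_nonneg (add_nonneg zero_le_one (abs_nonneg _)) _
  obtain ⟨lb, lf⟩ := hL v q.c.Rs Rb k n C' E _ s4 op lw Z u0 mC' C1' u6
    fun u hu => wn_mono ((W u).2 hu) (mul_le_mul_of_nonneg_right u4 (w1 u))
  have G := ge_of I.toGm rb nm o (lb q.e u7 qe) lf
  obtain ⟨-, g0, pre, rg, -⟩ := geo f v q Rb o G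
  have pr := I.par.trans u1
  have b0 : q.b.N0 = N0 := congrArg C2.N0 qb
  have b1 : q.b.L0 = k := congrArg C2.L0 qb
  have b3 : q.b.C = Cb := congrArg C2.C qb
  obtain ⟨⟨cz, dv, bm⟩, eqs, met, n12⟩ := hn v q Rb E (C1 * dd) (Cl * dd) b0 b3 b1 rfl G Z I.nth.th pr n2
    (fun u => wn_mono (W u).1 u4)
    (fun x hx => P354YI.bd_le (b2 _ (g0 x (x0_of hx)).2.1 (rd_x1 G hx)) le_rfl u5) qk
  have j1 : min κw (min eE eS) ≤ eE := (min_le_right _ _).trans (min_le_left _ _)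
  have j2 : min κw (min eE eS) ≤ eS := (min_le_right _ _).trans (min_le_right _ _)
  have et := hE v q Rb F (Cl * dd) rfl G (cz.mono j1) (fun y hy a i => (dv y hy a i).trans j1)
    fun x hx => P354YI.bd_le (bm x hx) le_rfl j1
  obtain ⟨par, wo⟩ := hw v q Rb (C1 * dd) _ (f.E v q F (Cl * dd)) (congrArg C2.c0 qb) b1 qL rfl
    (qk.trans (min_le_left _ _)) G rfl rfl rfl u8 (mul_le_mul_of_nonneg_right g3 d0) et P Z.tm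
  obtain ⟨tr, ini⟩ := hT Cl g2 v Rb F e dd _ rfl G et d0 hdd.2 bT
    (hF k k2 m hm.2.1 e1 (he1.2.trans l4) e (he.2.trans l4) dd hdd.2 gc _ _ S)
  have dl : dd ≤ Cl * dd := le_mul_of_one_le_left d0 g1
  have Cl0' := zero_le_one.trans g1
  exact ⟨f.E v q F (Cl * dd), ⟨P354CQ.shape G.su (rg F _) (hS v q Rb F _ _ rfl G
    (cz.mono j2) (fun y hy a i => (dv y hy a i).trans j2) rfl), eqs, d0.trans dl,
    fun Q t => (par Q t).trans (mul_le_mul_of_nonneg_right (Cbw.trans_eq (congrFun b3 _).symm)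
      (add_nonneg (d0.trans dl) (tail_nn t))), (n12 wo).1, (n12 wo).2, ini,
    hY v q Rb k L m e1 e dd gc _ _ rfl qB hm.2.2.1 G pre S (pr.trans n5) (u9.trans n5) dl rfl⟩, rfl,
    tr, lk_of o G kk (rg F _) S ne (b0.trans_le hm.2.2.2)
      (dl.trans (mul_le_mul_of_nonneg_left hdd.2 Cl0')) g4 g5 bW fun x hx =>
        ⟨(met x hx).1.mono le_rfl g6, fun t => ((met x hx).2 t _ u4 (W x.1).1).mono b0.le (by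
          rw [← mul_assoc Cd, ← mul_assoc]; exact mul_le_mul_of_nonneg_right g7 he.1.le)⟩⟩

end Vale.Agent.P354LC
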