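import Vale.Agent.P354LC.Defs
import Vale.Agent.P354LC.Apr
import Vale.Agent.P354J.Lip
import Vale.Agent.P354J.Pull
import Vale.Agent.P354J.Uq
import Vale.Agent.P354CU.Uni

/-!
The initial values of the unknowns for data in the flat chart.
-/

set_option backward.isDefEq.respectTransparency false

open scoped ContDiff
open Set Filter Topology Matrix MeasureTheory

noncomputable section

namespace Vale.Agent.P354LC

open Vale.Agent.P354H Vale.Agent.P354C Vale.Agent.P354C.Ix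
open Vale.Agent.P354n (R4)
open Vale.Agent.P354I (X Dat ee)
open Vale.Agent.P354J (M3 N3 PD PDy CC U0 GW Ay Fy curv MD QQ JJ DD Bd Tm)
open Vale.Agent.P354CU (Dm Di_Dm)

/-- The identification of the two models of space. -/
def ioL : X3 ≃ₗ[ℝ] X where
  toFun x := !₂[x.1, x.2.1, x.2.2]
  invFun y := (y 0, y 1, y 2)
  map_add' x y := by ext i; fin_cases i <;> rfl
  map_smul' c x := by ext i; fin_cases i <;> rfl
  left_inv _ := rfl
  right_inv y := by ext i; fin_cases i <;> rfl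

def io : X3 ≃L[ℝ] X := ioL.toContinuousLinearEquiv

theorem io_e (j : Fin 3) : io (e j) = ee j := by
  ext i
  fin_cases i <;> fin_cases j <;> simp [io, ioL, e, ee]

theorem pd_io {F : Type} [NormedAddCommGroup F] [NormedSpace ℝ F] (j : Fin 3) (f : X → F) :
    pd j (fun x => f (io x)) = fun x => P354I.pd j f (io x) := funext fun x => by
  unfold pd P354I.pd
  rw [show (fun x => f (io x)) = f ∘ io from rfl, io.comp_right_fderiv, ← io_e]
  rfl

theorem le_io (x : X3) : ‖x‖ ≤ ‖io x‖ :=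
  norm_prod_le_iff.2 ⟨PiLp.norm_apply_le (io x) 0, norm_prod_le_iff.2
    ⟨PiLp.norm_apply_le (io x) 1, PiLp.norm_apply_le (io x) 2⟩⟩

theorem sb_io (m : ℕ) {f : X → ℝ} {c : ℝ} (hf : ContDiff ℝ ∞ f)
    (h : ∀ j ≤ m, ∀ y, ‖iteratedFDeriv ℝ j f y‖ ≤ c) : Sb m (fun x => f (io x)) c := by
  induction m generalizing f with
  | zero => exact sb_zero fun x => by simpa using h 0 le_rfl (io x)
  | succ m ih =>
    refine sb_succ (fun x => by simpa using h 0 (Nat.zero_le _) (io x)) fun i => ?_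
    have s := hf.fderiv_right (m := ∞) (by simp)
    rw [pd_io]
    refine ih (s.clm_apply contDiff_const) fun j hj y => ?_
    refine (norm_iteratedFDeriv_clm_apply_const s.contDiffAt (by exact_mod_cast le_top)).trans ?_
    rw [norm_iteratedFDeriv_fderiv, show ‖ee i‖ = 1 by simp [ee], one_mul]
    exact h _ (by omega) y

/-- The data in the chart and the initial values of the unknowns. -/
def hh (d : Dat) (x : X3) : M3 := d.h (io x)
def KK (d : Dat) (x : X3) : M3 := d.K (io x)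
def UU (d : Dat) : X3 → Ix → ℝ := U0 (hh d) (KK d)

variable {ρ c : ℝ} {d d' : Dat}

theorem Adm.posDef (h : Adm ρ c d) (hc : 0 < c) (y : X) : (d.h y).PosDef := by
  refine Matrix.PosDef.of_dotProduct_mulVec_pos ?_ fun v hv => ?_
  · ext i j
    simpa using (h.symm y).1.apply i j
  · obtain ⟨i, hi⟩ := Function.ne_iff.1 hv
    have h1 : 0 < ∑ i, v i ^ 2 :=
      Finset.sum_pos' (fun _ _ => sq_nonneg _) ⟨i, Finset.mem_univ _, sq_pos_of_ne_zero hi⟩
    refine (mul_pos hc h1).trans_le ((h.pos y v).trans_eq ?_)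
    simp only [dotProduct, mulVec, star_trivial, Fin.sum_univ_three]
    ring

theorem Adm.pd (h : Adm ρ c d) (hc : 0 < c) : PD (hh d) (KK d) :=
  ⟨fun a b => (h.smooth a b).1.comp io.contDiff, fun a b => (h.smooth a b).2.comp io.contDiff,
    fun _ => ⟨h.posDef hc _, (h.symm _).2⟩⟩

theorem Adm.pdy (h : Adm ρ c d) (hc : 0 < c) : PDy d :=
  ⟨fun a b => ⟨(h.smooth a b).1.contDiffOn, (h.smooth a b).2.contDiffOn⟩,
    fun _ _ => ⟨h.posDef hc _, (h.symm _).2⟩⟩

theorem gw_eq (d : Dat) (i : Fin 3) :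
    GW (hh d) (fun z => (hh d z)⁻¹) (KK d) i = fun x => Ay d i (io x) := by
  funext x
  unfold GW Ay P354J.Chr
  congr 1
  ext k j
  have e : ∀ i a b, pd i (fun y => d.h (io y) a b) x = P354I.pd i (fun y => d.h y a b) (io x) :=
    fun i a b => congrFun (pd_io i fun y => d.h y a b) x
  simp only [of_apply, P354J.MD_apply, hh, P354I.Dat.chr, mul_div_assoc, e]

theorem curv_eq (d : Dat) (i j : Fin 3) (x : X3) :
    curv (GW (hh d) (fun z => (hh d z)⁻¹) (KK d)) i j x = Fy d i j (io x) := by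
  have e : ∀ i j a b, pd i (fun y => Ay d j (io y) a b) x =
      P354I.pd i (fun y => Ay d j y a b) (io x) :=
    fun i j a b => congrFun (pd_io i fun y => Ay d j y a b) x
  simp only [curv, gw_eq, Fy, MD, e]

theorem Adm.cc (h : Adm ρ c d) (hc : 0 < c) {x : X3} (H : ∀ᶠ z in 𝓝 x, ConAt d (io z)) :
    CC (hh d) (KK d) x := by
  have k : ∀ z, z ≠ 0 → ConAt d (io z) → CC (hh d) (KK d) z := fun z hz H => by
    have hy : io z ≠ 0 := by simpa using hz
    unfold CC
    simp only [curv_eq]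
    simp only [hh, (h.pdy hc).ham_y hy, (h.pdy hc).mom_y hy, H.1, H.2, neg_zero,
      implies_true, and_self]
  by_cases hx : x = 0
  swap
  · exact k x hx H.self_of_nhds
  have D := (h.pd hc).dat
  have s := fun i j => P354J.MS.curv D.gw i j
  have ev : ∀ᶠ z in 𝓝[≠] x, CC (hh d) (KK d) z :=
    (H.filter_mono nhdsWithin_le_nhds).mp (eventually_mem_nhdsWithin.mono fun z hz =>
      k z (hx ▸ hz))
  have z : ∀ f : X3 → ℝ, Continuous f → (∀ᶠ z in 𝓝[≠] x, f z = 0) → f x = 0 := fun f hf H =>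
    tendsto_nhds_unique (hf.continuousAt.tendsto.mono_left nhdsWithin_le_nhds)
      (tendsto_const_nhds.congr' (H.mono fun _ h => h.symm))
  refine ⟨z _ ?_ (ev.mono fun _ h => h.1), fun i => z _ ?_ (ev.mono fun _ h => h.2 i)⟩
  · exact continuous_finsetSum _ fun k _ => continuous_finsetSum _ fun j _ =>
      continuous_finsetSum _ fun l _ => (D.shi j l).continuous.mul (s k j _ _).continuous
  · exact continuous_finsetSum _ fun j _ =>
      continuous_finsetSum _ fun l _ => (D.shi j l).continuous.mul (s i j _ _).continuous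

/-- The flat background. -/
def K0 : Ix → ℝ
  | .O | .P11 | .P22 => 1
  | _ => 0

theorem K0_res (i : Ix) : res K0 (fun _ _ => 0) i = 0 := by
  cases i <;> simp [res, resN, resL, angS, linS, quadS, cN, cL, angN, angL, linN, linL, quadN,
    quadL, K0]

theorem K0_gam (i j k : Fin 4) : Gam K0 i j k = 0 := by
  fin_cases i <;> fin_cases j <;> fin_cases k <;> simp [Gam, K0]

theorem Adm.out (h : Adm ρ c d) (hc : 0 < c) {x : X3} (hx : ρ < ‖x‖) : UU d x = K0 := by
  have e0 : ∀ y, P354J.dsl (fun _ => K0) y = fun _ _ => 0 := fun y => by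
    funext k i
    fin_cases k <;> simp [P354J.dsl, P354J.fd, P354H.pd]
  have g0 : ∀ i j k : Fin 4, Gam (fun _ => (0 : ℝ)) i j k = 0 := fun i j k => by
    fin_cases i <;> fin_cases j <;> fin_cases k <;> simp [Gam]
  refine (P354J.cv _ _ (h.pd hc) (fun _ => K0) {x | ρ < ‖x‖}
    (isOpen_lt continuous_const continuous_norm) (fun y hy => ⟨one_pos, one_pos,
      by simp [detP, K0], rfl, fun a b => ?_, ?_⟩) x hx).1.symm
  · obtain ⟨h1, h2⟩ := h.flat (io y) ((le_of_lt hy).trans (le_io y))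
    simp only [hh, KK, h1, h2, P354J.Kf, K0_gam]
    refine ⟨?_, by simp⟩
    fin_cases a <;> fin_cases b <;> simp [P354J.hf, eta, th, e, K0, detP] <;> norm_num
  · rw [e0]
    refine ⟨fun s t μ => ?_, fun s => ?_, fun s t j k => ?_⟩
    · have : ∀ x y, dEof (fun _ _ => (0 : ℝ)) x y μ = 0 := fun x y => by
        fin_cases y <;> fin_cases μ <;> simp [dEof]
      simp [torC, K0_gam, this]
    · have : ∀ x, sg K0 x = 0 := fun x => by fin_cases x <;> simp [sg, K0]
      simp [this]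
    · have a : ∀ x y, asym (0 : ℝ) 0 0 0 0 0 x y = 0 := fun x y => by
        fin_cases x <;> fin_cases y <;> simp [asym]
      have : ∀ x y, Wy K0 j k x y = 0 := fun x y => by
        fin_cases j <;> fin_cases k <;> simp [Wy, K0, a]
      simp [curD, K0_gam, g0, this]

theorem Adm.sm (h : Adm ρ c d) (hc : 0 < c) : ContDiff ℝ ∞ (UU d) :=
  contDiff_pi.2 (P354J.sl1 _ _ (h.pd hc)).1

theorem Dif.sb {m : ℕ} {ε : ℝ} (h : Dif m ε d d') (s : ∀ a b, ContDiff ℝ ∞ (fun y => d.h y a b) ∧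
    ContDiff ℝ ∞ fun y => d.K y a b) (s' : ∀ a b, ContDiff ℝ ∞ (fun y => d'.h y a b) ∧
    ContDiff ℝ ∞ fun y => d'.K y a b) (a b : Fin 3) :
    Sb m (fun x => hh d x a b - hh d' x a b) ε ∧ Sb m (fun x => KK d x a b - KK d' x a b) ε :=
  ⟨sb_io m ((s a b).1.sub (s' a b).1) fun j hj y => (h j hj a b y).1,
    sb_io m ((s a b).2.sub (s' a b).2) fun j hj y => (h j hj a b y).2⟩

theorem Adm.near (h : Adm ρ c d) (hc : 0 < c) {m : ℕ} {B : ℝ} (hB : Dif m B d eu) (x : X3) :
    JJ ⟨(hh d, KK d), h.pd hc⟩ x ∈ QQ c (B + 1) ×ˢ Metric.closedBall 0 (B + 1) ∧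
      Bd m (JJ ⟨(hh d, KK d), h.pd hc⟩) x (B + 1) := by
  have D := h.pd hc
  have k := hB.sb h.smooth fun _ _ => ⟨contDiff_const, contDiff_const⟩
  have b1 := P354J.bd_N3 (m := m) (z := x) (c := B + 1) D.sh fun a b α hα => by
    have := (k a b).1.add (P354CS.sb_const m (v := (1 : M3) a b) (d := 1) (by
      rw [Matrix.one_apply]; split_ifs <;> simp)) ((D.sh a b).sub contDiff_const) contDiff_const
      α hα x
    rwa [show ((fun x => hh d x a b - hh eu x a b) + fun _ => (1 : M3) a b) =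
      fun x => hh d x a b from funext fun x => sub_add_cancel _ _] at this
  have b2 := P354J.bd_N3 (m := m) (z := x) (c := B + 1) D.sK fun a b α hα => by
    have := (k a b).2 α hα x
    rw [show (fun x => KK d x a b - KK eu x a b) = fun x => KK d x a b from
      funext fun x => sub_zero _] at this
    linarith
  exact ⟨⟨⟨⟨fun i j => (h.symm _).1.apply j i, h.pos _⟩, mem_closedBall_zero_iff.2 b1.zero⟩,
    mem_closedBall_zero_iff.2 b2.zero⟩, Bd.pair D.smN
      (contDiff_pi.2 fun i => contDiff_pi.2 fun j => D.sK i j) b1 b2⟩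

theorem UU_bd (hc : 0 < c) (m : ℕ) (B : ℝ) : ∃ C, 0 ≤ C ∧ ∀ ρ d d' ε, Adm ρ c d → Adm ρ c d' →
    Dif (m + 2) B d eu → Dif (m + 2) B d' eu → Dif (m + 2) ε d d' →
    Sb m (UU d) C ∧ Sb m (UU d - UU d') (C * ε) := by
  choose C hC hT using fun i => (P354J.tame_U0 (B := B + 1) hc i).est m (B + 1)
  obtain ⟨C1, hC1⟩ := (Set.finite_range C).bddAbove
  have C0 : 0 ≤ C1 := (hC O).trans (hC1 ⟨O, rfl⟩)
  refine ⟨C1, C0, fun ρ d d' ε h h' b b' hε => ?_⟩
  have D := h.pd hc
  have D' := h'.pd hc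
  have k1 := hε.sb h.smooth h'.smooth
  have sJ : ∀ d : DD, ContDiff ℝ ∞ (JJ d) := fun d =>
    d.2.smN.prodMk (contDiff_pi.2 fun i => contDiff_pi.2 fun j => d.2.sK i j)
  have sh := D.sh.sub D'.sh
  have sK := D.sK.sub D'.sK
  have k2 := fun i x => (hT i ε x _ _ (h.near hc b x).1 (h'.near hc b' x).1 ⟨sJ _, sJ _,
    (h.near hc b x).2, (h'.near hc b' x).2, Bd.pair
    (contDiff_pi.2 fun i => contDiff_pi.2 fun j => sh i j)
    (contDiff_pi.2 fun i => contDiff_pi.2 fun j => sK i j)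
    (P354J.bd_N3 sh fun a b α hα => (k1 a b).1 α hα x)
    (P354J.bd_N3 sK fun a b α hα => (k1 a b).2 α hα x)⟩).mono le_rfl (hC1 ⟨i, rfl⟩)
    (mul_le_mul_of_nonneg_right (hC1 ⟨i, rfl⟩) (k1 0 0).1.nonneg)
  exact ⟨P354CS.sb_pi C0 (h.sm hc) fun i α hα x => (k2 i x).bf α hα,
    P354CS.sb_pi (mul_nonneg C0 (k1 0 0).1.nonneg) ((h.sm hc).sub (h'.sm hc))
      fun i α hα x => (k2 i x).bd α hα⟩

theorem UU_low (hc : 0 < c) (B : ℝ) : ∃ c0, 0 < c0 ∧ ∀ ρ d, Adm ρ c d → Dif 0 B d eu → ∀ x,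
    c0 ≤ UU d x O ∧ c0 ≤ detP (UU d x) := by
  have s := P354J.QQ_sub (B := B + 1) hc
  obtain ⟨a, a0, a1⟩ := (P354J.QQ_compact c (B + 1)).exists_forall_le'
    (P354J.sm_Oh.continuousOn.mono s) (a := 0) fun H hH => P354J.Oh_pos (s hH).2.1 (s hH).2.2
  obtain ⟨b, b0, b1⟩ := (P354J.QQ_compact c (B + 1)).exists_forall_le'
    (((P354J.sm_ph11.mul P354J.sm_ph22).sub (P354J.sm_ph12.mul P354J.sm_ph12)).continuousOn.mono s)
    (a := 0) fun H hH => P354J.detE_pos (s hH).1 (s hH).2.1 (s hH).2.2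
  exact ⟨min a b, lt_min a0 b0, fun ρ d h hB x => ⟨(min_le_left _ _).trans
    (a1 _ (h.near hc hB x).1.1), (min_le_right _ _).trans (b1 _ (h.near hc hB x).1.1)⟩⟩

theorem nk_of_sb (ρ : ℝ) : ∃ A, 0 ≤ A ∧ ∀ (V : Type) [NormedAddCommGroup V] [NormedSpace ℝ V]
    (f : X3 → V) (m : ℕ) (c : ℝ), ContDiff ℝ ∞ f → (∀ x, ρ < ‖x‖ → f x = 0) → Sb m f c →
      Good f ∧ Nk m f (A * c) := by
  have hK := isCompact_closedBall (0 : X3) ρ
  refine ⟨√(volume.real (Metric.closedBall (0 : X3) ρ)), Real.sqrt_nonneg _,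
    fun V _ _ f m c hf h0 h => ⟨⟨hf, HasCompactSupport.intro hK fun x hx => h0 x
      (by simpa using hx)⟩, fun α hα => ?_⟩⟩
  have z : ∀ (α : List (Fin 3)) (f : X3 → V), (∀ x, ρ < ‖x‖ → f x = 0) →
      ∀ x, ρ < ‖x‖ → pdl α f x = 0 := fun α => by
    induction α with
    | nil => exact fun f h => h
    | cons j α ih =>
      refine fun f h => ih _ fun x hx => ?_
      unfold pd
      rw [Filter.EventuallyEq.fderiv_eq (f₁ := f) (f := fun _ => 0) (mem_of_superset
        ((isOpen_lt continuous_const continuous_norm).mem_nhds hx) h)]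
      simp
  refine n2_le_of_sq (mul_nonneg (Real.sqrt_nonneg _) h.nonneg) ?_
  rw [mul_pow, Real.sq_sqrt measureReal_nonneg, ← smul_eq_mul, ← setIntegral_const,
    ← setIntegral_eq_integral_of_forall_compl_eq_zero (s := Metric.closedBall (0 : X3) ρ)
      fun x hx => by rw [z α f h0 x (by simpa using hx)]; simp]
  exact setIntegral_mono
    (((pdl_sm α hf).continuous.norm.pow 2).continuousOn.integrableOn_compact hK)
    (continuousOn_const.integrableOn_compact hK) fun x =>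
      pow_le_pow_left₀ (norm_nonneg _) (h α hα x) 2

/-- The datum for the perturbation of the flat background. -/
def W0 (d : Dat) (x : X3) : EuclideanSpace ℝ Ix := Dm (UU d x - K0)

theorem W0_bd (hc : 0 < c) (ρ : ℝ) (m : ℕ) (B : ℝ) : ∃ C, 0 ≤ C ∧ ∀ d d' ε, Adm ρ c d →
    Adm ρ c d' → Dif (m + 2) B d eu → Dif (m + 2) B d' eu → Dif (m + 2) ε d d' →
    Good (W0 d) ∧ Nk m (W0 d) C ∧ Nk m (W0 d - W0 d') (C * ε) := by
  obtain ⟨C, C0, hC⟩ := UU_bd hc m B
  obtain ⟨A, A0, hA⟩ := nk_of_sb ρ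
  refine ⟨A * (‖Dm‖ * (C + ‖K0‖)), by positivity, fun d d' ε h h' b b' hε => ?_⟩
  obtain ⟨k1, k2⟩ := hC ρ d d' ε h h' b b' hε
  have s := (h.sm hc).sub (contDiff_const (c := K0))
  have s' := (h.sm hc).sub (h'.sm hc)
  have a1 := hA _ (W0 d) m _ (Dm.contDiff.comp s) (fun x hx => by simp [W0, h.out hc hx])
    ((k1.add (P354CS.sb_const m (v := -K0) (norm_neg _).le) (h.sm hc) contDiff_const).clm
      ((h.sm hc).add contDiff_const) Dm)
  have a2 := hA _ (fun x => Dm ((UU d - UU d') x)) m _ (Dm.contDiff.comp s')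
    (fun x hx => by simp [h.out hc hx, h'.out hc hx]) (k2.clm s' Dm)
  refine ⟨a1.1, a1.2, ?_⟩
  rw [show W0 d - W0 d' = fun x => Dm ((UU d - UU d') x) from funext fun x => by
    simp [W0]]
  refine a2.2.mono le_rfl ?_
  have e0 : 0 ≤ ε := (norm_nonneg _).trans (hε 0 (Nat.zero_le _) 0 0 0).1
  have : 0 ≤ A * (‖Dm‖ * ‖K0‖) * ε := by positivity
  nlinarith

end Vale.Agent.P354LC
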