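import Vale.Agent.P354H.Energy
import Vale.Agent.P354HG.Global
import Vale.Agent.P354HL.Smooth

/-!
Energy estimates of all orders for smooth solutions with compact support.
-/

open scoped ContDiff
open MeasureTheory Set Filter Topology

namespace Vale.Agent.P354LC

open Vale.Agent.P354H

variable {V : Type} [NormedAddCommGroup V] [InnerProductSpace ℝ V]

theorem int_pd {f : X3 → ℝ} (hf : Good f) (j : Fin 3) : ∫ x, pd j f x = 0 := by
  have := haar
  have a := integral_mul_fderiv_eq_neg_fderiv_mul_of_integrable (μ := volume) (v := e j)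
    (f := fun _ : X3 => (1 : ℝ)) (g := f) (by simp)
    (by simp only [one_mul]; exact (hf.pd j).c0.int) (by simpa only [one_mul] using hf.c0.int)
    (fun _ _ => by fun_prop) fun x _ => dif hf.1 x
  simpa [pd] using a

/-- Integration by parts. -/
theorem ip_pd {A : X3 → V →L[ℝ] V} {w : X3 → V} {s : ℝ} (j : Fin 3) (hA : ContDiff ℝ ∞ A)
    (hs : ∀ x, Sym (A x)) (h : ∀ x, ‖pd j A x‖ ≤ s) (hw : Good w) :
    |ip w (ap A (pd j w))| ≤ s * n2 w ^ 2 := by
  have g1 := hw.ap_right hA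
  have g2 := (hw.pd j).ap_right hA
  have g3 := hw.ap_right (pd_sm j hA)
  have gf : Good fun x => inner ℝ (w x) (ap A w x) :=
    ⟨hw.1.inner ℝ g1.1, hw.2.mono fun x hx h => hx (by simp [h])⟩
  have e1 : ∀ x, pd j (fun x => inner ℝ (w x) (ap A w x)) x =
      2 * inner ℝ (w x) (ap A (pd j w) x) + inner ℝ (w x) (ap (pd j A) w x) := fun x => by
    have a := congrFun (pd_ap j hA hw.1) x
    unfold pd at a ⊢
    rw [fderiv_inner_apply ℝ (dif hw.1 x) (dif g1.1 x), a]
    simp only [Pi.add_apply, inner_add_right, ap]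
    rw [← hs x (fderiv ℝ w x (e j)) (w x), real_inner_comm (w x)]
    ring
  have e2 := int_pd gf j
  simp only [e1] at e2
  rw [integral_add ((hw.c0.inner g2.1.continuous).const_mul _) (hw.c0.inner g3.1.continuous),
    integral_const_mul] at e2
  have e3 := (abs_ip hw.c0 g3.c0).trans (mul_le_mul_of_nonneg_left
    (n2_ap (pd_sm j hA).continuous hw.c0 h) (n2_nonneg w))
  have e4 : ip w (ap A (pd j w)) = -(ip w (ap (pd j A) w)) / 2 := by
    unfold ip
    linarith
  rw [e4, abs_div, abs_neg, abs_two]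
  have := abs_nonneg (ip w (ap (pd j A) w))
  nlinarith

theorem pd_swap {W : Type} [NormedAddCommGroup W] [NormedSpace ℝ W] {f : X3 → W}
    (hf : ContDiff ℝ ∞ f) (i j : Fin 3) : pd i (pd j f) = pd j (pd i f) := by
  funext x
  have k := (hf.fderiv_right (m := ∞) (by simp)).differentiable (by simp) x
  have e : ∀ i j, pd i (pd j f) x = fderiv ℝ (fderiv ℝ f) x (e i) (e j) := fun i j => by
    unfold pd
    rw [fderiv_clm_apply k (differentiableAt_const _)]
    simp
  rw [e, e]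
  exact hf.contDiffAt.isSymmSndFDerivAt
    (by rw [minSmoothness_of_isRCLikeNormedField]; exact ENat.LEInfty.out) _ _

theorem pdl_pd {W : Type} [NormedAddCommGroup W] [NormedSpace ℝ W] (α : List (Fin 3)) (j : Fin 3)
    {f : X3 → W} (hf : ContDiff ℝ ∞ f) : pdl α (pd j f) = pd j (pdl α f) := by
  induction α generalizing f with
  | nil => rfl
  | cons i α ih => simp only [pdl]; rw [pd_swap hf, ih (pd_sm i hf)]

section
variable {a : X3 → V →L[ℝ] V} {l : X3 → V →L[ℝ] V →L[ℝ] V} {u : X3 → V} {k p : ℕ} {C s n : ℝ}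

theorem ip_tm (ha : ContDiff ℝ ∞ a) (hl : ContDiff ℝ ∞ l) (hu : Good u)
    (sa : ∀ x, Sym (a x)) (sl : ∀ x w, Sym (l x w)) (h1 : Sb (k + 1) a C)
    (h2 : Sb (k + 1) l C) (h3 : Sb (p + 1) u s) (h4 : Nk (k + 1) u n) (hp : p ≤ k)
    (hk : k ≤ 2 * p + 1) (j : Fin 3) (α : List (Fin 3)) (hα : α.length ≤ k + 1) :
    |ip (pdl α u) (pdl α (ap (a + ap l u) (pd j u)))| ≤
      (2 * (k + 1 : ℕ) + 1) * (2 ^ (k + 1)) ^ 2 * C * (1 + s) * n ^ 2 := by
  have g1 := hu.ap_right hl
  have gw := hu.pd j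
  have gα := hu.pdl α
  have hA : ContDiff ℝ ∞ (a + ap l u) := ha.add g1.1
  have b1 := sb_lu hl hu.1 h2 h3 (by omega : p + 1 ≤ k + 1)
  have e0 : pdl α (ap (a + ap l u) (pd j u)) =
      ap (a + ap l u) (pd j (pdl α u)) + (comm α a (pd j u) + comm α (ap l u) (pd j u)) := by
    rw [← comm_add α ha g1.1 gw.1, P354H.comm, pdl_pd α j hu.1]
    abel
  have e1 := ip_pd j hA (fun x v w => by
      simp only [Pi.add_apply, add_apply, inner_add_left, inner_add_right, ap]
      rw [sa x v w, sl x (u x) v w])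
    (fun x => ((h1.low (by omega : 1 ≤ k + 1)).add (b1.low (by omega : 1 ≤ p + 1)) ha g1.1)
      [j] le_rfl x) gα
  have e2 := comm1 α ha gw h1 (h4.pd j) hα
  have e3 := comm2 α g1 gw (by omega) b1 (prod1 hl hu h2 h4) (h3.pd j) (h4.pd j) hα
  have c1 := (good_comm α ha gw).c0
  have c2 := (good_comm α g1.1 gw).c0
  have e4 := (abs_ip gα.c0 (c1.add c2)).trans
    (mul_le_mul (h4 α hα) ((n2_add c1 c2).trans (add_le_add e2 e3)) (n2_nonneg _) h4.nonneg)
  rw [e0, ip_add gα.c0 ((gα.pd j).ap_right hA).c0.1 (c1.add c2).1]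
  refine (abs_add_le _ _).trans ((add_le_add e1 e4).trans ?_)
  have hM := one_le_two_pow (k + 1)
  have hM' := pow_mono2 k.le_succ
  have hC := h1.nonneg
  have hs := h3.nonneg
  have hn := h4.nonneg
  have hl' : (α.length : ℝ) ≤ (k + 1 : ℕ) := Nat.cast_le.2 hα
  have hn2 : n2 (pdl α u) ^ 2 ≤ n ^ 2 := pow_le_pow_left₀ (n2_nonneg _) (h4 α hα) 2
  have hN : (0 : ℝ) ≤ 2 ^ k := by positivity
  have hL : (0 : ℝ) ≤ α.length := by positivity
  generalize (2 : ℝ) ^ (k + 1) = M at *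
  generalize (2 : ℝ) ^ k = N at *
  generalize (α.length : ℝ) = L at *
  generalize ((k + 1 : ℕ) : ℝ) = K at *
  have hM2 : M ≤ M ^ 2 := by nlinarith
  have q1 : (C + M * (C * s)) * n2 (pdl α u) ^ 2 ≤ (M ^ 2 * C + M ^ 2 * (C * s)) * n ^ 2 := by
    have : C ≤ M ^ 2 * C := le_mul_of_one_le_left hC (hM.trans hM2)
    gcongr
  have q2 : n * (L * (N * (C * n)) + L * (N * (M * (C * s) * n + M * (C * n) * s))) ≤
      n * (K * ((2 * M ^ 2) * (C * n)) + K * (M * (M * (C * s) * n + M * (C * n) * s))) := by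
    have : N ≤ 2 * M ^ 2 := by nlinarith
    have hK : 0 ≤ K := hL.trans hl'
    gcongr
  refine (add_le_add q1 q2).trans (le_of_eq (by ring))

end

/-- The bounds of order k for the coefficients at the time t. -/
def BdK (S : Sys V) (t : ℝ) (k : ℕ) (c : ℝ) : Prop :=
  (∀ j, Sb k (sl (S.a j) t) c ∧ Sb k (sl (S.l j) t) c) ∧ Sb k (sl S.b t) c ∧ Sb k (sl S.q t) c

theorem G_eq (S : Sys V) (t : ℝ) (u : X3 → V) : S.G t u =
    ap (sl (S.a 0) t + ap (sl (S.l 0) t) u) (pd 0 u) +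
      ap (sl (S.a 1) t + ap (sl (S.l 1) t) u) (pd 1 u) +
      ap (sl (S.a 2) t + ap (sl (S.l 2) t) u) (pd 2 u) + low (sl S.b t) (sl S.q t) u := by
  funext x
  rw [Sys.G, Fin.sum_univ_three]
  rfl

theorem ip_G {S : Sys V} (hS : S.OK) {t c s n : ℝ} {k p : ℕ} (hC : BdK S t (k + 1) c)
    {u : X3 → V} (hu : Good u) (hp : p ≤ k) (hk : k ≤ 2 * p + 1) (h3 : Sb (p + 1) u s)
    (h4 : Nk (k + 1) u n) (α : List (Fin 3)) (hα : α.length ≤ k + 1) :
    |ip (pdl α u) (pdl α (S.G t u))| ≤ LL (k + 1) c s * n ^ 2 := by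
  obtain ⟨h1, h2, h2'⟩ := hC
  have g : ∀ j, Good (ap (sl (S.a j) t + ap (sl (S.l j) t) u) (pd j u)) := fun j =>
    (hu.pd j).ap_right ((sl_sm (hS.sm.a j) t).add (ap_sm (sl_sm (hS.sm.l j) t) hu.1))
  have gl := good_low (sl_sm hS.sm.b t) (sl_sm hS.sm.q t) hu
  have e' := nk_low (sl_sm hS.sm.b t) (sl_sm hS.sm.q t) hu h2 h2' h3 h4 (by omega) (by omega)
  have hC0 := h2.nonneg
  have hs := h3.nonneg
  have hn := h4.nonneg
  have hX : 0 ≤ ((2 : ℝ) ^ (k + 1)) ^ 2 * c * (1 + s) := by positivity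
  have eL : LL (k + 1) c s = (6 * (k + 1 : ℕ) + 8) * (((2 : ℝ) ^ (k + 1)) ^ 2 * c * (1 + s)) := by
    unfold LL; ring
  have gα := (hu.pdl α).c0
  have i := fun j => ip_tm (sl_sm (hS.sm.a j) t) (sl_sm (hS.sm.l j) t) hu
    (fun x => hS.sa j _) (fun x => hS.sl j _) (h1 j).1 (h1 j).2 h3 h4 hp hk j α hα
  have i' := (abs_ip gα (gl.pdl α).c0).trans
    (mul_le_mul (h4 α hα) (e' α hα) (n2_nonneg _) hn)
  rw [G_eq, pdl_add α (((g 0).add (g 1)).add (g 2)).1 gl.1, pdl_add α ((g 0).add (g 1)).1 (g 2).1,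
    pdl_add α (g 0).1 (g 1).1,
    ip_add gα ((((g 0).pdl α).add ((g 1).pdl α)).add ((g 2).pdl α)).c0.1 (gl.pdl α).c0.1,
    ip_add gα (((g 0).pdl α).add ((g 1).pdl α)).c0.1 ((g 2).pdl α).c0.1,
    ip_add gα ((g 0).pdl α).c0.1 ((g 1).pdl α).c0.1]
  refine ((abs_add_le _ _).trans (add_le_add ((abs_add_three _ _ _).trans
    (add_le_add (add_le_add (i 0) (i 1)) (i 2))) i')).trans ?_
  rw [eL]
  nlinarith [mul_nonneg hX (sq_nonneg n)]

/-- The scalar product of order k. -/
noncomputable def II : ℕ → (X3 → V) → (X3 → V) → ℝ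
  | 0, f, g => ip f g
  | k + 1, f, g => ip f g + ∑ j, II k (pd j f) (pd j g)

theorem ip_self (f : X3 → V) : ip f f = n2 f ^ 2 := by
  simp only [ip, n2_sq, real_inner_self_eq_norm_sq]

theorem II_nonneg (k : ℕ) (f : X3 → V) : 0 ≤ II k f f := by
  induction k generalizing f with
  | zero => rw [II, ip_self]; positivity
  | succ k ih =>
    rw [II, ip_self]
    exact add_nonneg (sq_nonneg _) (Finset.sum_nonneg fun j _ => ih _)

theorem II_nk (k : ℕ) (f : X3 → V) : Nk k f √(II k f f) := by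
  induction k generalizing f with
  | zero => exact nk_zero (by rw [II, ip_self, Real.sqrt_sq (n2_nonneg f)])
  | succ k ih =>
    have h := fun j => II_nonneg k (pd j f)
    refine nk_succ (Real.le_sqrt_of_sq_le ?_) fun j => (ih _).mono le_rfl (Real.sqrt_le_sqrt ?_)
    · rw [II, ip_self]
      exact le_add_of_nonneg_right (Finset.sum_nonneg fun j _ => h j)
    · rw [II, ip_self]
      exact le_add_of_nonneg_of_le (sq_nonneg _) (Finset.single_le_sum
        (f := fun j => II k (pd j f) (pd j f)) (fun j _ => h j) (Finset.mem_univ j))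

theorem II_le {k : ℕ} {f g : X3 → V} {b : ℝ}
    (h : ∀ α : List (Fin 3), α.length ≤ k → |ip (pdl α f) (pdl α g)| ≤ b) :
    |II k f g| ≤ 4 ^ k * b := by
  induction k generalizing f g with
  | zero => simpa [II, pdl] using h [] le_rfl
  | succ k ih =>
    have h0 : |ip f g| ≤ b := h [] (Nat.zero_le _)
    have h1 := fun j => ih (f := pd j f) (g := pd j g) fun α hα => h (j :: α) (by simpa using hα)
    have hb : 0 ≤ b := (abs_nonneg _).trans h0
    have h4 : (1 : ℝ) ≤ 4 ^ k := one_le_pow₀ (by norm_num)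
    rw [II, Fin.sum_univ_three, pow_succ]
    refine (abs_add_le _ _).trans ((add_le_add h0 ((abs_add_three _ _ _).trans
      (add_le_add (add_le_add (h1 0) (h1 1)) (h1 2)))).trans ?_)
    nlinarith

theorem II_le' {k : ℕ} {f : X3 → V} {r : ℝ} (h : Nk k f r) : II k f f ≤ 4 ^ k * r ^ 2 :=
  (le_abs_self _).trans (II_le fun α hα => by
    rw [ip_self, abs_of_nonneg (sq_nonneg _)]
    exact pow_le_pow_left₀ (n2_nonneg _) (h α hα) 2)

section
variable {W' : Type} [NormedAddCommGroup W'] [NormedSpace ℝ W']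

theorem dt_sm {W : ℝ × X3 → W'} (h : ContDiff ℝ ∞ W) : ContDiff ℝ ∞ (dt W) :=
  (h.fderiv_right (m := ∞) (by simp)).clm_apply contDiff_const

theorem d2_swap {E : Type} [NormedAddCommGroup E] [NormedSpace ℝ E] {f : E → W'} {p : E}
    (hf : ContDiffAt ℝ ∞ f p) (v w : E) : fderiv ℝ (fun q => fderiv ℝ f q v) p w =
      fderiv ℝ (fun q => fderiv ℝ f q w) p v := by
  have k := (hf.fderiv_right (m := ∞) (by simp)).differentiableAt (by simp)
  rw [fderiv_clm_apply k (differentiableAt_const _), fderiv_clm_apply k (differentiableAt_const _)]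
  simpa using hf.isSymmSndFDerivAt
    (by rw [minSmoothness_of_isRCLikeNormedField]; exact ENat.LEInfty.out) w v

theorem dt_dx {W : ℝ × X3 → W'} (h : ContDiff ℝ ∞ W) (j : Fin 3) : dt (dx j W) = dx j (dt W) :=
  funext fun _ => d2_swap h.contDiffAt _ _

end

theorem II_deriv (k : ℕ) {W : ℝ × X3 → V} (h : ContDiff ℝ ∞ W) (h' : HasCompactSupport W) (t : ℝ) :
    HasDerivAt (fun s => II k (sl W s) (sl W s)) (2 * II k (sl W t) (sl (dt W) t)) t := by
  have h0 : ∀ {W : ℝ × X3 → V}, ContDiff ℝ ∞ W → HasCompactSupport W →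
      HasDerivAt (fun s => ip (sl W s) (sl W s)) (2 * ip (sl W t) (sl (dt W) t)) t := by
    intro W h h'
    have d := P354HU.deriv_int (f := fun p => inner ℝ (W p) (W p))
      ((h.inner ℝ h).of_le (by simp)) (h'.mono fun x hx e => hx (by simp [e])) t
    have e : ∀ x, dt (fun p => inner ℝ (W p) (W p)) (t, x) =
        2 * inner ℝ (sl W t x) (sl (dt W) t x) := fun x => by
      have k := h.differentiable (by simp) (t, x)
      unfold dt
      rw [fderiv_inner_apply ℝ k k, real_inner_comm (W (t, x)), two_mul]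
      rfl
    simp only [e, integral_const_mul] at d
    exact d
  induction k generalizing W with
  | zero => exact h0 h h'
  | succ k ih =>
    have a := (h0 h h').add (HasDerivAt.fun_sum (u := Finset.univ) fun j _ =>
      ih (P354HL.dx_sm h j) (h'.fderiv_apply ℝ _))
    simp only [II, P354HL.pd_sl h, P354HL.pd_sl (dt_sm h), mul_add, Finset.mul_sum, ← dt_dx h]
    exact a

/-- The differential inequality for the energy. -/
theorem II_ineq {S : Sys V} (hS : S.OK) {t c s : ℝ} {k p : ℕ} (hC : BdK S t (k + 1) c)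
    {W : ℝ × X3 → V} (h : ContDiff ℝ ∞ W) (h' : HasCompactSupport W) (hp : p ≤ k)
    (hk : k ≤ 2 * p + 1) (H : ∀ x, S.Holds W (t, x)) (h3 : Sb (p + 1) (sl W t) s) :
    |2 * II (k + 1) (sl W t) (sl (dt W) t)| ≤
      2 * 4 ^ (k + 1) * LL (k + 1) c s * II (k + 1) (sl W t) (sl W t) := by
  have e : sl (dt W) t = S.G t (sl W t) := funext fun x => by
    simp only [Sys.G, P354HL.pd_sl h]
    exact H x
  have a := II_le fun α hα => ip_G hS hC (P354HG.good_sl h h' t) hp hk h3 (II_nk _ _) α hα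
  rw [Real.sq_sqrt (II_nonneg _ _)] at a
  rw [e, abs_mul, abs_two]
  linarith

end Vale.Agent.P354LC
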