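import Vale.Agent.P354YQ.OgD
import Vale.Agent.P354YR.Nfo
import Vale.Agent.P354YA.Exz

/-!
FLAY: the form of Lo is that of Kerr near the points of the layer.
-/

set_option maxSynthPendingDepth 3

open scoped ContDiff
open Set Filter Topology

noncomputable section

namespace Vale.Agent.P354LC

open Vale.Agent.P354n (R4)
open Vale.Agent.P354I (rp)
open Vale.Agent.P354RC (Gm at_fd at_df)
open Vale.Agent.P354XD (rp_tb)
open Vale.Agent.P354XE (Tw rd eT gin Lo)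
open Vale.Agent.P354XA (rd_cont rd_cd rd_fd)
open Vale.Agent.P354XV
open Vale.Agent.P354YA (nat dd Fa_far)
open Vale.Agent.P354YT (Pm Str tb tb_d qm qm_pos)
open Vale.Agent.P354YI (Sig0 Ab)
open Vale.Agent.P354YR (gin_met open_ne xs_ne nf_ok)

/-- Uniqueness for a linear differential inequality, in both directions. -/
theorem lin_z {E : Type} [NormedAddCommGroup E] [NormedSpace ℝ E] {f f' : ℝ → E} {a b K : ℝ}
    (d : ∀ s ∈ uIcc a b, HasDerivAt f (f' s) s) (k : ∀ s ∈ uIcc a b, ‖f' s‖ ≤ K * ‖f s‖)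
    (h : f a = 0) : f b = 0 := by
  have m : ∀ t ∈ Icc (0 : ℝ) 1, a + t * (b - a) ∈ uIcc a b := fun t ht => by
    rw [← segment_eq_uIcc, segment_eq_image']
    exact ⟨t, ht, rfl⟩
  have e : ∀ t ∈ Icc (0 : ℝ) 1, HasDerivAt (fun t => f (a + t * (b - a)))
      ((b - a) • f' (a + t * (b - a))) t := fun t ht =>
    (d _ (m t ht)).scomp t ((hasDerivAt_mul_const (b - a)).const_add a)
  have := eq_zero_of_abs_deriv_le_mul_abs_self_of_eq_zero_right (K := |b - a| * K)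
    (fun t ht => (e t ht).continuousAt.continuousWithinAt)
    (fun t ht => (e t (Ico_subset_Icc_self ht)).hasDerivWithinAt) (by simpa using h)
    (fun t ht => by
      rw [norm_smul, mul_assoc]
      exact mul_le_mul_of_nonneg_left (k _ (m t (Ico_subset_Icc_self ht))) (norm_nonneg _))
    1 (right_mem_Icc.2 zero_le_one)
  simpa using this

variable {c : Pm} {Φ : R4 → R4} {G : Set R4} {g : Tw} {x : R4}

/-- The points on the lines which cross the slice inside G. -/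
def Tl (c : Pm) (Φ : R4 → R4) (G : Set R4) : Set R4 :=
  {x | x ∈ c.D ∧ ∃ a, ga c Φ x a ∈ Sig0 c.M c.a ∧ ∀ s ∈ uIcc a 0, ga c Φ x s ∈ G}

theorem tl_ga (S : Str c Φ) (hx : x ∈ c.D) {a s : ℝ} (h : ga c Φ x a ∈ Sig0 c.M c.a)
    (k : ∀ s ∈ uIcc a 0, ga c Φ x s ∈ G) (hs : s ∈ uIcc a 0) : ga c Φ x s ∈ Tl c Φ G := by
  have e : ∀ t, ga c Φ (ga c Φ x s) t = ga c Φ x (s + t) := fun t => by
    rw [ga_add, ga, ga, S.right _ (ga_P S hx s)]
  refine ⟨ga_D S hx s, a - s, by rwa [e, add_sub_cancel], fun t ht => e t ▸ k _ ?_⟩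
  rw [mem_uIcc] at *
  rcases hs with hs | hs <;> rcases ht with ht | ht
  exacts [.inl ⟨by linarith, by linarith⟩, .inl ⟨by linarith, by linarith⟩,
    .inr ⟨by linarith, by linarith⟩, .inr ⟨by linarith, by linarith⟩]

/-- The height over the slice along a line. -/
def sgm (c : Pm) (Φ : R4 → R4) (z : R4 × ℝ) : ℝ :=
  (ga c Φ z.1 z.2).1 - tb c.M c.a (rd (ga c Φ z.1 z.2))

theorem ga_ct (S : Str c Φ) (hx : x ∈ c.D) (s : ℝ) :
    ContinuousAt (fun z : R4 × ℝ => ga c Φ z.1 z.2) (x, s) :=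
  have k1 : ContinuousAt (fun z : R4 × ℝ => c.Psi z.1) (x, s) := ContinuousAt.comp (g := c.Psi)
    (x := (x, s)) (S.Psi_sm.contDiffAt (c.open_D.mem_nhds hx)).continuousAt continuousAt_fst
  have k2 : ContinuousAt (fun z : R4 × ℝ => z.2 • eT) (x, s) := by fun_prop
  ContinuousAt.comp (f := fun z : R4 × ℝ => c.Psi z.1 + z.2 • eT)
    (S.Phi_sm.contDiffAt (P354YT.open_P0.mem_nhds (ga_P S hx s))).continuousAt (k1.add k2)

theorem sgm_ct (o : c.Ok) (S : Str c Φ) (hx : x ∈ c.D) {s : ℝ} (r : rp c.M c.a < rd (ga c Φ x s)) :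
    ContinuousAt (sgm c Φ) (x, s) :=
  have k : ContinuousAt (fun p : R4 => p.1 - tb c.M c.a (rd p)) (ga c Φ x s) := continuousAt_fst.sub
    (ContinuousAt.comp (f := rd) (tb_d o.sub r).continuousAt rd_cont.continuousAt)
  ContinuousAt.comp (f := fun z : R4 × ℝ => ga c Φ z.1 z.2) (x := (x, s)) k (ga_ct S hx s)

theorem sgm_d (o : c.Ok) (S : Str c Φ) (hx : x ∈ c.D) {s : ℝ} (r : rp c.M c.a < rd (ga c Φ x s)) :
    ∃ v > 0, HasDerivAt (fun s => sgm c Φ (x, s)) v s := by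
  have r0 := (o.pos (ga_D S hx s)).ne'
  obtain ⟨c0, c1, c2⟩ := o.lam_pos
  have d := (hasFDerivAt_fst (𝕜 := ℝ) (p := ga c Φ x s)).fun_sub
    ((tb_d o.sub r).comp_hasFDerivAt _ (at_df (rd_cd r0)).hasFDerivAt)
  refine ⟨_, ?_, d.comp_hasDerivAt s (ga_d S hx s)⟩
  rw [map_smul, sub_apply, smul_apply, rd_fd r0, Pm.X_dr c r0, ContinuousLinearMap.coe_fst',
    Pm.X_fst]
  have q := qm_pos o.sub r
  exact mul_pos (inv_pos.2 (c1.trans_le (c2 _ (ga_D S hx s))))
    (o.X_pos (by linarith) fun _ => by linarith)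

theorem tl_open (o : c.Ok) (S : Str c Φ) (hG : IsOpen G) (r : ∀ x ∈ G, rp c.M c.a < rd x) :
    IsOpen (Tl c Φ G) := isOpen_iff_mem_nhds.2 fun x ⟨hx, a, h, k⟩ => by
  obtain ⟨l, u, -, h1, h2⟩ := exists_Icc_mem_subset_of_mem_nhds
    ((ga_cont S hx).continuousAt (hG.mem_nhds (k a left_mem_uIcc)))
  have h1 := Icc_mem_nhds_iff.1 h1
  choose! v v0 hv using fun s (hs : s ∈ Icc l u) => sgm_d o S hx (r _ (h2 hs))
  have m := strictMonoOn_of_deriv_pos (convex_Icc l u)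
    (fun s hs => (hv s hs).continuousAt.continuousWithinAt)
    fun s hs => (hv s (interior_subset hs)).deriv ▸ v0 s (interior_subset hs)
  have lu := h1.1.le.trans h1.2.le
  have z : sgm c Φ (x, a) = 0 := sub_eq_zero.2 h.2
  have m1 := (m (left_mem_Icc.2 lu) (Ioo_subset_Icc_self h1) h1.1).trans_eq z
  have m2 := z.symm.trans_lt (m (Ioo_subset_Icc_self h1) (right_mem_Icc.2 lu) h1.2)
  have p : ∀ s ∈ Icc l u, ContinuousAt (fun y : R4 => sgm c Φ (y, s)) x := fun s hs =>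
    ContinuousAt.comp (f := fun y : R4 => (y, s)) (sgm_ct o S hx (r _ (h2 hs))) (by fun_prop)
  have t : ∀ᶠ y in 𝓝 x, ∀ s ∈ Icc l u ∪ uIcc a 0, ga c Φ y s ∈ G :=
    (isCompact_Icc.union isCompact_uIcc).eventually_forall_of_forall_eventually
      fun s hs => ga_ct S hx s (hG.mem_nhds (hs.elim (fun e => h2 e) (k s)))
  filter_upwards [c.open_D.mem_nhds hx, t, (p l (left_mem_Icc.2 lu)).eventually_lt_const m1,
    (p u (right_mem_Icc.2 lu)).eventually_const_lt m2] with y hy k1 k2 k3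
  obtain ⟨b, hb, e⟩ := intermediate_value_Icc lu (f := fun s => sgm c Φ (y, s))
    (fun s hs => (ContinuousAt.comp (f := fun s : ℝ => (y, s)) (sgm_ct o S hy (r _ (k1 s (.inl hs))))
      (by fun_prop)).continuousWithinAt) ⟨k2.le, k3.le⟩
  exact ⟨hy, b, ⟨r _ (k1 b (.inl hb)), sub_eq_zero.1 e⟩, fun s hs => k1 s
    ((uIcc_subset_uIcc_union_uIcc hs).imp_left
      fun e => uIcc_subset_Icc hb (Ioo_subset_Icc_self h1) e)⟩

/-- Transport of the form of Lo along the lines. -/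
theorem tl_eq (o : c.Ok) (S : Str c Φ) (L : Lv g G) (r : ∀ x ∈ G, c.R1 + 2 ≤ rd x)
    (A : ∀ x ∈ G, fderiv ℝ c.X x (c.X x) + Gm (P354XD.tb g) x (c.X x) (c.X x) = 0)
    (I : ∀ x ∈ G, x ∈ Sig0 c.M c.a → ∀ v, g x (Lo c.M c.a x) v = gin c.M c.a x (Lo c.M c.a x) v)
    (hx : x ∈ Tl c Φ G) (v : R4) : g x (Lo c.M c.a x) v = gin c.M c.a x (Lo c.M c.a x) v := by
  have R := rp_tb L.isOpen L.met
  have R' := rp_tb open_ne (gin_met (M := c.M) (a := c.a) fun _ h => h)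
  have r0 : ∀ x ∈ G, 0 < rd x := fun x hx => by linarith [r x hx, o.R1, o.M0]
  have hX : ∀ x ∈ G, ContDiffAt ℝ ∞ c.X x := fun x hx => o.X_cd (r0 x hx)
  have xo : ∀ x ∈ G, c.X x = Lo c.M c.a x := fun x hx =>
    X_out o (by unfold dd; linarith [r x hx])
  have q : ∀ x ∈ Tl c Φ G, P354XD.tb g x (c.X x) (c.X x) = 0 := fun x ⟨hx, a, h, k⟩ => by
    have k0 := k a left_mem_uIcc
    rw [← ga_zero S hx]
    refine lin_z (f := fun s => P354XD.tb g (ga c Φ x s) (c.X (ga c Φ x s)) (c.X (ga c Φ x s)))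
      (f' := fun _ => 0) (a := a) (K := 0) (fun s hs => ?_) (by simp) ?_
    · refine ((at_df (((R.at (k s hs)).clm_apply (hX _ (k s hs))).clm_apply
        (hX _ (k s hs)))).hasFDerivAt.comp_hasDerivAt s (ga_d S hx s)).congr_deriv ?_
      rw [map_smul, sq_fd L (k s hs) (hX _ (k s hs)), A _ (k s hs)]
      simp
    · rw [← R.eq _ k0, xo _ k0, I _ k0 h, gin_LL o (by linarith [r _ k0])]
  have oT := tl_open o S L.isOpen fun x hx => by linarith [r x hx, o.rpR]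
  obtain ⟨hx, a, h, k⟩ := hx
  obtain ⟨C, hC⟩ := isCompact_uIcc.exists_bound_of_continuousOn (s := uIcc a 0)
    (f := fun s => (c.lam (ga c Φ x s))⁻¹ • fderiv ℝ c.X (ga c Φ x s)) fun s hs =>
    ((lam_cont S hx o).continuousAt.smul ((at_fd (hX _ (k s hs))).continuousAt.comp
      (ga_cont S hx).continuousAt)).continuousWithinAt
  have k0 := k a left_mem_uIcc
  have := lin_z (a := a) (b := 0) (K := C)
    (f := fun s => P354XD.tb g (ga c Φ x s) (c.X (ga c Φ x s)) -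
      P354XD.tb (gin c.M c.a) (ga c Φ x s) (c.X (ga c Φ x s)))
    (f' := fun s => -(P354XD.tb g (ga c Φ x s) (c.X (ga c Φ x s)) -
      P354XD.tb (gin c.M c.a) (ga c Φ x s) (c.X (ga c Φ x s))).comp
        ((c.lam (ga c Φ x s))⁻¹ • fderiv ℝ c.X (ga c Φ x s))) (fun s hs => ?_) (fun s hs => by
      rw [norm_neg, mul_comm]
      exact (ContinuousLinearMap.opNorm_comp_le _ _).trans (mul_le_mul_of_nonneg_left
        (hC s hs) (norm_nonneg _))) (ContinuousLinearMap.ext fun v => by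
      rw [sub_apply, ← R.eq _ k0, ← R'.eq _ (xs_ne (r0 _ k0)), xo _ k0, I _ k0 h, sub_self,
        zero_apply])
  · have k1 := k 0 right_mem_uIcc
    rw [ga_zero S hx] at this k1
    rw [R.eq _ k1, R'.eq _ (xs_ne (r0 _ k1)), ← xo _ k1, sub_eq_zero.1 this]
  have l1 := k s hs
  have l2 := xs_ne (r0 _ l1)
  have n1 : (fun x => P354XD.tb g x (c.X x) (c.X x)) =ᶠ[𝓝 (ga c Φ x s)] fun _ => 0 :=
    mem_of_superset (oT.mem_nhds (tl_ga S hx h k hs)) q
  have n2 : (fun x => P354XD.tb (gin c.M c.a) x (c.X x) (c.X x)) =ᶠ[𝓝 (ga c Φ x s)] fun _ => 0 := by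
    filter_upwards [L.isOpen.mem_nhds l1] with y hy
    rw [← R'.eq y (xs_ne (r0 y hy)), xo y hy, gin_LL o (by linarith [r y hy])]
  refine (((at_df ((R.at l1).clm_apply (hX _ l1))).hasFDerivAt.comp_hasDerivAt s
    (ga_d S hx s)).sub ((at_df ((R'.at l2).clm_apply (hX _ l1))).hasFDerivAt.comp_hasDerivAt s
      (ga_d S hx s))).congr_deriv ?_
  rw [map_smul, map_smul, lie0 R l1 (hX _ l1) (A _ l1) (by
    rw [n1.fderiv_eq, fderiv_fun_const, Pi.zero_apply]), lie0 R' l2 (hX _ l1)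
    (P354YR.acc_out nf_ok.2.2.1 nf_ok.2.2.2.2 o (by unfold dd; linarith [r _ l1])) (by
    rw [n2.fderiv_eq, fderiv_fun_const, Pi.zero_apply])]
  refine ContinuousLinearMap.ext fun v => ?_
  simp only [sub_apply, smul_apply, neg_apply, ContinuousLinearMap.comp_apply, map_smul,
    smul_eq_mul]
  ring

/-- **FLAY.** -/
theorem flay : P354YQ.FLAY := by
  refine fun c o2 => ⟨1, one_pos, fun κ θ θ1 m e gc _ _ h1 h2 G p hp n hr hu => ?_⟩
  have o := o2.1
  obtain ⟨Φ, S⟩ := o.ex_str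
  obtain ⟨W, l, sub⟩ := G.lv
  have oG : IsOpen (W ∩ {x | c.R1 + 2 < rd x} ∩ {x | ∀ᶠ z in 𝓝 x, Gq (nat c κ) z gc c.X z}) :=
    (l.isOpen.inter (isOpen_lt continuous_const rd_cont)).inter isOpen_setOfPred_eventually_nhds
  have L := l.mono oG fun _ h => h.1.1
  obtain ⟨d, -, t⟩ := (o.En_iff θ p).1 hp
  have rp := o.rpR
  obtain ⟨a, a0, h, k⟩ := ex_start o S (p := p) ⟨d, fun _ => t (by linarith), fun _ => by linarith⟩
  have f := start_far o S d a0 h k (ρ := c.R1 + 5 / 2) (by linarith) (by linarith) (by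
    linarith [P354YA.tb_lip o.sub (x := c.R1 + 2) (y := c.R1 + 5 / 2) (by linarith [o.R1])
      (by linarith)])
  refine mem_of_superset ((tl_open o S oG fun x hx => by linarith [hx.1.2.out]).mem_nhds
    ⟨d, a, h, fun s hs => ?_⟩) fun x hx => tl_eq o S L (fun x hx => hx.1.2.out.le)
    (fun x hx => (hx.2.self_of_nhds.acc L hx).trans (Fa_far (le_trans (by
      unfold dd; linarith [hx.1.2.out]) (le_abs_self _)) _))
    (fun x hx s => (G.ini x s (h2.trans (Real.exp_le_exp.2 (mul_le_mul_of_nonneg_left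
      ((o.tb_mono o.rpR s.1 (by linarith [hx.1.2.out])).trans s.2.ge)
      (P354YR.ka_pos o.sub).le)))).2 hx.1.2.out.le) hx
  rw [uIcc_of_le a0] at hs
  have b : ga c Φ p s ∈ Ab c θ := ⟨(ga_en o S d h k hs.1 h1).1,
    (not_le.1 fun z => n.not_ge (ga_col S d hs.2 z)).le.trans zero_le_one⟩
  exact ⟨⟨sub b, lt_of_lt_of_le (by linarith) (ga_out S d hs.1 (by linarith))⟩,
    G.gau _ b (ga_en o S d h k hs.1 h2).2⟩

end Vale.Agent.P354LC
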