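import Vale.Agent.P354BK.Gr
import Vale.Agent.P354YI.Jet
import Vale.Agent.P354UR.EDefs

/-!
IPL: interpolation on a cube.
-/

set_option maxSynthPendingDepth 3

open scoped ContDiff
open Set Filter Topology

noncomputable section

namespace Vale.Agent.P354LC

open Vale.Agent.P354n (R4)
open Vale.Agent.P354RC (bs cv sum_bs)
open Vale.Agent.P354YI
open Vale.Agent.P354UR (IPL)

theorem op_le {V : Type} [NormedAddCommGroup V] [NormedSpace ℝ V] (L : R4 →L[ℝ] V) {c : ℝ}
    (h : ∀ i, ‖L (bs i)‖ ≤ c) : ‖L‖ ≤ 4 * c := by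
  have c0 := (norm_nonneg _).trans (h 0)
  refine L.opNorm_le_bound (by positivity) fun v => ?_
  have k : ∀ i, ‖cv i v‖ ≤ ‖v‖ := fun i => by
    fin_cases i
    exacts [norm_fst_le v, (norm_fst_le v.2).trans (norm_snd_le v),
      (norm_fst_le v.2.2).trans ((norm_snd_le v.2).trans (norm_snd_le v)),
      (norm_snd_le v.2.2).trans ((norm_snd_le v.2).trans (norm_snd_le v))]
  conv_lhs => rw [← sum_bs v, map_sum]
  refine (norm_sum_le _ _).trans ((Finset.sum_le_sum (g := fun _ => ‖v‖ * c) fun i _ => ?_).trans_eq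
    (by simp; ring))
  rw [map_smul, norm_smul]
  exact mul_le_mul (k i) (h i) (norm_nonneg _) (norm_nonneg _)

/-- **IPL.** -/
theorem ipl : IPL := by
  intro k
  induction k with
  | zero =>
    exact fun V _ _ B r r0 ε e0 => ⟨ε, e0, fun f p h => Jb.of_zero (h p ⟨le_rfl,
      le_add_of_nonneg_right ⟨r0.le, r0.le, r0.le, r0.le⟩⟩).2.2⟩
  | succ k ih =>
    intro V _ _ B r r0 ε e0
    obtain ⟨δ, d0, hδ⟩ := ih (R4 →L[ℝ] V) B (r / 2) (half_pos r0) ε e0
    obtain ⟨t, t0, t1, t2⟩ : ∃ t > 0, t ≤ r / 2 ∧ (|B| + 1) * t ≤ δ / 8 :=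
      ⟨min (r / 2) (δ / 8 / (|B| + 1)), by positivity, min_le_left _ _,
        (le_div_iff₀' (by positivity)).1 (min_le_right _ _)⟩
    refine ⟨min ε (δ * t / 16), by positivity, fun f p h => ?_⟩
    have m : ∀ q ∈ Icc p (p + (r / 2, r / 2, r / 2, r / 2)), ∀ i, ∀ s ∈ Icc 0 t,
        q + s • bs i ∈ Icc p (p + (r, r, r, r)) := fun q hq i s hs => by
      have a := hs.2.trans t1
      have b := (half_pos r0).le
      refine ⟨hq.1.trans (le_add_of_nonneg_right (smul_nonneg hs.1 ?_)),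
        (add_le_add hq.2 (show _ ≤ (r / 2, r / 2, r / 2, r / 2) from ?_)).trans_eq ?_⟩
      · fin_cases i <;> simp [bs, Prod.le_def]
      · fin_cases i <;> simp [bs, Prod.le_def, a, b]
      · simp [add_assoc]
    refine Jb.succ ((h p ⟨le_rfl, le_add_of_nonneg_right ⟨r0.le, r0.le, r0.le, r0.le⟩⟩).2.2.trans
      (min_le_left _ _)) (hδ _ p fun q hq => ?_)
    have hq' := m q hq 0 0 ⟨le_rfl, t0.le⟩
    rw [zero_smul, add_zero] at hq'
    refine ⟨at_fd (h q hq').1, Jb.fd (h q hq').2.1, (op_le _ (c := δ / 4) fun i => ?_).trans_eq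
      (by ring)⟩
    refine (P354BK.interp (C := |B|) t0 fun s hs => ⟨(h _ (m q hq i s hs)).1.of_le (le_inf 2),
      (h _ (m q hq i s hs)).2.2.trans (min_le_right _ _),
      (Jb.fd (Jb.fd (h _ (m q hq i s hs)).2.1)).zero.trans (le_abs_self B)⟩).trans ?_
    have n1 : ‖bs i‖ = 1 := by fin_cases i <;> simp [bs, Prod.norm_def]
    rw [n1, show 2 * (δ * t / 16) / t = δ / 8 by field_simp; ring]
    nlinarith

end Vale.Agent.P354LC
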