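import Vale.Agent.P354LC.Jet
import Vale.Agent.P354LC.Ipl

/-!
The bound for a parallel frame along a timelike curve, with a time function as the parameter.
-/

set_option maxSynthPendingDepth 3

open scoped ContDiff
open Set Filter Topology

noncomputable section

namespace Vale.Agent.P354LC

open Vale.Agent.P354n (R4 mink)
open Vale.Agent.P354R (Met)
open Vale.Agent.P354RC (bs at_df)
open Vale.Agent.P354XD (tb)
open Vale.Agent.P354XE (Tw eT Bd Lor)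
open Vale.Agent.P354XU (L4 Jt Rol Fr)
open Vale.Agent.P354YI
open Vale.Agent.P354YM (UB Tl)
open Vale.Agent.P354UR (Mb)

variable {g : Tw} {D Ω : Set R4} {p u v : R4} {b Y c : R4 → R4} {E : R4 → L4} {τ : R4 → ℝ}
  {N : ℕ} {B c0 : ℝ}

theorem mink_c (u v : R4) :
    mink u v = -(u.1 * v.1) + u.2.1 * v.2.1 + u.2.2.1 * v.2.2.1 + u.2.2.2 * v.2.2.2 := rfl

theorem mink_le (hu : mink u u ≤ 0) (u0 : 0 ≤ u.1) (hv : mink v v ≤ 0) (v0 : 0 ≤ v.1) :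
    mink u v ≤ 0 := by
  rw [mink_c] at *
  have k := abs_le_of_sq_le_sq' (a := u.2.1 * v.2.1 + u.2.2.1 * v.2.2.1 + u.2.2.2 * v.2.2.2)
    (b := u.1 * v.1) (by
      have a := mul_le_mul (show u.2.1 ^ 2 + u.2.2.1 ^ 2 + u.2.2.2 ^ 2 ≤ u.1 ^ 2 by linarith)
        (show v.2.1 ^ 2 + v.2.2.1 ^ 2 + v.2.2.2 ^ 2 ≤ v.1 ^ 2 by linarith) (by positivity)
        (by positivity)
      nlinarith [sq_nonneg (u.2.1 * v.2.2.1 - u.2.2.1 * v.2.1),
        sq_nonneg (u.2.1 * v.2.2.2 - u.2.2.2 * v.2.1),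
        sq_nonneg (u.2.2.1 * v.2.2.2 - u.2.2.2 * v.2.2.1)]) (mul_nonneg u0 v0)
  linarith [k.2]

/-- The cone condition in the frame. -/
theorem fr_cone (L : Lor g D Y) (F : Fr g D Ω b E) (hp : p ∈ Ω) (U : UB N B c0 g Y τ (b p))
    (fut : g (b p) (E p eT) (Y (b p)) < 0) (hu : mink u u ≤ 0) (u0 : 0 ≤ u.1) :
    c0 * ‖E p u‖ ≤ fderiv ℝ τ (b p) (E p u) := by
  obtain ⟨ξ, hξ⟩ := (P354UR.Fr.inv F L.met hp).surjective (Y (b p))
  have t := L.tl _ (F.maps hp)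
  rw [← hξ, F.on p hp] at t fut
  refine U.cone _ (F.on p hp u u ▸ hu) ?_
  rw [← hξ, F.on p hp]
  refine mink_le hu u0 t.le ?_
  simpa [mink_c, eT] using fut.le

theorem frb_le (L : Lor g D Y) (F : Fr g D Ω b E) (hp : p ∈ Ω) (U : UB N B c0 g Y τ (b p))
    (fut : g (b p) (E p eT) (Y (b p)) < 0) (c : 0 < c0) :
    ‖E p‖ ≤ 4 * (fderiv ℝ τ (b p) (E p eT) / c0) := by
  refine op_le _ fun i => (le_div_iff₀' c).2 ?_
  have k1 := fr_cone L F hp U fut (u := eT + bs i)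
    (by fin_cases i <;> norm_num [mink_c, bs, eT]) (by fin_cases i <;> norm_num [bs, eT])
  have k2 := fr_cone L F hp U fut (u := eT - bs i)
    (by fin_cases i <;> norm_num [mink_c, bs, eT]) (by fin_cases i <;> norm_num [bs, eT])
  have k3 := mul_le_mul_of_nonneg_left (norm_sub_le (E p (eT + bs i)) (E p (eT - bs i))) c.le
  rw [← map_sub, show eT + bs i - (eT - bs i) = (2 : ℝ) • bs i by module, map_smul, norm_smul,
    Real.norm_two] at k3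
  simp only [map_add, map_sub] at k1 k2 k3
  linarith

theorem gm_le (B : ℝ) (c : 0 < c0) : ∃ C, 0 ≤ C ∧ ∀ g D p, IsOpen D → Met g D → p ∈ D →
    Mb 1 B c0 g p → ‖GM (tb g) p‖ ≤ C := by
  obtain ⟨C, k, h⟩ := (oj_gm (J := {j : Tw × Set R4 × R4 // (IsOpen j.2.1 ∧ Met j.1 j.2.1 ∧
    j.2.2 ∈ j.2.1) ∧ Mb 1 B c0 j.1 j.2.2}) (k := 0) c (fun j => j.2.1) fun j => j.2.2).val
  exact ⟨C, k, fun g D p a1 a2 a3 a4 => (h ⟨(g, D, p), ⟨a1, a2, a3⟩, a4⟩).trans_eq (mul_one C)⟩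

theorem frb_alg {H : R4 →L[ℝ] R4 →L[ℝ] ℝ} {l : R4 →L[ℝ] ℝ} {G : C3} {C K : ℝ} (hc : 0 < c0)
    (hK : K * c0 ^ 2 = B * (1 + C)) (K0 : 0 ≤ K) (h1 : ‖H‖ ≤ B) (h2 : ‖l‖ ≤ B) (h3 : ‖G‖ ≤ C)
    (k1 : c0 * ‖u‖ ≤ l u) (k2 : c0 * ‖v‖ ≤ l v) : H u v - l (G u v) - K * (l u * l v) ≤ 0 := by
  have k3 := (H.le_opNorm₂ u v).trans (mul_le_mul_of_nonneg_right (mul_le_mul_of_nonneg_right
    h1 (norm_nonneg _)) (norm_nonneg _))
  have k4 := (G.le_opNorm₂ u v).trans (mul_le_mul_of_nonneg_right (mul_le_mul_of_nonneg_right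
    h3 (norm_nonneg _)) (norm_nonneg _))
  have k5 := (l.le_opNorm (G u v)).trans
    (mul_le_mul h2 k4 (norm_nonneg _) ((norm_nonneg _).trans h2))
  have k6 := mul_le_mul_of_nonneg_left (mul_le_mul k1 k2 (by positivity)
    ((mul_nonneg hc.le (norm_nonneg _)).trans k1)) K0
  rw [show K * (c0 * ‖u‖ * (c0 * ‖v‖)) = B * (1 + C) * (‖u‖ * ‖v‖) by rw [← hK]; ring] at k6
  linarith [(abs_le.1 k3).2, (abs_le.1 k5).1]

theorem frb_d {C K s : ℝ} {x : Y3} (hc : 0 < c0) (hK : K * c0 ^ 2 = B * (1 + C)) (K0 : 0 ≤ K)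
    (L : Lor g D Y) (R : Rol g D Ω c 0 b E) (m : (s, x) ∈ Ω) (U : UB N B c0 g Y τ (b (s, x)))
    (t : Tl c (s, x)) (fut : g (b (s, x)) (E (s, x) eT) (Y (b (s, x))) < 0)
    (hC : ‖GM (tb g) (b (s, x))‖ ≤ C) : ∃ G' ≤ 0, HasDerivAt (fun s =>
      fderiv ℝ τ (b (s, x)) (E (s, x) eT) * Real.exp (-(K * τ (b (s, x))))) G' s := by
  have ln : HasDerivAt (fun s : ℝ => ((s, x) : R4)) eT s :=
    (hasDerivAt_id s).prodMk (hasDerivAt_const s x)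
  have d1 : HasDerivAt (fun s => b (s, x)) (E (s, x) (c (s, x))) s :=
    R.db _ m ▸ (at_df (P354UR.Fr.atb R.toFr m)).hasFDerivAt.comp_hasDerivAt s ln
  have d0 : HasDerivAt (fun s => E (s, x)) (fderiv ℝ E (s, x) eT) s :=
    (at_df (P354UR.Fr.atE R.toFr m)).hasFDerivAt.comp_hasDerivAt s ln
  have d2 : HasDerivAt (fun s => E (s, x) eT) (fderiv ℝ E (s, x) eT eT) s := by
    simpa using d0.clm_apply (hasDerivAt_const s eT)
  have d3 : HasDerivAt (fun s => fderiv ℝ τ (b (s, x)))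
      (fderiv ℝ (fderiv ℝ τ) (b (s, x)) (E (s, x) (c (s, x)))) s :=
    HasFDerivAt.comp_hasDerivAt (l := fderiv ℝ τ) s ((U.sm.1.fderiv_right (m := 1)
      le_rfl).differentiableAt one_ne_zero).hasFDerivAt d1
  have d4 : HasDerivAt (fun s => τ (b (s, x))) (fderiv ℝ τ (b (s, x)) (E (s, x) (c (s, x)))) s :=
    HasFDerivAt.comp_hasDerivAt (l := τ) s (U.sm.1.differentiableAt two_ne_zero).hasFDerivAt d1
  refine ⟨_, ?_, (d3.clm_apply d2).fun_mul (d4.const_mul K).fun_neg.exp⟩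
  have e := eq_neg_of_add_eq_zero_left ((R.dE _ m eT).trans (map_zero _))
  have k := mul_nonpos_of_nonpos_of_nonneg (frb_alg hc hK K0 (Jb.fd (Jb.fd U.sm.2)).zero
    (Jb.fd U.sm.2).zero hC (fr_cone L R.toFr m U fut t.1.le t.2.le)
    (fr_cone L R.toFr m U fut (u := eT) (by norm_num [mink_c, eT]) zero_le_one))
    (Real.exp_pos (-(K * τ (b (s, x))))).le
  rw [e, map_neg, ← GM_ap]
  linarith

/-- **FRB.** -/
theorem frb (B B0 : ℝ) (hc : 0 < c0) : ∃ F, ∀ (N : ℕ) g D Y τ Ω c b E (p : R4), 1 ≤ N → Lor g D Y →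
    Rol g D Ω c 0 b E → 0 ≤ p.1 → (∀ s ∈ Icc 0 p.1, (s, p.2) ∈ Ω ∧ UB N B c0 g Y τ (b (s, p.2)) ∧
      Tl c (s, p.2) ∧ g (b (s, p.2)) (E (s, p.2) eT) (Y (b (s, p.2))) < 0) →
    ‖E (0, p.2)‖ ≤ B0 → ‖E p‖ ≤ F := by
  obtain ⟨C, C0, hC⟩ := gm_le B hc
  obtain ⟨K, hK⟩ : ∃ K, K = B * (1 + C) / c0 ^ 2 := ⟨_, rfl⟩
  refine ⟨4 * (B * B0 * Real.exp (K * (2 * B)) / c0), fun N g D Y τ Ω c b E p hN L R p0 h h0 => ?_⟩
  have l0 : (0 : ℝ) ∈ Icc 0 p.1 := ⟨le_rfl, p0⟩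
  have l1 : p.1 ∈ Icc 0 p.1 := ⟨p0, le_rfl⟩
  have b0 : 0 ≤ B := Jb.nonneg (h 0 l0).2.1.sm.2
  have K0 : 0 ≤ K := by rw [hK]; positivity
  choose! G' hG d using fun s hs => frb_d hc (hK ▸ div_mul_cancel₀ _ (by positivity)) K0 L R
    (h s hs).1 (h s hs).2.1 (h s hs).2.2.1 (h s hs).2.2.2 (hC g D _ L.isOpen L.met
      (R.maps (h s hs).1) ⟨fun k hk => (h s hs).2.1.bd k (hk.trans hN), (h s hs).2.1.nd⟩)
  have k := antitoneOn_of_deriv_nonpos (convex_Icc 0 p.1)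
    (fun s hs => (d s hs).continuousAt.continuousWithinAt)
    (fun s hs => (d s (interior_subset hs)).differentiableAt.differentiableWithinAt)
    (fun s hs => (d s (interior_subset hs)).deriv ▸ hG s (interior_subset hs)) l0 l1 p0
  refine (frb_le L R.toFr (h _ l1).1 (h _ l1).2.1 (h _ l1).2.2.2 hc).trans ?_
  have a0 := abs_le.1 (Jb.zero (h 0 l0).2.1.sm.2)
  have a1 := abs_le.1 (Jb.zero (h _ l1).2.1.sm.2)
  have a2 : fderiv ℝ τ (b (0, p.2)) (E (0, p.2) eT) ≤ B * B0 := (le_abs_self _).trans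
    (((fderiv ℝ τ _).le_opNorm _).trans (mul_le_mul (Jb.fd (h 0 l0).2.1.sm.2).zero
      (((E _).le_opNorm eT).trans (by simpa [eT] using h0)) (norm_nonneg _) b0))
  refine mul_le_mul_of_nonneg_left (div_le_div_of_nonneg_right ?_ hc.le) (by norm_num)
  simp only at k
  rw [Real.exp_neg, ← div_eq_mul_inv, div_le_iff₀ (Real.exp_pos _), mul_assoc, ← Real.exp_add] at k
  exact k.trans (mul_le_mul a2 (Real.exp_le_exp.2 (by nlinarith)) (Real.exp_pos _).le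
    (mul_nonneg b0 ((norm_nonneg _).trans h0)))

end Vale.Agent.P354LC
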