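import Vale.Agent.P354LC.Ode
import Vale.Agent.P354UR.EDefs
import Vale.Agent.P354UR.Roll

/-!
JET: bounds for the jets of a rolling and of its coframe.
-/

set_option maxSynthPendingDepth 3

open scoped ContDiff
open Set Filter Topology

noncomputable section

namespace Vale.Agent.P354LC

open Vale.Agent.P354n (R4 mink)
open Vale.Agent.P354R (Met)
open Vale.Agent.P354RC (B2 Rp at_df)
open Vale.Agent.P354XD (tb rp_tb)
open Vale.Agent.P354XE (Tw eT Bd)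
open Vale.Agent.P354XU (L4 Jt Rol Fr th)
open Vale.Agent.P354YI
open Vale.Agent.P354UR (Mb JET vr vr_iff vr_cd mB mB_ap GB_ap mink_nd)

variable {g : Tw} {h : R4 → B2} {D Ω : Set R4} {p : R4} {b : R4 → R4} {E : R4 → L4}

theorem inv_nd (r : Rp g h D) (hp : p ∈ D) {c : ℝ} (c0 : 0 < c)
    (H : ∀ v, ∃ w, ‖w‖ ≤ 1 ∧ c * ‖v‖ ≤ g p v w) : ‖(h p).inverse‖ ≤ c⁻¹ := by
  refine ContinuousLinearMap.opNorm_le_bound _ (by positivity) fun l => ?_
  obtain ⟨w, h1, h2⟩ := H ((h p).inverse l)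
  rw [r.eq p hp, r.inv hp] at h2
  rw [le_inv_mul_iff₀ c0]
  exact h2.trans ((le_abs_self _).trans ((l.le_opNorm w).trans
    (mul_le_of_le_one_right (norm_nonneg _) h1)))

theorem mB_inv : mB.IsInvertible :=
  P354RC.inv_of_inj fun _ k => mink_nd fun w => mB_ap _ w ▸ k w

/-- The inverse of an orthonormal frame. -/
theorem fr_inv (F : Fr g D Ω b E) (hD : IsOpen D) (m : Met g D) (hp : p ∈ Ω) :
    (E p).inverse = mB.inverse.comp ((tb g (b p)).flip.comp (E p)).flip := by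
  refine ContinuousLinearMap.ext fun v => ?_
  obtain ⟨v, rfl⟩ := (P354UR.Fr.inv F m hp).surjective v
  rw [(P354UR.Fr.inv F m hp).inverse_apply_self, ContinuousLinearMap.comp_apply, eq_comm,
    mB_inv.inverse_apply_eq]
  refine ContinuousLinearMap.ext fun w => ?_
  rw [mB_ap, ← F.on p hp, (rp_tb hD m).eq _ (F.maps hp)]
  rfl

section
variable {J : Type} {k : ℕ} {B c0 : ℝ} {g : J → Tw} {D : J → Set R4} {x : J → R4}

theorem oj_mb (hD : ∀ j, IsOpen (D j) ∧ Met (g j) (D j) ∧ x j ∈ D j)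
    (H : ∀ j, Bd k (g j) (x j) B) : Oj k x (fun j => tb (g j)) 1 :=
  (Oj.tb (fun j v w => ((hD j).2.1.smooth v w).contDiffAt ((hD j).1.mem_nhds (hD j).2.2)) H).wt
    (c := B) (fun _ => zero_le_one) fun _ => (mul_one B).ge

theorem oj_gm (c : 0 < c0) (hD : ∀ j, IsOpen (D j) ∧ Met (g j) (D j) ∧ x j ∈ D j)
    (H : ∀ j, Mb (k + 1) B c0 (g j) (x j)) : Oj k x (fun j => GM (tb (g j))) 1 :=
  have r := fun j => rp_tb (hD j).1 (hD j).2.1
  have a := oj_mb hD fun j => (H j).1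
  Oj.gm (Oj.inv (fun j => P354RC.inv_of_inj ((r j).nd _ (hD j).2.2))
    ⟨_, fun j => inv_nd (r j) (hD j).2.2 c (H j).2⟩ a.pred) a
end

theorem oj_cl {J E V W : Type} [NormedAddCommGroup E] [NormedSpace ℝ E] [NormedAddCommGroup V]
    [NormedSpace ℝ V] [NormedAddCommGroup W] [NormedSpace ℝ W] {m : ℕ} {x : J → E} (L : E →L[ℝ] V)
    {G : J → V → W} {μ : J → ℝ} (hG : Oj m (fun j => L (x j)) G μ) :
    Oj m x (fun j z => G j (L z)) μ :=
  Oj.comp (f := fun _ => L) (fun _ => L.contDiff.contDiffAt) m (oj_lin _ x L) hG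

/-- The data of JET. -/
structure JD (k : ℕ) (B c0 : ℝ) where
  g : Tw
  (D Ω : Set R4)
  (c b : R4 → R4)
  E : R4 → L4
  p : R4
  hD : IsOpen D
  m : Met g D
  R : Rol g D Ω c 0 b E
  hT : |p.1| ≤ B
  h : ∀ s ∈ uIcc 0 p.1, (s, p.2) ∈ Ω ∧ Jt (k + 1) c (s, p.2) B ∧
    Mb (k + 2) B c0 g (b (s, p.2)) ∧ ‖b (s, p.2)‖ ≤ B ∧ ‖E (s, p.2)‖ ≤ B
  hb : Jt (k + 1) (fun x : Y3 => b (0, x)) p.2 B
  hE : Jt (k + 1) (fun x : Y3 => E (0, x)) p.2 B

/-- **JET.** -/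
theorem jet : JET := by
  intro k B c0 c
  let S : JD k B c0 → Set R4 := fun j => {z | z.1 ∈ uIcc 0 j.p.1 ∧ z.2 = j.p.2}
  let I := {i : JD k B c0 × R4 // i.2 ∈ S i.1}
  have hS : Sgm B S := fun j z hz => ⟨le_trans (by simpa using abs_sub_left_of_mem_uIcc hz.1)
    j.hT, fun s hs => ⟨uIcc_subset_uIcc_left hz.1 hs, hz.2⟩⟩
  have H := fun i : I => (show (i.1.2.1, i.1.1.p.2) = i.1.2 from i.2.2 ▸ rfl) ▸ i.1.1.h _ i.2.1
  have r := fun j : JD k B c0 => rp_tb j.hD j.m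
  have sb := fun i : I => P354UR.Fr.atb i.1.1.R.toFr (H i).1
  have sE := fun i : I => P354UR.Fr.atE i.1.1.R.toFr (H i).1
  have mD := fun i : I => (⟨i.1.1.hD, i.1.1.m, i.1.1.R.maps (H i).1⟩ : _ ∧ _ ∧ _)
  have s0 : ∀ (i : I) {V : Type} [NormedAddCommGroup V] [NormedSpace ℝ V] {f : R4 → V},
      ContDiffOn ℝ ∞ f i.1.1.Ω → ContDiffAt ℝ ∞ (fun x : Y3 => f (0, x)) i.1.2.2 :=
    fun i _ _ _ f hf => at_comp (hf.contDiffAt (i.1.1.R.isOpen.mem_nhds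
      (i.2.2 ▸ (i.1.1.h 0 left_mem_uIcc).1))) (by fun_prop)
  have hF : Oj (k + 1) (fun i : I => (i.1.2, i.1.1.b i.1.2, i.1.1.E i.1.2))
      (fun i => vr i.1.1.g i.1.1.c 0) 1 := by
    have a1 := oj_cl (x := fun i : I => (i.1.2, i.1.1.b i.1.2, i.1.1.E i.1.2))
      ((ContinuousLinearMap.snd ℝ _ _).comp (.snd ℝ _ _))
      (oj_id (k + 1) (fun _ => le_rfl) ⟨B, fun i => (H i).2.2.2.2.trans (mul_one B).ge⟩)
    have a2 := oj_cl (x := fun i : I => (i.1.2, i.1.1.b i.1.2, i.1.1.E i.1.2)) (.fst ℝ _ _)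
      (Oj.of1 (fun i => (P354UR.Rol.cd i.1.1.R (r _) (H i).1).1) fun i => (H i).2.1)
    have a3 := oj_cl (x := fun i : I => (i.1.2, i.1.1.b i.1.2, i.1.1.E i.1.2))
      ((ContinuousLinearMap.fst ℝ _ _).comp (.snd ℝ _ _)) (oj_gm c mD fun i => (H i).2.2.1)
    have a4 := a1.apl a2
    refine (a4.pair ((a3.apl a4).cl a1).neg).congr' fun i z => Prod.ext rfl ?_
    refine ContinuousLinearMap.ext fun v => ?_
    simp [vr, GB_ap, GM_ap]
  have key : Os (k + 1) S (fun j z => (j.b z, j.E z)) 1 := ode_jet hS (k + 1)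
    (F := fun j => vr j.g j.c 0) (fun j z hz => ⟨(sb ⟨(j, z), hz⟩).prodMk (sE ⟨(j, z), hz⟩),
      mem_of_superset (j.R.isOpen.mem_nhds (H ⟨(j, z), hz⟩).1) fun y hy =>
        (vr_iff (at_df (P354UR.Fr.atb j.R.toFr hy)) (at_df (P354UR.Fr.atE j.R.toFr hy))).2
          ⟨j.R.db y hy, j.R.dE y hy⟩⟩)
    ((Oj.of1 sb fun i => .of_zero (H i).2.2.2.1).pair (Oj.of1 sE fun i => .of_zero (H i).2.2.2.2))
    hF ((Oj.of1 (fun i => s0 i i.1.1.R.sb) fun i => i.2.2 ▸ i.1.1.hb).pair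
      (Oj.of1 (fun i => s0 i i.1.1.R.sE) fun i => i.2.2 ▸ i.1.1.hE))
  have k1 := Oj.clm (.fst ℝ _ _) key
  have k2 := Oj.clm (.snd ℝ _ _) key
  have k3 : Oj k (fun i : I => i.1.2) (fun i => th i.1.1.b i.1.1.E) 1 := by
    refine (((Oj.cst mB.inverse).cr ((Oj.comp sb k (k1.fd.le (by omega))
      ((oj_mb mD fun i => (H i).2.2.1.1).le (by omega))).flip.cl k2.pred).flip).cl k1.fd).congr
      fun i => ?_
    filter_upwards [i.1.1.R.isOpen.mem_nhds (H i).1] with z hz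
    rw [th, fr_inv i.1.1.R.toFr i.1.1.hD i.1.1.m hz]
    rfl
  obtain ⟨C1, -, h1⟩ := k1.bd
  obtain ⟨C2, -, h2⟩ := k2.bd
  obtain ⟨C3, -, h3⟩ := k3.bd
  refine ⟨max C1 (max C2 C3), fun g D Ω c b E p hD m R hT h hb hE => ?_⟩
  let i : I := ⟨(⟨g, D, Ω, c, b, E, p, hD, m, R, hT, h, hb, hE⟩, p), right_mem_uIcc, rfl⟩
  exact ⟨(h1 i).mono le_rfl (by simp), (h2 i).mono le_rfl (by simp), (h3 i).mono le_rfl (by simp)⟩

end Vale.Agent.P354LC
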