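import Vale.Agent.P354LC.Cof
import Vale.Agent.P354XD.None
import Vale.Agent.P354BO.Q2

/-! KEY: the state is close to Kerr. -/

set_option linter.all false

open scoped ContDiff
open Set Filter Topology

noncomputable section

namespace Vale.Agent.P354LC

open Vale.Agent.P354n (R4)
open Vale.Agent.P354XG Vale.Agent.P354XD Vale.Agent.P354XR Vale.Agent.P354XI Vale.Agent.P354Z
open Vale.Agent.P354XE (Tw rd gin)
open Vale.Agent.P354XO (dn4)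
open Vale.Agent.P354YI (Jb bd_le)
open Vale.Agent.P354YO (sh IsTh)
open Vale.Agent.P354CQ (of1)
open Vale.Agent.P354MG

variable {f : Fx} {v : Va} {q : Qn} {Rb E e0 e0' e Cw : ℝ} {k n m N : ℕ} {C C1 : ℝ → ℝ} {x : E6}
  {F : ∀ O : Set E6, Tw → ℝ → ℝ → Fr (Sm (on O))}

theorem rad_o1 (G : Ge f v q Rb) (hx : x ∈ f.X1 v q) :
    f.a.r1 ≤ (f.ac v q x).2.1 ∧ (f.ac v q x).2.1 ≤ q.c.Rs + 1 := by
  have r : x.2.1 < q.c.Rs := hx.1.2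
  exact ⟨(r_ge G.su (of1 hx)).1, show (P354CQ.glu _ _ _ x).2.1 ≤ _ by
    linarith [(abs_le.1 (G.su.r_near (of1 hx) r)).2, (G.su.nm.k1 G.su.e0).2.2.2]⟩

/-- The metric on the ray through x. -/
theorem bd_ray (G : Ge f v q Rb) (t : Mt f v q k n C E e0) (mC : Monotone C) (C1 : ∀ ρ, 1 ≤ C ρ)
    (W : ∀ u, Wn f v q.c.Rs k e0 q.c.Rs u E) {ρ μ : ℝ} (r : f.z.R1 + 3 ≤ ρ) (hx : x ∈ f.X1 v q)
    (r' : x.2.1 ≤ ρ + 1 / 4) (w : Wn f v q.c.Rs k e0 (ρ + 1 / 4) x.1 μ) :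
    ∃ d, 0 ≤ d ∧ d ≤ C q.c.Rs * E ∧ d ≤ C (ρ + 1) * μ ∧ ∀ x' ∈ f.X1 v q, x'.1 = x.1 →
      x'.2.1 ≤ x.2.1 →
      P354XE.Bd n (f.gE v q - kE v.M v.a v.A v.B) (pj (f.ac v q x')) d := by
  obtain ⟨a1, a2, a3, -⟩ := G.su.nm.rad
  have s : f.z.R1 + 3 ≤ q.c.Rs := by
    have : (f.c q).R1 + 3 ≤ (f.c q).Rs := by linarith
    exact this
  have w' := w.inf (W x.1)
  have c0 := fun ρ => (C1 ρ).trans' zero_le_one
  exact ⟨C (min (ρ + 1 / 4) q.c.Rs) * min μ E, mul_nonneg (c0 _) w'.nn,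
    mul_le_mul (mC (min_le_right _ _)) (min_le_right _ _) w'.nn (c0 _),
    mul_le_mul (mC ((min_le_left _ _).trans (by linarith))) (min_le_left _ _) w'.nn (c0 _),
    fun x' hx' e l => (t.pt _ ⟨le_min (by linarith) s, min_le_right _ _⟩ x' hx'
      (le_min (l.trans r') hx'.1.2.le) _ (min_le_right _ _) (e ▸ w')).1⟩

theorem sq_fin {a b c d μ Cw s : ℝ} (a0 : 0 ≤ a) (ab : a ≤ b) (d0 : 0 ≤ d) (h : d ≤ c * (Cw * s)) :
    (a * d) ^ 2 ≤ (b * c * Cw * s) ^ 2 :=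
  pow_le_pow_left₀ (mul_nonneg a0 d0) ((mul_le_mul ab h d0 (a0.trans ab)).trans_eq (by ring)) 2

theorem key (met : MET) (geo : GEO) : KEY := by
  intro f o F gau ntwo N0 m0
  have sub : |f.z.a| < f.z.M := (o.ok.ok _ le_rfl _ le_rfl).1.1.sub
  have M0 := (abs_nonneg _).trans_lt sub
  have h0 : 0 < f.a.r1 := (P354XA.hor sub).2.1.trans_lt o.nu.r1.1
  obtain ⟨no1, no2⟩ := none_ok f.z.M f.z.a f.a.r1 sub h0
  obtain ⟨m1, no2⟩ := no2 N0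
  obtain ⟨m2, ntwo⟩ := ntwo N0
  obtain ⟨C1, mC1, C11, no2⟩ := one_env no2
  obtain ⟨C2, mC2, C21, ntwo⟩ := two_env ntwo
  obtain ⟨n, n1, n2, n3, n4, n5⟩ : ∃ n, m1 ≤ n ∧ m2 ≤ n ∧ N0 ≤ n ∧ 2 ≤ n ∧ m0 ≤ n :=
    ⟨max m1 (max m2 (max N0 (max 2 m0))), by simp only [← max_le_iff, le_refl]⟩
  obtain ⟨CM, mCM, CM1, met⟩ := met_env (met f o n)
  refine ⟨n, fun k C Cw mC C1' Cw1 => ?_⟩
  obtain ⟨D, hD⟩ : ∃ D : ℝ → ℝ, D = fun ρ => CM ρ * C ρ := ⟨_, rfl⟩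
  have D1 : ∀ ρ, 1 ≤ D ρ := fun ρ => hD ▸ one_le_mul_of_one_le_of_one_le (CM1 ρ) (C1' ρ)
  have mD : Monotone D := hD ▸ mCM.mul mC (fun ρ => zero_le_one.trans (CM1 ρ))
    fun ρ => zero_le_one.trans (C1' ρ)
  have B1 : ∀ ρ, 1 ≤ max (C1 ρ) (C2 ρ) * D (ρ + 1) := fun ρ =>
    one_le_mul_of_one_le_of_one_le (le_max_of_le_left (C11 ρ)) (D1 _)
  refine ⟨fun ρ => max (C1 ρ) (C2 ρ) * D (ρ + 1) * Cw, fun ρ => one_le_mul_of_one_le_of_one_le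
    (B1 ρ) Cw1, le_mul_of_one_le_left (zero_le_one.trans Cw1) (B1 _), fun Rs ε ε0 => ?_⟩
  obtain ⟨eN, eN0, no1⟩ := no1 (Rs + 1)
  obtain ⟨e1, e10, no2⟩ := no2 (Rs + 1)
  obtain ⟨e2, e20, ntwo⟩ := ntwo (Rs + 1)
  obtain ⟨eM, eM0, met⟩ := met Rs
  obtain ⟨δ, δ0, d1, d2, d3, d4, d5, d6, d7⟩ : ∃ δ > 0, δ ≤ eN ∧ δ ≤ e1 ∧ δ ≤ e2 ∧ δ ≤ eM ∧ δ ≤ ε ∧
      δ ≤ (f.z.M - |f.z.a|) / 2 ∧ δ ≤ f.z.M / 4 :=
    ⟨min eN (min e1 (min e2 (min eM (min ε (min ((f.z.M - |f.z.a|) / 2) (f.z.M / 4)))))),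
      by have := sub_pos.2 sub; positivity, by simp only [← le_min_iff, le_refl]⟩
  have K1 := one_le_mul_of_one_le_of_one_le (C11 (Rs + 1)) (D1 Rs)
  refine ⟨D Rs, zero_le_one.trans (D1 _), δ / (C1 (Rs + 1) * D Rs), by positivity,
    fun v q Rb E e0 e0' b0 b1 b2 hs G Z th par hE W bg qk => ?_⟩
  subst hs
  have E0 := (W 0).nn
  have k1 : C1 (q.c.Rs + 1) * (D q.c.Rs * E) ≤ δ := by
    rw [← mul_assoc]; exact (le_div_iff₀' (by positivity)).1 hE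
  have k2 : D q.c.Rs * E ≤ δ :=
    (le_mul_of_one_le_left (mul_nonneg (zero_le_one.trans (D1 _)) E0) (C11 _)).trans k1
  have k3 : C q.c.Rs * E ≤ δ := le_trans (mul_le_mul_of_nonneg_right (hD ▸ le_mul_of_one_le_left
    (zero_le_one.trans (C1' _)) (CM1 _)) E0) k2
  have k4 := par.trans ((le_mul_of_one_le_left E0 (D1 q.c.Rs)).trans k2)
  have k5 := (le_mul_of_one_le_left E0 (D1 q.c.Rs)).trans k2
  obtain ⟨-, g0, pre, rg, seg⟩ := geo f v q Rb o G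
  have t : Mt f v q k n D E e0 := hD ▸ mt_of G Z (fun x hx => (g0 x hx).2.1) mC C1' mCM CM1 met th
    (k4.trans d4) (k3.trans d4)
  have s : f.z.R1 + 3 ≤ q.c.Rs := by
    obtain ⟨a1, a2, a3, -⟩ := G.su.nm.rad
    have : (f.c q).R1 + 3 ≤ (f.c q).Rs := by linarith
    exact this
  have p := fun x (hx : x ∈ f.X1 v q) => t.pt _ ⟨s, le_rfl⟩ x hx hx.1.2.le
  have co : Cone (f.O1 v q) := (rg F e0').co1
  have v1 : ∀ y ∈ f.O1 v q, VacAt (f.gE v q) (pj y) := fun _ ⟨x, hx, e⟩ =>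
    let ⟨W, l, k⟩ := (g0 x (x0_of hx)).2.2
    e ▸ ⟨W, l.isOpen, k, l.met, l.vac⟩
  obtain ⟨ok, w1, P1, P3, un⟩ := no1 _ _ v.M v.a v.A v.B co v1 th (k4.trans d1) fun _ ⟨x, hx, e⟩ =>
    e ▸ ⟨(rad_o1 G hx).1, (rad_o1 G hx).2, bd_le (p x hx E le_rfl (W _)).1 n4 (k2.trans d1)⟩
  have ga := gau _ _ v.M v.a pre
  have DE := mul_nonneg (zero_le_one.trans (D1 q.c.Rs)) E0
  refine ⟨⟨⟨th, k4.trans d5, qk, ok, fun x hx => bd_le (bg x hx) le_rfl (k5.trans d5),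
    fun x hx => bd_le (p x hx E le_rfl (W _)).1 n4 (k2.trans d5),
    fun x hx => (p x hx E le_rfl (W _)).2.1.mono (one_le_two.trans n4) (k2.trans d5)⟩, ?_,
    fun x hx => bd_le (p x hx E le_rfl (W _)).1 n5 (k2.trans d5)⟩,
    ⟨?_, v1, fun y hy => let ⟨W, l, k⟩ := pre.lv y hy; ⟨W, l.isOpen, k, l.met, l.vac⟩, w1, ga.wn,
      P1, P3, un, ga.th, ga.ka, ga.ta, ga.lT⟩,
    fun x hx => ⟨(p x hx E le_rfl (W _)).2.2.1.mono (one_le_two.trans n4) le_rfl,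
      fun a μ l w => ((p x hx μ l w).2.2.2 a).mono n3 le_rfl⟩, fun wo => ⟨?_, ?_⟩⟩
  · rintro _ ⟨x, hx, rfl⟩ an i
    exact (abs_le_of_sq_le_sq' ((P354BO.q2_val _ _ _ _).trans (no2 _ le_rfl _ _ v.M v.a v.A v.B co v1
      th (k4.trans d2) ok _ ⟨x, hx, rfl⟩ an (rad_o1 G hx).1 (rad_o1 G hx).2 _ ⟨DE, k2.trans d2⟩
      (bd_le (p x hx E le_rfl (W _)).1 n1 le_rfl) i))
      (mul_nonneg (zero_le_one.trans (C11 _)) DE)).2.trans (k1.trans d5)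
  · show |v.a| < v.M ∧ v.M ≤ 5 / 4 * f.z.M
    have := abs_add_le (v.a - f.z.a) f.z.a
    rw [sub_add_cancel] at this
    constructor <;> linarith [neg_abs_le (v.M - f.z.M), le_abs_self (v.M - f.z.M),
      abs_nonneg (v.a - f.z.a)]
  · rintro ρ r _ ⟨x, hx, rfl⟩ an r' A Q pa ta i
    obtain ⟨j1, j2⟩ := wo ρ r x hx r' A Q (b2 ▸ pa) ta
    obtain ⟨d, j3, j4, j5, j6⟩ := bd_ray G t mD D1 W r hx j1 j2
    refine (b0 ▸ no2 (min ρ (q.c.Rs + 1)) (min_le_right _ _) _ _ v.M v.a v.A v.B co v1 th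
      (k4.trans d2) ok _ ⟨x, hx, rfl⟩ an (rad_o1 G hx).1 (le_min r' (rad_o1 G hx).2) d
      ⟨j3, j4.trans (k2.trans d2)⟩ (bd_le (j6 x hx rfl le_rfl) n1 le_rfl) i :).trans ?_
    rw [show (f.c q).C = _ from b1]
    exact sq_fin (μ := 0) (zero_le_one.trans (C11 _)) (le_max_of_le_left (mC1 (min_le_left _ _))) j3 j5
  · rintro ρ r _ ⟨x, hx, rfl⟩ an r' fa A Q pa ta i
    obtain ⟨j1, j2⟩ := wo ρ r x hx r' A Q (b2 ▸ pa) ta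
    obtain ⟨d, j3, j4, j5, j6⟩ := bd_ray G t mD D1 W r hx j1 j2
    have m : f.ac v q x ∈ f.O2 v q := (rg F e0').m2 x ⟨⟨hx.1.1, show (f.c q).R1 + 5 / 2 < x.2.1 by
      linarith [G.su.r_gt (of1 hx) fa.1]⟩, hx.2⟩ fa
    refine (b0 ▸ ntwo (min ρ (q.c.Rs + 1)) (min_le_right _ _) _ _ v.M v.a v.A v.B pre th
      (k4.trans d3) _ m an fa.1 fa.2 (le_min r' (rad_o1 G hx).2) d
      ⟨j3, j4.trans (k2.trans d3)⟩ (fun y hy => ?_) i :).trans ?_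
    · obtain ⟨x', hx', rfl, e, l⟩ := seg x hx fa y hy
      exact bd_le (j6 x' hx' e l) n2 le_rfl
    · rw [show (f.c q).C = _ from b1]
      exact sq_fin (μ := 0) (zero_le_one.trans (C21 _)) (le_max_of_le_right (mC2 (min_le_left _ _)))
        j3 j5

end Vale.Agent.P354LC
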