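import Vale.Agent.P354CQ.Shs
import Vale.Agent.P354CS.Pre
import Vale.Agent.P354XL.Lkb
import Vale.Agent.P354YO.Sh

/-! Tools for the geometric part of the link. -/

set_option linter.all false

open scoped ContDiff
open Set Filter Topology Function

noncomputable section

namespace Vale.Agent.P354LC

open Vale.Agent.P354n (R4)
open Vale.Agent.P354XG (E6)
open Vale.Agent.P354XD (pj)
open Vale.Agent.P354XE (rd)
open Vale.Agent.P354XO Vale.Agent.P354CQ Vale.Agent.P354Z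
open Vale.Agent.P354YI (Jb ex_jb)
open Vale.Agent.P354YO (sh)
open Vale.Agent.P354CS (pre ph_eq hp_eq s6_mem pj_s6)

/-- A lower bound for a compact family of injective maps. -/
theorem low_bd {X : Type} [TopologicalSpace X] {K : Set X} (hK : IsCompact K)
    {T : X → R4 →L[ℝ] R4} (c : ContinuousOn T K) (i : ∀ p ∈ K, Injective (T p)) :
    ∃ C, 0 ≤ C ∧ ∀ p ∈ K, ∀ v, ‖v‖ ≤ C * ‖T p v‖ := by
  have k := hK.prod (isCompact_sphere (0 : R4) 1)
  have n : ∀ q ∈ K ×ˢ Metric.sphere (0 : R4) 1, 0 < ‖T q.1 q.2‖ := fun q hq =>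
    norm_pos_iff.2 fun e => by
      have := mem_sphere_zero_iff_norm.1 hq.2
      rw [(injective_iff_map_eq_zero _).1 (i _ hq.1) _ e, norm_zero] at this
      exact zero_ne_one this
  have c' : ContinuousOn (fun q : X × R4 => ‖T q.1 q.2‖) (K ×ˢ Metric.sphere (0 : R4) 1) :=
    ((c.comp continuousOn_fst fun _ h => h.1).clm_apply continuousOn_snd).norm
  obtain ⟨C, hC⟩ := k.exists_bound_of_continuousOn (c'.inv₀ fun q hq => (n q hq).ne')
  refine ⟨|C|, abs_nonneg _, fun p hp v => ?_⟩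
  rcases eq_or_ne v 0 with rfl | v0
  · simp
  have v1 := norm_pos_iff.2 v0
  have m : (p, ‖v‖⁻¹ • v) ∈ K ×ˢ Metric.sphere (0 : R4) 1 :=
    ⟨hp, mem_sphere_zero_iff_norm.2 (norm_smul_inv_norm v0)⟩
  have h1 := ((le_abs_self _).trans (hC _ m)).trans (le_abs_self C)
  have h2 := n _ m
  simp only [Pi.inv_apply, map_smul, norm_smul, norm_inv, norm_norm] at h1 h2
  rw [inv_le_iff_one_le_mul₀ h2, mul_left_comm, ← div_eq_inv_mul, one_le_div v1] at h1
  exact h1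

/-- The sign of the determinant is constant along a line. -/
theorem det_line {O : Set R4} {f : R4 → R4} (h : Dif O f) {p : R4} {s : ℝ} (hs : s ≤ p.1)
    (m : ∀ t ≤ p.1, (t, p.2) ∈ O) (k : 0 < LinearMap.det (fderiv ℝ f (s, p.2) : R4 →ₗ[ℝ] R4)) :
    0 < LinearMap.det (fderiv ℝ f p : R4 →ₗ[ℝ] R4) := by
  have c : ContinuousOn (fun t : ℝ => (fderiv ℝ f (t, p.2)).det) (Icc s p.1) := fun t ht =>
    (ContinuousLinearMap.continuous_det.continuousAt.comp (ContinuousAt.comp (f := fun t : ℝ =>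
      ((t, p.2) : R4)) ((h.sm _ (m t ht.2)).continuousAt_fderiv (by simp))
        (by fun_prop))).continuousWithinAt
  by_contra j
  obtain ⟨t, ht, e⟩ := intermediate_value_Icc' hs c (show (0 : ℝ) ∈ Icc _ _ from ⟨not_lt.1 j, k.le⟩)
  exact (LinearMap.bot_lt_ker_of_det_eq_zero e).ne' (LinearMap.ker_eq_bot.2 (h.fd _ (m t ht.2)))

theorem lift_p6 {p : R4} (h : 0 < rd p) : lift p ∈ P6 ∧ pj (lift p) = p ∧ (lift p).2.1 = rd p ∧
    (lift p).1 = p.1 := by
  obtain ⟨x, x1, x2, rfl⟩ := P354XL.ex_pt h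
  obtain ⟨z, hz, e⟩ := lift_pj x1 x2
  rw [e, P354XR.rd_pj x1 x2]
  exact ⟨om_sc (D := {p | 0 < p.2}) ⟨x1, x2⟩ hz, pj_sc hz x, rfl, rfl⟩

variable {c : Cs} {n : Kn} {Lv : Set ℝ} {a : E6 → E6} {α : E6 → ℝ} {x : E6} {M : ℝ} {A B : ℝ → ℝ}

theorem hp_1 (x : E6) : (hp' M A B x).1 = x.1 - A x.2.1 + 4 * M ^ 2 / x.2.1 := by
  simp only [hp', ko, s6, comp, Pi.neg_apply]; ring
theorem hp_r (x : E6) : (hp' M A B x).2.1 = x.2.1 := rfl
theorem hp_ne (h : x.2.2 ≠ 0) : (hp' M A B x).2.2 ≠ 0 := fun e => h (Prod.ext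
    ((mul_eq_zero.1 (congrArg Prod.fst e)).resolve_left (Complex.exp_ne_zero _))
    ((mul_eq_zero.1 (congrArg Prod.snd e)).resolve_left (Complex.exp_ne_zero _)))
theorem hp_ph (x : E6) : hp' M A B (ph M A B x) = x := by
  rw [ph_eq, hp_eq]; exact P354CS.s6_s6 (by simp) (by simp)
theorem ph_hp (x : E6) : ph M A B (hp' M A B x) = x := by
  rw [ph_eq, hp_eq]; exact P354CS.s6_s6 (by simp) (by simp)

theorem mem_ph {S : Set E6} : x ∈ ph M A B '' S ↔ hp' M A B x ∈ S :=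
  ⟨fun ⟨y, hy, e⟩ => by rwa [← e, hp_ph], fun h => ⟨_, h, ph_hp x⟩⟩

/-- A chart of the straight cone gives a chart of the ingoing cone. -/
theorem cht_ph (hA : ContDiff ℝ ∞ A) (hB : ContDiff ℝ ∞ B) {S : Set E6} {f : E6 → E6}
    (h : Cht S f) : Cht (ph M A B '' S) (f ∘ hp' M A B) := by
  obtain ⟨-, c2, c3, m, -⟩ := pre M 0 A B hA hB
  have s : S ⊆ P6 := fun x hx => h.eqv.pos x hx
  exact (c3.mono (c2.mono h.eqv.toCn s).cn fun _ ⟨y, hy, e⟩ => e ▸ m (s hy)).comp h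
    fun _ hx => mem_ph.1 hx

section
variable (h : Su c n Lv a α)
include h

/-- The far chart on the rays through the anchors. -/
theorem far_cht : Cht (Om {p ∈ Wd (Dv n.r1 n.τ Lv) (Ra c) | Ra c < p.2})
    (ki (4 * c.M ^ 2) ∘ far (Ra c) a α) := by
  obtain ⟨a1, -, -, a4⟩ := h.nm.rad
  have o : IsOpen {p ∈ Wd (Dv n.r1 n.τ Lv) (Ra c) | Ra c < p.2} :=
    h.dk.wop.inter (isOpen_lt continuous_const continuous_snd)
  have s : Om {p ∈ Wd (Dv n.r1 n.τ Lv) (Ra c) | Ra c < p.2} ⊆ Om (Wd (Dv n.r1 n.τ Lv) (Ra c)) :=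
    fun x hx => ⟨hx.1.1, hx.2⟩
  have f := (h.lb.far_dif h.dk).mono (om_open o) s
  have k : Cht (Om {p ∈ Wd (Dv n.r1 n.τ Lv) (Ra c) | Ra c < p.2}) (far (Ra c) a α) := by
    refine ⟨⟨cn_om o fun q hq => by linarith [hq.2], f.sm, fun x hx z => h.lb.far_eqv (s hx),
      fun x hx => ?_⟩, f, fun x hx => ?_⟩
    · simpa [far, er] using h.lb.box.xi_ne (anc_mem (s hx))
    · have r : Ra c < x.2.1 := hx.1.2
      have := (abs_le.1 (h.lb.rad_b (s hx))).1
      rw [abs_of_pos (sub_pos.2 r)] at this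
      rw [show (far (Ra c) a α x).2.1 = rad (Ra c) a α x by simp [far, rad, er]]
      nlinarith [h.nm.e1, h.e0]
  exact k.comp (ki_cht _) fun x hx => ⟨k.pos x hx, k.eqv.ne x hx⟩

variable (hx : x ∈ Om (Dv n.r1 n.τ Lv))
include hx

theorem r_ge : c.r1 ≤ (glu (Ra c) a α x).2.1 ∧
    (c.R1 + 4 ≤ x.2.1 → c.R1 + 3 ≤ (glu (Ra c) a α x).2.1) := by
  obtain ⟨a1, a2, a3, a4⟩ := h.nm.rad
  obtain ⟨-, b1, b2, b3⟩ := h.num
  have r1 : n.r1 < x.2.1 := hx.1.1
  rcases lt_or_ge x.2.1 c.Rs with r | r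
  · have := (abs_le.1 (h.r_near hx r)).1
    exact ⟨by linarith [h.nm.r1], fun _ => by linarith [(h.nm.k1 h.e0).2.2.2]⟩
  · have := (h.r_two hx (by linarith)).1
    exact ⟨by linarith, fun _ => by linarith⟩

/-- The points above the bottom of the straight chart. -/
theorem ab_up (b : bb c x.2.1 + 1 / 4 ≤ x.1) : Est.Ab c (ac c a α x) := by
  obtain ⟨a1, a2, a3, a4⟩ := h.nm.rad
  have a5 := (h.nm.k1 h.e0).2.2.2
  have r1 : n.r1 < x.2.1 := hx.1.1
  have r2 := (r_ge h hx).1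
  rw [ac_ab]
  rcases le_total n.ti x.1 with t | t
  · exact (h.nm.ti _ r2).trans ((min_eq_right t).ge.trans (h.lb.glu_ge h.dk h.id hx))
  rw [(glu_early h.id t).1]
  rcases lt_or_ge x.2.1 c.Rs with r | r
  · have k := h.r_near hx r
    linarith [h.nm.uc (glu (Ra c) a α x).2.1 ⟨r2, by linarith [(abs_le.1 k).2]⟩ x.2.1
      ⟨by linarith [h.num.2.1], by linarith⟩ k]
  rw [bb_far h.nm.ok ((r_ge h hx).2 (by linarith))]
  rw [bb_far h.nm.ok (by linarith)] at b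
  rcases le_total x.1 (-(2 * c.R1)) with j | j
  · rw [h.early j]; linarith
  · linarith [(h.r_two hx (by linarith)).1]

/-- The time of the estimates before the initial time. -/
theorem t_early (t : x.1 ≤ n.ti) : (ac c a α x).1 ≤ x.1 - 4 * c.M ^ 2 / x.2.1 + 1 := by
  obtain ⟨a1, a2, a3, a4⟩ := h.nm.rad
  have e : (ac c a α x).1 = x.1 - 4 * c.M ^ 2 / (glu (Ra c) a α x).2.1 := by
    rw [← (glu_early (R := Ra c) (α := α) h.id t).1]; rfl
  rw [e]
  rcases le_total x.2.1 (Ra c) with r | r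
  · rw [glu_near r, h.id x t]; linarith
  have k := (abs_le.1 (h.lb.glu_r h.dk hx)).2
  rw [max_eq_right (sub_nonneg.2 r)] at k
  have k2 := (h.r_two hx r).1
  have M0 := (ok_num h.nm.ok).2.1
  have R := h.nm.ok.R1
  have e0 := h.e0
  have eM : n.e * c.M ≤ 1 := by
    nlinarith [(h.nm.k0 e0).2, (h.nm.k1 e0).2.2.2]
  generalize (glu (Ra c) a α x).2.1 = s at *
  have r0 : 0 < x.2.1 := by linarith
  have s0 : 0 < s := by linarith
  have j : s - x.2.1 ≤ n.e * x.2.1 := by nlinarith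
  have : 4 * c.M ^ 2 / x.2.1 - 4 * c.M ^ 2 / s ≤ 1 := by
    rw [div_sub_div _ _ r0.ne' s0.ne', div_le_one (by positivity)]
    have := mul_le_mul_of_nonneg_left j (show 0 ≤ 4 * c.M ^ 2 by positivity)
    have := mul_le_mul_of_nonneg_right eM (show 0 ≤ 4 * c.M * x.2.1 by positivity)
    nlinarith [mul_le_mul_of_nonneg_left (show 4 * c.M ≤ s by linarith) r0.le]
  linarith

end

end Vale.Agent.P354LC
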