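import Vale.Agent.P354LC.Lcg
import Vale.Agent.P354YI.Near
import Vale.Agent.P354YA.Inst

/-! The fields lv and col of the link. -/

set_option linter.all false

open scoped ContDiff
open Set Filter Topology Function

noncomputable section

namespace Vale.Agent.P354LC

open Vale.Agent.P354n (R4)
open Vale.Agent.P354XG (E6)
open Vale.Agent.P354XD (pj)
open Vale.Agent.P354XE (Tw Bd gin rd En)
open Vale.Agent.P354XO Vale.Agent.P354CQ Vale.Agent.P354Z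
open Vale.Agent.P354YI (vd lv_vd)
open Vale.Agent.P354MG (lo)

variable {z : Z1} {Rs Rb V dd : ℝ} {m : ℕ} {gc g : Tw} {p : R4} {Lv : Set ℝ}

/-- Below the top of the collar the state is the given metric. -/
theorem g_gc (q : (z.pm Rs Rb).Ok) (t : z.St Rs Rb gc V g) (r : 0 < rd p)
    (b : (z.pm Rs Rb).psi p < 0) : g =ᶠ[𝓝 p] gc :=
  ((q.psi_cd r).continuousAt.eventually_lt continuousAt_const b).mono fun y hy => by
    by_cases k : y ∈ (z.pm Rs Rb).O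
    exacts [t.1.col ⟨k, hy⟩, t.2 k]

/-- The state is a vacuum metric near the points of the end below the lid. -/
theorem lv_en (q : (z.pm Rs Rb).Ok) (C : z.Cg Rs Rb m dd gc) (o : IsOpen Lv)
    (t : ∀ V ∈ Lv, z.St Rs Rb gc V g) (e : p ∈ En z.M z.a z.r1 z.θ)
    (l : (lo z Rs).tau p ∈ Lv) : p ∈ vd g := by
  have d := ((q.En_iff z.θ p).1 e).1
  rcases lt_or_ge ((z.pm Rs Rb).psi p) 0 with b | b
  · obtain ⟨W, w, s⟩ := C.lv
    exact ⟨gc, W, w, s ⟨e, by linarith⟩, g_gc q (t _ l) (q.pos d) b⟩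
  · obtain ⟨V, hV, k⟩ : ∃ V ∈ Lv, (lo z Rs).tau p < V :=
      (Eventually.and (f := 𝓝[>] _) (nhdsWithin_le_nhds (o.mem_nhds l)) self_mem_nhdsWithin).exists
    exact ⟨g, _, (t V hV).1.lv, ⟨⟨d, by linarith⟩, Or.inl k⟩, EventuallyEq.rfl⟩

theorem col_of (q : (z.pm Rs Rb).Ok) (C : z.Cg Rs Rb m dd gc) (t : z.St Rs Rb gc V g) {N : ℕ}
    {η : ℝ} (hm : N ≤ m) (d0 : 0 ≤ dd) (d1 : dd ≤ η) (e : p ∈ En z.M z.a z.r1 z.θ)
    (b : (z.pm Rs Rb).psi p < 0) : g =ᶠ[𝓝 p] gc ∧ Bd N (gc - gin z.M z.a) p η :=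
  ⟨g_gc q t (q.pos ((q.En_iff z.θ p).1 e).1) b, fun j hj v w =>
    (P354YA.sm_bd d0 (C.sml p ⟨e, by linarith⟩) j (hj.trans hm) v w).trans
      (mul_le_mul_of_nonneg_right d1 (by positivity))⟩

namespace Gi
variable {a0 : C1} {c : Cs} {n : Kn} {a : E6 → E6} {α : E6 → ℝ}
  {A B H : ℝ → ℝ} {k ti' ti tw cH us κ : ℝ} {U : Set E6}
  (h : Gi z a0 c n Lv a α A B H k ti' ti tw cH us κ)
include h

theorem pm' (hb : z.R1 + 2 ≤ Rb) : (z.pm c.Rs Rb).Ok := by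
  obtain ⟨a1, a2, a3, -⟩ := h.su.nm.rad
  exact (h.ok.ok c.Rs (by linarith [h.R1]) _ hb).1.1

/-- The field lv. -/
theorem lv (hU : U = ph c.M A B '' Om (D0 c (Dv n.r1 n.τ Lv))) (hb : z.R1 + 2 ≤ Rb)
    (C : z.Cg c.Rs Rb m dd gc) (t : ∀ V ∈ Lv, z.St c.Rs Rb gc V g) :
    ∃ W, P354XV.Lv g W ∧ pj '' U ⊆ W := ⟨_, lv_vd g, fun _ ⟨_, hx, e⟩ =>
  e ▸ lv_en (h.pm' hb) C h.su.op t (h.dom hU hx).1 (h.dom hU hx).2⟩

omit h in
/-- The window lies in the collar if the collar is high. -/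
theorem rb_col (o : z.Ok) (hs : z.R1 + 1 ≤ Rs) (T : ℝ) : ∀ᶠ Rb in atTop, z.R1 + 2 ≤ Rb ∧
    ∀ p : R4, z.r1 < rd p → p.1 ≤ T → (z.pm Rs Rb).psi p < -1 := by
  filter_upwards [be_big o hs T, eventually_ge_atTop (z.R1 + 2)] with Rb b1 b2
  have q := (o.ok Rs hs Rb b2).1.1
  refine ⟨b2, fun p h1 h2 => ?_⟩
  have r0 := q.pos h1
  rw [q.psi_lt r0]
  linarith [b1 (rd p), mul_pos q.del.1 r0]

/-- The field col. -/
theorem col (hb : z.R1 + 2 ≤ Rb) (C : z.Cg c.Rs Rb m dd gc) (t : z.St c.Rs Rb gc V g) {η : ℝ}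
    (hm : c.N0 ≤ m) (d0 : 0 ≤ dd) (d1 : dd ≤ η)
    (b : ∀ p : R4, z.r1 < rd p → p.1 ≤ tw + 6 → (z.pm c.Rs Rb).psi p < -1) :
    ∀ p ∈ En z.M z.a z.r1 z.θ, rd p ≤ c.t1 + 6 → p.1 ≤ tw + 6 →
      g =ᶠ[𝓝 p] gc ∧ Bd c.N0 (gc - gin z.M z.a) p η := fun p e _ k =>
  col_of (h.pm' hb) C t hm d0 d1 e (by linarith [b p (((h.pm' hb).En_iff z.θ p).1 e).1 k])

end Gi

end Vale.Agent.P354LC
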