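import Vale.Agent.P354LC.Lch
import Vale.Agent.P354MG.Asm

/-! The link for the state of the assembly. -/

set_option linter.all false

open scoped ContDiff
open Set Filter Topology

noncomputable section

namespace Vale.Agent.P354LC

open Vale.Agent.P354n (R4)
open Vale.Agent.P354XG (E6 Sm)
open Vale.Agent.P354XD (pj Fr)
open Vale.Agent.P354XE (Tw rd)
open Vale.Agent.P354XO Vale.Agent.P354CQ Vale.Agent.P354Z
open Vale.Agent.P354YI (Jb)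
open Vale.Agent.P354YO (sh)
open Vale.Agent.P354MG (Fx Va Qn Ge Lk)

variable {f : Fx} {v : Va} {q : Qn} {κ : ℝ} {x : E6}

theorem gi_of (o : f.Ok) (s : Su (f.c q) (f.n q) v.Lv (f.na v) (f.al v))
    (kk : Kk f.z.M f.a.r1 q.c.Rs κ q.k f.A) : Gi f.z f.a (f.c q) (f.n q) v.Lv (f.na v) (f.al v)
      f.A f.B f.H f.k f.t0 f.ti f.tw f.cH f.us κ :=
  ⟨o.ok, o.nu, rfl, rfl, rfl, rfl, rfl, rfl, s, rfl, rfl,
    show f.t0 ≤ f.ti by linarith [o.nu.hti, o.nu.cH0], fun _ h => if_pos h, kk⟩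

theorem pj_P (h : x ∈ P6) : pj (f.P x) = f.S (pj x) := by
  rw [Fx.P, P354CS.ph_eq, P354CS.pj_s6 h]; rfl

/-- Points with an early time of the estimates are early. -/
theorem Gi.lt_ti {z : Z1} {a0 : C1} {c : Cs} {n : Kn} {Lv : Set ℝ} {a : E6 → E6} {α : E6 → ℝ}
    {A B H : ℝ → ℝ} {k ti' ti tw cH us : ℝ} (h : Gi z a0 c n Lv a α A B H k ti' ti tw cH us κ)
    (hx : x ∈ Om (Dv n.r1 n.τ Lv)) (t : (ac c a α x).1 ≤ c.t1) : x.1 < n.ti := by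
  have e : (ac c a α x).1 = (glu (Ra c) a α x).1 - 4 * c.M ^ 2 / (glu (Ra c) a α x).2.1 := rfl
  have m : 4 * z.M ^ 2 / (glu (Ra c) a α x).2.1 ≤ 4 * z.M ^ 2 / a0.r1 :=
    div_le_div_of_nonneg_left (by positivity) h.r0.1 (h.r1 ▸ (r_ge h.su hx).1)
  have k := h.su.lb.glu_ge h.su.dk h.su.id hx
  rw [h.M] at e
  by_contra j
  rw [min_eq_right (not_lt.1 j)] at k
  linarith [h.ti, h.nu.hti', h.nu.cH0, h.t1]

/-- **The link.** -/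
theorem lk_of {Rb Cl e e' e1 dd e0 : ℝ} {k L m : ℕ} {gc : Tw}
    {F : ∀ O : Set E6, Tw → ℝ → ℝ → Fr (Sm (P354XI.on O))} (o : f.Ok) (G : Ge f v q Rb)
    (kk : Kk f.z.M f.a.r1 q.c.Rs κ q.k f.A)
    (R : Rg (f.c q) (f.n q) v.Lv (f.na v) (f.al v) (f.E v q F e0))
    (S : Sts f.z q.c.Rs Rb k L m e1 e' dd gc v.Lv v.g) (ne : v.Lv.Nonempty) (hm : q.b.N0 ≤ m)
    (hd : dd ≤ Cl * e) (c1 : f.cH ≤ Cl) (c2 : |f.tw| ≤ Cl)
    (b : ∀ p : R4, f.z.r1 < rd p → p.1 ≤ f.tw + 6 → (f.z.pm q.c.Rs Rb).psi p < -1)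
    (met : ∀ x ∈ f.X1 v q, Jb 1 (fderiv ℝ (dn4 (f.ch v q))) (f.S (pj x)) Cl ∧ (x.1 < f.ti →
      Jb q.b.N0 (fun y => sh f.A f.B (dn4 (f.ch v q) y) - y) (f.S (pj x)) (Cl * e))) :
    Lk f.z Rb (f.c q) gc v.g (f.E v q F e0) κ Cl e := by
  have h := gi_of o G.su kk
  obtain ⟨V, hV⟩ := ne
  have N := o.nu
  have k : ∀ x ∈ f.U v q, x.2.1 < q.c.Rs → ∃ y ∈ f.X1 v q, f.P y = x ∧ pj x = f.S (pj y) :=
    fun _ ⟨y, hy, e⟩ r => ⟨y, ⟨⟨hy.1, by subst e; exact r⟩, hy.2⟩, e, e ▸ pj_P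
      ⟨show 0 < y.2.1 by linarith [h.r0.1, h.r0.2, show f.z.r1 < y.2.1 from hy.1.1.1], hy.2⟩⟩
  refine ⟨f.U v q, f.ch v q, f.A, f.B, f.tw, (N.hA _ ⟨by linarith [N.r1.2.1, N.r1.2.2.2.1],
    by linarith⟩).trans c1, N.B0, c2, h.lcg rfl rfl R rfl rfl
      (h.lv rfl G.rb S.cg fun V hV => (S.st V hV).1) (fun x hx r t => ?_)
      (h.col G.rb S.cg (S.st V hV).1 hm S.nn hd b) fun x hx r => ?_⟩
  · obtain ⟨y, hy, rfl, e⟩ := k x hx r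
    rw [e]
    refine (met y hy).2 (h.lt_ti (of1 hy) ?_)
    have t' : (f.ac v q (hp' f.z.M f.A f.B (ph f.z.M f.A f.B y))).1 ≤ (f.c q).t1 := t
    rwa [hp_ph] at t'
  · obtain ⟨y, hy, rfl, e⟩ := k x hx r
    rw [e]
    exact ⟨(met y hy).1.zero, (Jb.fd (m := 0) (met y hy).1).zero⟩

end Vale.Agent.P354LC
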