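import Vale.Agent.P354YI.Met

/-!
Jets of the solutions of ordinary differential equations along the lines of the first coordinate.
-/

set_option maxSynthPendingDepth 3

open scoped ContDiff
open Set Filter Topology

noncomputable section

namespace Vale.Agent.P354LC

open Vale.Agent.P354n (R4)
open Vale.Agent.P354XE (eT)
open Vale.Agent.P354YI
open ContinuousLinearMap (compL inr)

/-- Space. -/
abbrev Y3 : Type := ℝ × ℝ × ℝ

/-- The sets S j are unions of vertical segments of height at most T over t = 0. -/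
def Sgm {J : Type} (T : ℝ) (S : J → Set R4) : Prop :=
  ∀ j, ∀ p ∈ S j, |p.1| ≤ T ∧ ∀ s ∈ uIcc 0 p.1, (s, p.2) ∈ S j

/-- u solves the equation near p. -/
def OSol {V : Type} [NormedAddCommGroup V] [NormedSpace ℝ V] (F : R4 × V → V) (u : R4 → V)
    (p : R4) : Prop := ContDiffAt ℝ ∞ u p ∧ ∀ᶠ z in 𝓝 p, fderiv ℝ u z eT = F (z, u z)

theorem gron_t {V : Type} [NormedAddCommGroup V] [NormedSpace ℝ V] {u : R4 → V} {p : R4}
    {T C δ : ℝ} (hC : 0 < C) (hT : |p.1| ≤ T) (h0 : ‖u (0, p.2)‖ ≤ δ)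
    (h : ∀ s ∈ uIcc 0 p.1, DifferentiableAt ℝ u (s, p.2) ∧
      ‖fderiv ℝ u (s, p.2) eT‖ ≤ C * (‖u (s, p.2)‖ + 1)) :
    ‖u p‖ ≤ Real.exp (C * (T + 1)) * (δ + 1) := by
  have T0 := (abs_nonneg _).trans hT
  have m : ∀ t ∈ Icc (0 : ℝ) 1, t * p.1 ∈ uIcc 0 p.1 := fun t ht => by
    rw [← segment_eq_uIcc, segment_eq_image]
    exact ⟨t, ht, by simp⟩
  have d : ∀ t ∈ Icc (0 : ℝ) 1, HasDerivAt (fun t : ℝ => u (t * p.1, p.2))
      (p.1 • fderiv ℝ u (t * p.1, p.2) eT) t := fun t ht => by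
    rw [← map_smul]
    exact (h _ (m t ht)).1.hasFDerivAt.comp_hasDerivAt t
      ((((hasDerivAt_id t).mul_const p.1).prodMk (hasDerivAt_const t p.2)).congr_deriv
        (by simp [eT]))
  have k := norm_le_gronwallBound_of_norm_deriv_right_le (K := C * (T + 1)) (ε := C * (T + 1))
    (δ := δ) (fun t ht => (d t ht).continuousAt.continuousWithinAt)
    (fun t ht => (d t (Ico_subset_Icc_self ht)).hasDerivWithinAt) (by simpa using h0)
    (fun t ht => by
      rw [norm_smul]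
      exact (mul_le_mul (hT.trans (le_add_of_nonneg_right zero_le_one))
        (h _ (m t (Ico_subset_Icc_self ht))).2 (norm_nonneg _) (by positivity)).trans_eq (by ring))
    1 (right_mem_Icc.2 zero_le_one)
  rw [gronwallBound_of_K_ne_0 (by positivity), div_self (by positivity)] at k
  simp only [sub_zero, one_mul, mul_one] at k
  linarith

/-- The equation for the derivative in the space directions. -/
def Fx {V : Type} [NormedAddCommGroup V] [NormedSpace ℝ V] (F : R4 × V → V)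
    (z : R4 × V × (Y3 →L[ℝ] V)) : V × (Y3 →L[ℝ] V) :=
  (F (z.1, z.2.1), (fderiv ℝ F (z.1, z.2.1)).comp ((inr ℝ ℝ Y3).prod z.2.2))

theorem OSol.ext {V : Type} [NormedAddCommGroup V] [NormedSpace ℝ V] {F : R4 × V → V} {u : R4 → V}
    {p : R4} (h : OSol F u p) (hF : ContDiffAt ℝ ∞ F (p, u p)) :
    OSol (Fx F) (fun z => (u z, (fderiv ℝ u z).comp (inr ℝ ℝ Y3))) p := by
  have k := (at_fd h.1).clm_comp (contDiffAt_const (c := inr ℝ ℝ Y3))
  refine ⟨h.1.prodMk k, ?_⟩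
  filter_upwards [h.2.eventually_nhds, (h.1.of_le (le_inf 2)).eventually (by simp), ev_dif k,
    (continuousAt_id.prodMk h.1.continuousAt).eventually (ev_dif hF)] with z h1 h2 h3 h4
  have d1 := h2.differentiableAt two_ne_zero
  have d2 := (h2.fderiv_right (m := 1) le_rfl).differentiableAt one_ne_zero
  rw [d1.fderiv_prodMk h3]
  refine Prod.ext h1.self_of_nhds (ContinuousLinearMap.ext fun w => ?_)
  have e1 : fderiv ℝ (fun z => fderiv ℝ u z eT) z = _ := (EventuallyEq.fderiv_eq h1).trans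
    (h4.hasFDerivAt.comp z ((hasFDerivAt_id z).prodMk d1.hasFDerivAt)).fderiv
  have e2 := congrArg (· (inr ℝ ℝ Y3 w)) e1
  rw [fderiv_clm_apply d2 (differentiableAt_const _)] at e2
  rw [ContinuousLinearMap.prod_apply, fderiv_clm_comp d2 (differentiableAt_const _)]
  simp only [fderiv_fun_const, Pi.zero_apply, ContinuousLinearMap.comp_zero, zero_add,
    ContinuousLinearMap.flip_apply, ContinuousLinearMap.comp_apply, compL,
    ContinuousLinearMap.prod_apply, ContinuousLinearMap.id_apply] at e2 ⊢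
  exact (h2.isSymmSndFDerivAt (by simp) _ _).trans e2

theorem fd_split {V : Type} [NormedAddCommGroup V] [NormedSpace ℝ V] (L : R4 →L[ℝ] V) :
    L = (ContinuousLinearMap.fst ℝ ℝ Y3).smulRight (L eT) +
      (L.comp (inr ℝ ℝ Y3)).comp (ContinuousLinearMap.snd ℝ ℝ Y3) := by
  refine ContinuousLinearMap.ext fun v => ?_
  simp only [add_apply, ContinuousLinearMap.smulRight_apply, ContinuousLinearMap.comp_apply,
    ← map_smul, ← map_add]
  congr 1
  simp [eT]

theorem oj_lin {J E V : Type} [NormedAddCommGroup E] [NormedSpace ℝ E] [NormedAddCommGroup V]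
    [NormedSpace ℝ V] (m : ℕ) (x : J → E) (L : E →L[ℝ] V) :
    Oj m x (fun _ => fderiv ℝ L) 1 := (Oj.cst L).congr' fun _ _ => L.fderiv

theorem oj_id {J E : Type} [NormedAddCommGroup E] [NormedSpace ℝ E] (m : ℕ) {x : J → E} {μ : J → ℝ}
    (h1 : ∀ j, 1 ≤ μ j) (h : ∃ C, ∀ j, ‖x j‖ ≤ C * μ j) : Oj m x (fun _ z => z) μ := by
  have h0 : Oj 0 x (fun _ z => z) μ := .zero (fun _ => contDiffAt_id)
    (fun j => zero_le_one.trans (h1 j)) h
  cases m with
  | zero => exact h0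
  | succ m => exact h0.succ ((oj_lin m x (.id ℝ E)).mono le_rfl h1)

theorem oj_fx {J V : Type} [NormedAddCommGroup V] [NormedSpace ℝ V] {m : ℕ}
    {x : J → R4 × V × (Y3 →L[ℝ] V)} {F : J → R4 × V → V} {μ : J → ℝ} (h1 : ∀ j, 1 ≤ μ j)
    (h : ∃ C, ∀ j, ‖(x j).2.2‖ ≤ C * μ j) (hF : Oj (m + 1) (fun j => ((x j).1, (x j).2.1)) F 1) :
    Oj m x (fun j => Fx (F j)) μ := by
  let L : R4 × V × (Y3 →L[ℝ] V) →L[ℝ] R4 × V :=
    (ContinuousLinearMap.fst ℝ _ _).prod ((ContinuousLinearMap.fst ℝ _ _).comp (.snd ℝ _ _))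
  let L2 : R4 × V × (Y3 →L[ℝ] V) →L[ℝ] (Y3 →L[ℝ] V) :=
    (ContinuousLinearMap.snd ℝ _ _).comp (.snd ℝ _ _)
  have s : ∀ j, ContDiffAt ℝ ∞ ((fun _ : J => ⇑L) j) (x j) := fun _ => L.contDiff.contDiffAt
  have a1 := Oj.comp s m (oj_lin _ x L) hF.pred
  have a2 := Oj.comp s m (oj_lin _ x L) hF.fd
  have a3 := Oj.comp (f := fun _ => L2) (fun _ => L2.contDiff.contDiffAt) m (oj_lin _ x L2)
    (oj_id m h1 h)
  have a4 := (((Oj.cst (inr ℝ ℝ Y3)).mono le_rfl h1).pair a3).clm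
    (ContinuousLinearMap.prodL ℝ : _ ≃L[ℝ] (Y3 →L[ℝ] R4 × V)).toContinuousLinearMap
  exact (a1.mono le_rfl h1).pair (a2.cr a4)

theorem oj_gr {J E V W : Type} [NormedAddCommGroup E] [NormedSpace ℝ E] [NormedAddCommGroup V]
    [NormedSpace ℝ V] [NormedAddCommGroup W] [NormedSpace ℝ W] {m : ℕ} {x : J → E} {u : J → E → V}
    {G : J → E × V → W} {μ : J → ℝ} (h : Oj m x u 1) (hG : Oj m (fun j => (x j, u j (x j))) G μ) :
    Oj m x (fun j z => G j (z, u j z)) μ := by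
  have s := fun j => contDiffAt_id.prodMk (h.sm j)
  cases m with
  | zero => exact .zero (fun j => at_comp (hG.sm j) (s j)) hG.nn (hG.val.imp fun _ h => h.2)
  | succ m =>
    refine Oj.comp s _ ((((Oj.cst (.id ℝ E)).pair h.fd).clm (ContinuousLinearMap.prodL ℝ :
      _ ≃L[ℝ] (E →L[ℝ] E × V)).toContinuousLinearMap).congr fun j => ?_) hG
    filter_upwards [ev_dif (h.sm j)] with z hz
    exact ((hasFDerivAt_id z).prodMk hz.hasFDerivAt).fderiv

/-- The jets of solutions. -/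
theorem ode_jet {J : Type} {T : ℝ} {S : J → Set R4} (hS : Sgm T S) (k : ℕ) :
    ∀ {V : Type} [NormedAddCommGroup V] [NormedSpace ℝ V] {F : J → R4 × V → V} {u : J → R4 → V},
      (∀ j, ∀ p ∈ S j, OSol (F j) (u j) p) → Os 0 S u 1 →
      Oj k (fun i : {i : J × R4 // i.2 ∈ S i.1} => (i.1.2, u i.1.1 i.1.2)) (fun i => F i.1.1) 1 →
      Oj k (fun i : {i : J × R4 // i.2 ∈ S i.1} => i.1.2.2) (fun i x => u i.1.1 (0, x)) 1 →
      Os k S u 1 := by
  induction k with
  | zero => exact fun _ h _ _ => h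
  | succ k ih =>
    intro V _ _ F u hu h0 hF hi
    let I := {i : J × R4 // i.2 ∈ S i.1}
    let A : J → R4 → Y3 →L[ℝ] V := fun j z => (fderiv ℝ (u j) z).comp (inr ℝ ℝ Y3)
    have s := fun j p hp => (hu j p hp).ext (hF.sm ⟨(j, p), hp⟩)
    have b0 : ∀ i : I, (0, i.1.2.2) ∈ S i.1.1 := fun i =>
      (hS _ _ i.2).2 0 left_mem_uIcc
    have i1 : Oj k (fun i : I => i.1.2.2) (fun i x => A i.1.1 (0, x)) 1 := hi.fd.congr fun i => by
      have c : ContDiffAt ℝ ∞ (fun x : Y3 => ((0, x) : R4)) i.1.2.2 := by fun_prop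
      filter_upwards [fd_comp (G := u i.1.1) (hu _ _ (b0 i)).1 c] with y hy
      rw [hy, show fderiv ℝ (fun x : Y3 => ((0, x) : R4)) y = _ from (inr ℝ ℝ Y3).fderiv]
    obtain ⟨C, c0, hC⟩ := (oj_fx (m := 0) (x := fun i : I => (i.1.2, u i.1.1 i.1.2, A i.1.1 i.1.2))
      (μ := fun i => ‖A i.1.1 i.1.2‖ + 1) (fun i => le_add_of_nonneg_left (norm_nonneg _))
      ⟨1, fun i => by simp⟩ (hF.le (by omega))).val
    obtain ⟨B, -, hB⟩ := i1.val
    have a0 : ∀ i : I, ‖A i.1.1 i.1.2‖ ≤ Real.exp ((C + 1) * (T + 1)) * (B + 1) * 1 := fun i => by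
      refine (gron_t (by positivity) (hS _ _ i.2).1 ((hB i).trans_eq (mul_one _))
        fun t ht => ?_).trans_eq (mul_one _).symm
      have m := (hS _ _ i.2).2 t ht
      have d := (ev_dif (s _ _ m).1).self_of_nhds
      refine ⟨d.snd, ?_⟩
      rw [show fderiv ℝ (A i.1.1) (t, i.1.2.2) = _ from d.hasFDerivAt.snd.fderiv,
        ContinuousLinearMap.comp_apply, (s _ _ m).2.self_of_nhds]
      exact (norm_snd_le _).trans ((hC ⟨(i.1.1, t, i.1.2.2), m⟩).trans
        (mul_le_mul_of_nonneg_right (le_add_of_nonneg_right zero_le_one) (by positivity)))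
    have k1 := ih s (h0.pair (.zero (fun i => (s _ _ i.2).1.snd) (fun _ => zero_le_one) ⟨_, a0⟩))
      (oj_fx (fun _ => le_rfl) ⟨_, a0⟩ hF) (hi.pred.pair i1)
    have k2 := oj_gr (k1.clm (.fst ℝ _ _)) hF.pred
    refine h0.succ (((k2.clm (ContinuousLinearMap.smulRightL ℝ R4 V (.fst ℝ ℝ Y3))).add
      ((k1.clm (.snd ℝ _ _)).cl (Oj.cst (.snd ℝ ℝ Y3)))).congr fun i => ?_)
    filter_upwards [(hu _ _ i.2).2] with z hz
    exact (fd_split _).trans (by rw [hz]; rfl)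

end Vale.Agent.P354LC
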