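import Vale.Agent.P354LC.Lkf

/-! Small pieces of the assembly of the state. -/

set_option linter.all false

open scoped ContDiff
open Set Filter Topology

noncomputable section

namespace Vale.Agent.P354LC

open Vale.Agent.P354n (R4)
open Vale.Agent.P354XG Vale.Agent.P354XD Vale.Agent.P354XR Vale.Agent.P354XI Vale.Agent.P354Z
open Vale.Agent.P354XE (Tw rd gin)
open Vale.Agent.P354CQ (Nm Lb Tz fz tz w0 nm_ex Kn)
open Vale.Agent.P354MG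

variable {f : Fx} {v : Va} {q : Qn} {Rs Rb E E' e0 ρ u μ μ' : ℝ} {k n : ℕ} {C : ℝ → ℝ}

theorem in_mono (h : In f v Rs Rb k n C E e0) (e : E ≤ E') : In f v Rs Rb k n C E' e0 :=
  ⟨h.toGm, h.nth, h.par.trans e, h.ny, ⟨h.sz.1.trans e, le_rfl, fun x hx t =>
    ⟨(h.sz.2.2 x hx t).1.trans (pow_le_pow_left₀ h.sz.1 e 2),
      P354YI.bd_le (h.sz.2.2 x hx t).2 le_rfl e⟩⟩, h.s0, h.b0⟩

theorem wn_mono (h : Wn f v Rs k e0 ρ u μ) (e : μ ≤ μ') : Wn f v Rs k e0 ρ u μ' :=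
  ⟨h.nn.trans e, fun j => (h.early j).trans e, fun j x hx t =>
    (h.eta j x hx t).trans (pow_le_pow_left₀ h.nn e 2), fun j t m l => (h.par j t m l).trans e⟩

theorem wn_rho {ρ' : ℝ} (h : Wn f v Rs k e0 ρ u μ) (e : ρ' ≤ ρ) : Wn f v Rs k e0 ρ' u μ :=
  ⟨h.nn, h.early, fun j x hx t => h.eta j x ⟨hx.1, hx.2.1, hx.2.2.trans e⟩ t, h.par⟩

theorem ge_of (g : Gm f v q.c.Rs Rb) (rb : f.z.R1 + 2 ≤ Rb) (nm : Nm (f.c q) (f.n q))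
    (o : f.Ok) (lb : Lb (f.D q.c.Rs v.Lv) f.R q.e w0 (f.na v) (f.al v))
    (lf : ∀ x ∈ P354XO.Om (P354CQ.cut (f.D q.c.Rs v.Lv) (f.R + 1 / 2)),
      pj (f.na v x) = f.phi v (pj x)) : Ge f v q Rb :=
  ⟨g, rb, ⟨nm, g.op, g.lw, lb, fun _ h => if_pos h,
    fun x (h : x.1 ≤ -(2 * f.z.R1)) => if_pos (by linarith [o.nu.us3.1])⟩, lf⟩

/-- **The constants of the chart**, in the order of CHART. -/
theorem q_ex (o : f.Ok) (b : C2) (c0 : 1 ≤ b.c0) (C1 : ∀ ρ, 1 ≤ b.C ρ) : ∃ L Rc, ∀ c : C3,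
    Rc ≤ c.R2 → 10 * c.R2 ≤ c.Rs → f.z.R1 + 4 ≤ c.Rs ∧ f.a.t1 + 6 ≤ c.Rs ∧ ∀ B0 : ℝ, ∀ κ > 0,
      ∀ ε > 0, ∃ q : Qn, q.b = b ∧ q.c = c ∧ q.L = L ∧ B0 ≤ q.d.B ∧ q.k ≤ ε ∧ 0 < q.e ∧
        q.e ≤ 1 / 8 ∧ Nm (f.c q) (f.n q) ∧ Kk f.z.M f.a.r1 c.Rs κ q.k f.A := by
  have N := o.nu
  obtain ⟨a1, a2, a3, a4, a5⟩ := N.r1
  have s := (o.ok.ok _ le_rfl _ le_rfl).1.1.sub
  have h0 : 0 < f.a.r1 := (P354XA.hor s).2.1.trans_lt a1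
  have M0 : 0 < f.z.M := (P354XA.hor s).1
  have k0 := N.ok b ⟨0, 10 * f.z.R1, 100 * f.z.R1⟩ ⟨1, 1⟩ c0 C1 le_rfl (by norm_num; linarith)
    one_pos le_rfl le_rfl
  obtain ⟨L, hL⟩ := P354TS.tz_ok f.z f.A f.B o.ok N.th
  obtain ⟨Rc, hR⟩ := nm_ex f.z f.a b L (fz f.z f.A) h0 a2 a3 k0.bts.continuous
  refine ⟨L, max Rc (max (10 * f.z.R1) |f.a.t1 + 6|), fun c hc hs => ?_⟩
  simp only [max_le_iff] at hc
  have t := le_abs_self (f.a.t1 + 6)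
  refine ⟨by linarith [hc.2.1], by linarith [hc.2.1, hc.2.2], fun B1 κ κ0 ε ε0 => ?_⟩
  obtain ⟨c1, T, -⟩ := hL c.Rs (by linarith [hc.2.1])
  obtain ⟨B0, F, hB⟩ := hR c hc.1 c1 _ T
  have c10 := T.c0
  have ok := N.ok b c ⟨max B0 (max B1 1), min 1 (c1 / 1600)⟩ c0 C1 hc.2.1 hs (by positivity)
    (min_le_left _ _) (le_max_of_le_right (le_max_right _ _))
  obtain ⟨k', k1, hk⟩ := ex_kk f.z.M c.Rs h0 N.sA.continuous κ0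
  obtain ⟨k, k2, e, e0, he⟩ := hB _ (le_max_left _ _) (min_le_right _ _) ok f.ti
    (by linarith [N.hti, N.hti', N.cH0]) (min k' ε) (by positivity)
  exact ⟨⟨b, c, _, L, c1, F, k, min e (1 / 8)⟩, rfl, rfl, rfl, le_max_of_le_right (le_max_left _ _),
    k2.2.trans (min_le_right _ _), by positivity, min_le_right _ _, he _ (min_le_left _ _),
    hk _ (k2.2.trans (min_le_left _ _))⟩

/-- **The layer.** -/
theorem lay_of (Y : LAYH) (o : f.Ok) {F : ∀ O : Set E6, Tw → ℝ → ℝ → Fr (Sm (on O))}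
    (l : P354F2.Lay f.z.M f.z.a (f.z.R1 + 3) F) (K : ℕ) : ∃ m B, ∃ ε > 0,
    ∀ v q Rb k L m' e1 e dd gc e0 (E : Est), q.c.K = K → B ≤ q.d.B → m ≤ m' → Ge f v q Rb →
      P354F2.Pre f.z.M (f.z.R1 + 3) (f.O2 v q) (f.gE v q) →
      Sts f.z q.c.Rs Rb k L m' e1 e dd gc v.Lv v.g → |v.M - f.z.M| + |v.a - f.z.a| ≤ ε → dd ≤ ε →
      dd ≤ e0 → E = f.E v q F e0 → ∀ x ∈ E.O2, An x → 4 * (f.c q).R1 ≤ x.2.1 →
        0 ≤ uu (f.c q).M x + x.2.1 → uu (f.c q).M x + x.2.1 ≤ (f.c q).del * x.2.1 → ∀ i,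
        q2 (ll (hp _) (E.p2 (f.c q))) x ((f.c q).K + 2) (E.d2 (f.c q) i) ≤ ((f.c q).B *
          (E.e0 + |E.M - (f.c q).M| + |E.a - (f.c q).a|) / x.2.1 ^ dm i) ^ 2 := by
  obtain ⟨m, C, ε, ε0, h⟩ := l (K + 2)
  refine ⟨m, |C|, ε, ε0, fun v q Rb k L m' e1 e dd gc e0 E hK hB hm G P S par d1 d2 hE x hx an r
    u1 u2 i => ?_⟩
  subst hE hK
  have a1 : 10 ≤ f.z.R1 := G.su.nm.rad.1
  have r : 4 * f.z.R1 ≤ x.2.1 := r
  have dl : f.a.del ≤ 1 / 10 := G.su.nm.ok.del.2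
  have u2 : uu f.z.M x + x.2.1 ≤ f.a.del * x.2.1 := u2
  refine (h _ _ gc v.M v.a f.A f.B P o.nu.th par x hx an (by linarith) u1 (by nlinarith) dd
    ⟨S.nn, d1⟩ (fun y hy => ?_) i).trans ?_
  · obtain ⟨k1, k2⟩ := Y f v q Rb k L m' e1 e dd gc o G S x hx r u1 u2 y hy
    exact ⟨k1, fun j hj => k2 j (hj.trans hm)⟩
  · have d0 := S.nn
    have r0 : 0 < x.2.1 := by linarith
    rw [← sq_abs, abs_div, abs_mul, abs_of_pos (pow_pos r0 _), abs_of_nonneg (a := dd + _ + _)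
      (by positivity)]
    refine pow_le_pow_left₀ (by positivity) (div_le_div_of_nonneg_right (mul_le_mul hB
      (show _ ≤ e0 + |v.M - f.z.M| + |v.a - f.z.a| by linarith) (by positivity)
      ((abs_nonneg _).trans hB)) (by positivity)) 2

end Vale.Agent.P354LC
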