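import Vale.Agent.P354LC.En

/-!
Bounds for mixed derivatives in space-time, for pairs of functions.
-/

set_option maxSynthPendingDepth 3
set_option backward.isDefEq.respectTransparency false

open scoped ContDiff
open Set Filter Topology

namespace Vale.Agent.P354LC

open Vale.Agent.P354H

/-- The derivative in the direction v. -/
noncomputable def dv {F : Type} [NormedAddCommGroup F] [NormedSpace ℝ F] (v : ℝ × X3)
    (f : ℝ × X3 → F) (p : ℝ × X3) : F := fderiv ℝ f p v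

/-- A coordinate direction; the time direction lowers the counter. -/
def Dir (a : ℕ) (v : ℝ × X3) (b : ℕ) : Prop :=
  (∃ j, v = (0, e j) ∧ b = a) ∨ (v = (1, 0) ∧ a = b + 1)

theorem Dir.le {a b : ℕ} {v : ℝ × X3} (h : Dir a v b) : b ≤ a := by
  rcases h with ⟨_, _, h⟩ | ⟨_, h⟩ <;> omega

theorem Dir.up {a a' b : ℕ} {v : ℝ × X3} (h : Dir a v b) (ha : a ≤ a') :
    ∃ b', Dir a' v b' ∧ b ≤ b' := by
  rcases h with ⟨j, h, h'⟩ | ⟨h, h'⟩
  · exact ⟨a', Or.inl ⟨j, h, rfl⟩, by omega⟩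
  · exact ⟨a' - 1, Or.inr ⟨h, by omega⟩, by omega⟩

/-- The derivatives of order at most k with at most a time derivatives are at most c on O. -/
def Pk {F : Type} [NormedAddCommGroup F] [NormedSpace ℝ F] (O : Set (ℝ × X3)) :
    ℕ → ℕ → (ℝ × X3 → F) → ℝ → Prop
  | 0, _, f, c => ∀ p ∈ O, ‖f p‖ ≤ c
  | k + 1, a, f, c => (∀ p ∈ O, ‖f p‖ ≤ c) ∧ ∀ v b, Dir a v b → Pk O k b (dv v f) c

variable {F G H : Type} [NormedAddCommGroup F] [NormedSpace ℝ F] [NormedAddCommGroup G]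
  [NormedSpace ℝ G] [NormedAddCommGroup H] [NormedSpace ℝ H] {O : Set (ℝ × X3)} {k a : ℕ}
  {f f' : ℝ × X3 → F} {g g' : ℝ × X3 → G} {c d ε : ℝ}

theorem Pk.zero (h : Pk O k a f c) : ∀ p ∈ O, ‖f p‖ ≤ c := by
  cases k with
  | zero => exact h
  | succ k => exact h.1

theorem Pk.mono {k' a' : ℕ} (h : Pk O k a f c) (hk : k' ≤ k) (ha : a' ≤ a) (hc : c ≤ d) :
    Pk O k' a' f d := by
  induction k' generalizing k a a' f with
  | zero => exact fun p hp => (h.zero p hp).trans hc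
  | succ k' ih =>
    obtain ⟨k, rfl⟩ : ∃ m, k = m + 1 := ⟨k - 1, by omega⟩
    refine ⟨fun p hp => (h.1 p hp).trans hc, fun v b hv => ?_⟩
    obtain ⟨b', h1, h2⟩ := hv.up ha
    exact ih (h.2 v b' h1) (by omega) h2

theorem dfa (hO : IsOpen O) (h : ContDiffOn ℝ ∞ f O) {p : ℝ × X3} (hp : p ∈ O) :
    DifferentiableAt ℝ f p := (h.contDiffAt (hO.mem_nhds hp)).differentiableAt (by simp)

theorem sm_dv (hO : IsOpen O) (h : ContDiffOn ℝ ∞ f O) (v : ℝ × X3) :
    ContDiffOn ℝ ∞ (dv v f) O := (h.fderiv_of_isOpen hO (by simp)).clm_apply contDiffOn_const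

theorem Pk.congr (hO : IsOpen O) (h : Pk O k a f c) (e : ∀ p ∈ O, f' p = f p) :
    Pk O k a f' c := by
  induction k generalizing a f f' with
  | zero => exact fun p hp => e p hp ▸ h p hp
  | succ k ih =>
    refine ⟨fun p hp => e p hp ▸ h.1 p hp, fun v b hv => ih (h.2 v b hv) fun p hp => ?_⟩
    unfold dv
    rw [Filter.EventuallyEq.fderiv_eq (f₁ := f') (f := f)
      (mem_of_superset (hO.mem_nhds hp) e)]

theorem Pk.add (hO : IsOpen O) (h : Pk O k a f c) (h' : Pk O k a f' d) (s : ContDiffOn ℝ ∞ f O)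
    (s' : ContDiffOn ℝ ∞ f' O) : Pk O k a (fun p => f p + f' p) (c + d) := by
  have z := fun p hp => (norm_add_le _ _).trans (add_le_add (h.zero p hp) (h'.zero p hp))
  induction k generalizing a f f' with
  | zero => exact z
  | succ k ih =>
    refine ⟨z, fun v b hv => (ih (h.2 v b hv) (h'.2 v b hv) (sm_dv hO s v) (sm_dv hO s' v)
      fun p hp => (norm_add_le _ _).trans (add_le_add ((h.2 v b hv).zero p hp)
        ((h'.2 v b hv).zero p hp))).congr hO fun p hp => ?_⟩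
    unfold dv
    rw [fderiv_fun_add (dfa hO s hp) (dfa hO s' hp)]
    rfl

theorem pk_const (v : F) (h : ‖v‖ ≤ c) : Pk O k a (fun _ => v) c := by
  induction k generalizing a v with
  | zero => exact fun _ _ => h
  | succ k ih =>
    refine ⟨fun _ _ => h, fun w b _ => ?_⟩
    rw [show dv w (fun _ => v) = fun _ => 0 from funext fun p => by simp [dv]]
    exact ih 0 (by simpa using (norm_nonneg v).trans h)

theorem Pk.bil (hO : IsOpen O) (B : F →L[ℝ] G →L[ℝ] H) (h : Pk O k a f c) (h' : Pk O k a g d)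
    (s : ContDiffOn ℝ ∞ f O) (s' : ContDiffOn ℝ ∞ g O) (hc : 0 ≤ c) (hd : 0 ≤ d) :
    Pk O k a (fun p => B (f p) (g p)) (2 ^ k * (‖B‖ * c * d)) := by
  have z : ∀ {k a : ℕ} {f : ℝ × X3 → F} {g : ℝ × X3 → G}, Pk O k a f c → Pk O k a g d →
      ∀ p ∈ O, ‖B (f p) (g p)‖ ≤ 2 ^ k * (‖B‖ * c * d) := fun h h' p hp =>
    ((B.le_opNorm₂ _ _).trans (mul_le_mul (mul_le_mul_of_nonneg_left (h.zero p hp) (norm_nonneg _))
      (h'.zero p hp) (norm_nonneg _) (by positivity))).trans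
      (le_mul_of_one_le_left (by positivity) (one_le_two_pow _))
  induction k generalizing a f g with
  | zero => exact z h h'
  | succ k ih =>
    refine ⟨z h h', fun v b hv => ?_⟩
    have a1 := ih (h.2 v b hv) (h'.mono k.le_succ hv.le le_rfl) (sm_dv hO s v) s'
    have a2 := ih (h.mono k.le_succ hv.le le_rfl) (h'.2 v b hv) s (sm_dv hO s' v)
    refine ((a2.add hO a1 ((B.contDiff.comp_contDiffOn s).clm_apply (sm_dv hO s' v))
      ((B.contDiff.comp_contDiffOn (sm_dv hO s v)).clm_apply s')).congr hO fun p hp => ?_).mono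
      le_rfl le_rfl (le_of_eq (by ring))
    unfold dv
    rw [B.fderiv_of_bilinear (dfa hO s hp) (dfa hO s' hp)]
    rfl

theorem Pk.clm (hO : IsOpen O) (L : F →L[ℝ] G) (h : Pk O k a f c) (s : ContDiffOn ℝ ∞ f O) :
    Pk O k a (fun p => L (f p)) (‖L‖ * c) := by
  have z : ∀ {k a : ℕ} {f : ℝ × X3 → F}, Pk O k a f c → ∀ p ∈ O, ‖L (f p)‖ ≤ ‖L‖ * c :=
    fun h p hp => (L.le_opNorm _).trans (mul_le_mul_of_nonneg_left (h.zero p hp) (norm_nonneg _))
  induction k generalizing a f with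
  | zero => exact z h
  | succ k ih =>
    refine ⟨z h, fun v b hv => (ih (h.2 v b hv) (sm_dv hO s v)).congr hO fun p hp => ?_⟩
    unfold dv
    rw [show fderiv ℝ (fun p => L (f p)) p = _ from
      (L.hasFDerivAt.comp p (dfa hO s hp).hasFDerivAt).fderiv]
    rfl

theorem norm_mulL : ‖ContinuousLinearMap.mul ℝ ℝ‖ ≤ 1 := ContinuousLinearMap.opNorm_mul_le ℝ ℝ

theorem Pk.mul {f g : ℝ × X3 → ℝ} (hO : IsOpen O) (h : Pk O k a f c) (h' : Pk O k a g d)
    (s : ContDiffOn ℝ ∞ f O) (s' : ContDiffOn ℝ ∞ g O) (hc : 0 ≤ c) (hd : 0 ≤ d) :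
    Pk O k a (fun p => f p * g p) (2 ^ k * (c * d)) :=
  (h.bil hO (ContinuousLinearMap.mul ℝ ℝ) h' s s' hc hd).mono le_rfl le_rfl (by
    have := norm_mulL
    gcongr
    exact mul_le_of_le_one_left hc this)

theorem Pk.neg (h : Pk O k a f c) : Pk O k a (fun p => -f p) c := by
  induction k generalizing a f with
  | zero => exact fun p hp => by simpa using h p hp
  | succ k ih =>
    refine ⟨fun p hp => by simpa using h.1 p hp, fun v b hv => ?_⟩
    rw [show dv v (fun p => -f p) = fun p => -dv v f p from funext fun p => by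
      simp [dv, fderiv_fun_neg]]
    exact ih (h.2 v b hv)

theorem pk_inv (k : ℕ) (c : ℝ) {c0 : ℝ} (h0 : 0 < c0) : ∃ C, 0 ≤ C ∧ ∀ O a (f : ℝ × X3 → ℝ),
    IsOpen O → 0 ≤ c → ContDiffOn ℝ ∞ f O → (∀ p ∈ O, c0 ≤ |f p|) → Pk O k a f c →
      Pk O k a (fun p => (f p)⁻¹) C := by
  have z : ∀ x : ℝ, c0 ≤ |x| → ‖x⁻¹‖ ≤ c0⁻¹ := fun x hx => by
    rw [norm_inv]
    exact inv_anti₀ h0 hx
  induction k with
  | zero => exact ⟨c0⁻¹, by positivity, fun O a f _ _ _ hf _ p hp => z _ (hf p hp)⟩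
  | succ k ih =>
    obtain ⟨C, C0, hC⟩ := ih
    refine ⟨c0⁻¹ + 2 ^ k * (2 ^ k * (C * C) * |c|), by positivity,
      fun O a f hO hc s hf h => ⟨fun p hp => (z _ (hf p hp)).trans
        (le_add_of_nonneg_right (by positivity)), fun v b hv => ?_⟩⟩
    have n : ∀ p ∈ O, f p ≠ 0 := fun p hp => abs_pos.1 (h0.trans_le (hf p hp))
    have si := s.inv n
    have a1 := hC O b f hO hc s hf (h.mono k.le_succ hv.le le_rfl)
    have a2 := (a1.mul hO a1 si si C0 C0).mul hO (h.2 v b hv) (si.mul si) (sm_dv hO s v)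
      (by positivity) hc
    refine (a2.neg.congr hO fun p hp => ?_).mono le_rfl le_rfl ?_
    · have := ((hasDerivAt_inv (n p hp)).comp_hasFDerivAt p (dfa hO s hp).hasFDerivAt).fderiv
      unfold dv
      rw [show fderiv ℝ (fun p => (f p)⁻¹) p = _ from this]
      simp only [smul_apply, smul_eq_mul]
      ring
    · rw [abs_of_nonneg hc]
      exact le_add_of_nonneg_left (by positivity)

/-- One more time derivative. -/
theorem Pk.step (hO : IsOpen O) (s : ContDiffOn ℝ ∞ f O) (h : Pk O (k + 1) a f c)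
    (h' : Pk O k a (dv (1, 0) f) c) : Pk O (k + 1) (a + 1) f c := by
  induction k generalizing f with
  | zero =>
    refine ⟨h.1, fun v b hv => ?_⟩
    rcases hv with ⟨j, rfl, -⟩ | ⟨rfl, -⟩
    · exact h.2 _ a (Or.inl ⟨j, rfl, rfl⟩)
    · exact h'
  | succ k ih =>
    refine ⟨h.1, fun v b hv => ?_⟩
    rcases hv with ⟨j, rfl, rfl⟩ | ⟨rfl, hb⟩
    · exact ih (sm_dv hO s _) (h.2 _ a (Or.inl ⟨j, rfl, rfl⟩))
        ((h'.2 _ a (Or.inl ⟨j, rfl, rfl⟩)).congr hO fun p hp =>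
          d2_swap (s.contDiffAt (hO.mem_nhds hp)) _ _)
    · exact (show b = a by omega) ▸ h'

theorem pk_of_sb (s : ContDiff ℝ ∞ f) (h : ∀ p ∈ O, Sb k (sl f p.1) c) : Pk O k 0 f c := by
  induction k generalizing f with
  | zero => exact fun p hp => (h p hp).zero p.2
  | succ k ih =>
    refine ⟨fun p hp => (h p hp).zero p.2, fun v b hv => ?_⟩
    rcases hv with ⟨j, rfl, rfl⟩ | ⟨-, hb⟩
    · exact ih (P354HL.dx_sm s j) fun p hp => P354HL.pd_sl s j p.1 ▸ (h p hp).pd j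
    · omega

/-- The coordinate functions. -/
noncomputable def cx (j : Fin 3) : ℝ × X3 →L[ℝ] ℝ := (P354HG.co j).comp (.snd ℝ ℝ X3)

theorem clm_dec (T : ℝ × X3 →L[ℝ] F) : T =
    ContinuousLinearMap.smulRightL ℝ _ F (.fst ℝ ℝ X3) (T (1, 0)) +
    ContinuousLinearMap.smulRightL ℝ _ F (cx 0) (T (0, e 0)) +
    ContinuousLinearMap.smulRightL ℝ _ F (cx 1) (T (0, e 1)) +
    ContinuousLinearMap.smulRightL ℝ _ F (cx 2) (T (0, e 2)) := by
  refine ContinuousLinearMap.ext fun x => ?_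
  have : x = x.1 • (1, 0) + x.2.1 • (0, e 0) + x.2.2.1 • (0, e 1) + x.2.2.2 • (0, e 2) := by
    simp [e]
  conv_lhs => rw [this]
  simp only [map_add, map_smul]
  rfl

theorem norm_sr {L : ℝ × X3 →L[ℝ] ℝ} (h : ∀ x, ‖L x‖ ≤ ‖x‖) :
    ‖ContinuousLinearMap.smulRightL ℝ _ F L‖ ≤ 1 :=
  ContinuousLinearMap.opNorm_le_bound _ zero_le_one fun v => by
    rw [ContinuousLinearMap.smulRightL_apply_apply, ContinuousLinearMap.norm_smulRight_apply]
    exact mul_le_mul_of_nonneg_right (L.opNorm_le_bound zero_le_one fun x => by simpa using h x)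
      (norm_nonneg _)

theorem Pk.fd (hO : IsOpen O) (s : ContDiffOn ℝ ∞ f O) (hc : 0 ≤ c)
    (h : Pk O (k + 1) (a + 1) f c) : Pk O k a (fderiv ℝ f) (4 * c) := by
  have t : ∀ (L : ℝ × X3 →L[ℝ] ℝ) v, (∀ x, ‖L x‖ ≤ ‖x‖) → Pk O k a (dv v f) c →
      Pk O k a (fun p => ContinuousLinearMap.smulRightL ℝ _ F L (dv v f p)) c ∧
      ContDiffOn ℝ ∞ (fun p => ContinuousLinearMap.smulRightL ℝ _ F L (dv v f p)) O :=
    fun L v hL hv => ⟨(hv.clm hO _ (sm_dv hO s v)).mono le_rfl le_rfl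
      (mul_le_of_le_one_left hc (norm_sr hL)),
      (ContinuousLinearMap.contDiff _).comp_contDiffOn (sm_dv hO s v)⟩
  have t0 := t (.fst ℝ ℝ X3) _ (fun x => norm_fst_le x) (h.2 _ a (Or.inr ⟨rfl, rfl⟩))
  have tx := fun j => t (cx j) _ (fun x => (P354HG.co_le j x.2).trans (norm_snd_le x))
    ((h.2 _ _ (Or.inl ⟨j, rfl, rfl⟩)).mono le_rfl a.le_succ le_rfl)
  exact ((((t0.1.add hO (tx 0).1 t0.2 (tx 0).2).add hO (tx 1).1 (t0.2.add (tx 0).2)
    (tx 1).2).add hO (tx 2).1 ((t0.2.add (tx 0).2).add (tx 1).2) (tx 2).2).congr hO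
    fun p _ => clm_dec _).mono le_rfl le_rfl (le_of_eq (by ring))

theorem Pk.iter (hO : IsOpen O) (k : ℕ) : ∀ (F : Type) [NormedAddCommGroup F] [NormedSpace ℝ F]
    (f : ℝ × X3 → F) (c : ℝ), ContDiffOn ℝ ∞ f O → Pk O k k f c →
    ∀ p ∈ O, ‖iteratedFDeriv ℝ k f p‖ ≤ 4 ^ k * c := by
  induction k with
  | zero => exact fun F _ _ f c _ h p hp => by simpa using h p hp
  | succ k ih =>
    intro F _ _ f c s h p hp
    rw [← norm_iteratedFDeriv_fderiv]
    exact (ih _ _ _ (s.fderiv_of_isOpen hO (by simp))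
      (h.fd hO s ((norm_nonneg _).trans (h.1 p hp))) p hp).trans (le_of_eq (by ring))

/-- Bounds for a pair of functions and for the difference. -/
structure Tp (O : Set (ℝ × X3)) (k a : ℕ) (ε : ℝ) (f f' : ℝ × X3 → F) (c : ℝ) : Prop where
  op : IsOpen O
  he : 0 ≤ ε
  hc : 0 ≤ c
  s : ContDiffOn ℝ ∞ f O
  s' : ContDiffOn ℝ ∞ f' O
  b : Pk O k a f c
  b' : Pk O k a f' c
  d : Pk O k a (fun p => f p - f' p) (c * ε)

theorem Tp.mono {k' a' : ℕ} (h : Tp O k a ε f f' c) (hk : k' ≤ k) (ha : a' ≤ a) (hc : c ≤ d) :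
    Tp O k' a' ε f f' d :=
  ⟨h.op, h.he, h.hc.trans hc, h.s, h.s', h.b.mono hk ha hc, h.b'.mono hk ha hc,
    h.d.mono hk ha (mul_le_mul_of_nonneg_right hc h.he)⟩

theorem Tp.congr {u u' : ℝ × X3 → F} (h : Tp O k a ε f f' c) (e : ∀ p ∈ O, u p = f p)
    (e' : ∀ p ∈ O, u' p = f' p) : Tp O k a ε u u' c :=
  ⟨h.op, h.he, h.hc, h.s.congr e, h.s'.congr e', h.b.congr h.op e, h.b'.congr h.op e',
    h.d.congr h.op fun p hp => by rw [e p hp, e' p hp]⟩

theorem Tp.add {u u' : ℝ × X3 → F} (h : Tp O k a ε f f' c) (h' : Tp O k a ε u u' d) :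
    Tp O k a ε (fun p => f p + u p) (fun p => f' p + u' p) (c + d) :=
  ⟨h.op, h.he, add_nonneg h.hc h'.hc, h.s.add h'.s, h.s'.add h'.s', h.b.add h.op h'.b h.s h'.s,
    h.b'.add h.op h'.b' h.s' h'.s', ((h.d.add h.op h'.d (h.s.sub h.s') (h'.s.sub h'.s')).congr h.op
      fun p _ => by abel).mono le_rfl le_rfl (le_of_eq (by ring))⟩

theorem Tp.const (h : Tp O k a ε f f' c) (v : G) : Tp O k a ε (fun _ => v) (fun _ => v) ‖v‖ :=
  ⟨h.op, h.he, norm_nonneg v, contDiffOn_const, contDiffOn_const, pk_const v le_rfl,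
    pk_const v le_rfl, pk_const _ (by simpa using mul_nonneg (norm_nonneg v) h.he)⟩

theorem Tp.clm (h : Tp O k a ε f f' c) (L : F →L[ℝ] G) :
    Tp O k a ε (fun p => L (f p)) (fun p => L (f' p)) (‖L‖ * c) :=
  ⟨h.op, h.he, mul_nonneg (norm_nonneg L) h.hc, L.contDiff.comp_contDiffOn h.s,
    L.contDiff.comp_contDiffOn h.s', h.b.clm h.op L h.s, h.b'.clm h.op L h.s',
    ((h.d.clm h.op L (h.s.sub h.s')).congr h.op fun p _ => (map_sub L _ _).symm).mono le_rfl le_rfl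
      (le_of_eq (by ring))⟩

theorem Tp.bil (h : Tp O k a ε f f' c) (h' : Tp O k a ε g g' d) (B : F →L[ℝ] G →L[ℝ] H) :
    Tp O k a ε (fun p => B (f p) (g p)) (fun p => B (f' p) (g' p))
      (2 * (2 ^ k * (‖B‖ * c * d))) := by
  have c0 := h.hc
  have d0 := h'.hc
  have e0 := h.he
  have p0 : 0 ≤ 2 ^ k * (‖B‖ * c * d) := by positivity
  refine ⟨h.op, h.he, by positivity, (B.contDiff.comp_contDiffOn h.s).clm_apply h'.s,
    (B.contDiff.comp_contDiffOn h.s').clm_apply h'.s',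
    (h.b.bil h.op B h'.b h.s h'.s c0 d0).mono le_rfl le_rfl (by linarith),
    (h.b'.bil h.op B h'.b' h.s' h'.s' c0 d0).mono le_rfl le_rfl (by linarith), ?_⟩
  have s1 := h.s.sub h.s'
  have s2 := h'.s.sub h'.s'
  exact (((h.d.bil h.op B h'.b s1 h'.s (by positivity) d0).add h.op
    (h.b'.bil h.op B h'.d h.s' s2 c0 (by positivity))
    ((B.contDiff.comp_contDiffOn s1).clm_apply h'.s)
    ((B.contDiff.comp_contDiffOn h.s').clm_apply s2)).congr h.op
    fun p _ => by simp).mono le_rfl le_rfl (le_of_eq (by ring))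

theorem Tp.dv (h : Tp O (k + 1) a ε f f' c) {v : ℝ × X3} {b : ℕ} (hv : Dir a v b) :
    Tp O k b ε (dv v f) (dv v f') c :=
  ⟨h.op, h.he, h.hc, sm_dv h.op h.s v, sm_dv h.op h.s' v, h.b.2 v b hv, h.b'.2 v b hv,
    (h.d.2 v b hv).congr h.op fun p hp => by
      unfold P354LC.dv
      rw [fderiv_fun_sub (dfa h.op h.s hp) (dfa h.op h.s' hp)]
      rfl⟩

theorem Tp.step (h : Tp O (k + 1) a ε f f' c)
    (h' : Tp O k a ε (P354LC.dv (1, 0) f) (P354LC.dv (1, 0) f') c) :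
    Tp O (k + 1) (a + 1) ε f f' c :=
  ⟨h.op, h.he, h.hc, h.s, h.s', h.b.step h.op h.s h'.b, h.b'.step h.op h.s' h'.b',
    h.d.step h.op (h.s.sub h.s') (h'.d.congr h.op fun p hp => by
      unfold P354LC.dv
      rw [fderiv_fun_sub (dfa h.op h.s hp) (dfa h.op h.s' hp)]
      rfl)⟩

theorem tp_inv (k : ℕ) (c : ℝ) {c0 : ℝ} (h0 : 0 < c0) : ∃ C, ∀ O a ε (f f' : ℝ × X3 → ℝ),
    (∀ p ∈ O, c0 ≤ |f p| ∧ c0 ≤ |f' p|) → Tp O k a ε f f' c →
      Tp O k a ε (fun p => (f p)⁻¹) (fun p => (f' p)⁻¹) C := by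
  obtain ⟨C, C0, hC⟩ := pk_inv k c h0
  refine ⟨C + 2 ^ k * (2 ^ k * (C * C) * c), fun O a ε f f' hf h => ?_⟩
  have n : ∀ p ∈ O, f p ≠ 0 := fun p hp => abs_pos.1 (h0.trans_le (hf p hp).1)
  have n' : ∀ p ∈ O, f' p ≠ 0 := fun p hp => abs_pos.1 (h0.trans_le (hf p hp).2)
  have a1 := hC O a f h.op h.hc h.s (fun p hp => (hf p hp).1) h.b
  have a2 := hC O a f' h.op h.hc h.s' (fun p hp => (hf p hp).2) h.b'
  have c0' := h.hc
  have e0 := h.he
  have p0 : 0 ≤ 2 ^ k * (2 ^ k * (C * C) * c) := by positivity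
  refine ⟨h.op, h.he, by positivity, h.s.inv n, h.s'.inv n', a1.mono le_rfl le_rfl (by linarith),
    a2.mono le_rfl le_rfl (by linarith), ?_⟩
  have a3 := (a1.mul h.op a2 (h.s.inv n) (h.s'.inv n') C0 C0).mul h.op h.d
    ((h.s.inv n).mul (h.s'.inv n')) (h.s.sub h.s') (by positivity) (by positivity)
  refine (a3.neg.congr h.op fun p hp => ?_).mono le_rfl le_rfl ?_
  · have := n p hp
    have := n' p hp
    field_simp
    ring
  · nlinarith [mul_nonneg C0 e0]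

end Vale.Agent.P354LC
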