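import Vale.Agent.P354YQ.OgD
import Vale.Agent.P354CV.Bas

/-!
THS: the chart for the final parameters.
-/

set_option maxSynthPendingDepth 3

open scoped ContDiff
open Set Filter Topology

noncomputable section

namespace Vale.Agent.P354LC

open Vale.Agent.P354YI (Jb Oj Os)
open Vale.Agent.P354YT (prim_d prim_cd)

theorem prim_jb {F : ℝ × ℝ × ℝ → ℝ} (hF : ContDiff ℝ ∞ F) (M a r1 ρ : ℝ) (N : ℕ) :
    ∃ C ≥ 0, ∀ M' a', |M' - M| + |a' - a| ≤ 1 → ∀ r ∈ Icc r1 ρ,
      Jb N (fun r => ∫ x in r1..r, (F (M, a, x) - F (M', a', x))) r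
        (C * (|M' - M| + |a' - a|)) := by
  let J := {i : ℝ × ℝ × ℝ // |i.1 - M| + |i.2.1 - a| ≤ 1 ∧ i.2.2 ∈ Icc r1 ρ}
  have fd : ∀ (u v : J → ℝ) n, Oj n (fun i : J => i.1.2.2)
      (fun i => fderiv ℝ fun y : ℝ => (u i, v i, y)) 1 := fun u v n =>
    (Oj.cst ((ContinuousLinearMap.inr ℝ ℝ (ℝ × ℝ)).comp (.inr ℝ ℝ ℝ))).congr' fun i y =>
      (((hasFDerivAt_prodMk_right (u i) (v i, y))).comp y (hasFDerivAt_prodMk_right (v i) y)).fderiv
  have cv : Convex ℝ (Icc (M - 1) (M + 1) ×ˢ Icc (a - 1) (a + 1) ×ˢ Icc r1 ρ) :=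
    (convex_Icc _ _).prod ((convex_Icc _ _).prod (convex_Icc _ _))
  have k : Oj N (fun i : J => i.1.2.2) (fun i y => F (M, a, y) - F (i.1.1, i.1.2.1, y))
      (1 * fun i => |i.1.1 - M| + |i.1.2.1 - a|) :=
    Oj.lip (f := fun _ y => (M, a, y)) (f' := fun i y => (i.1.1, i.1.2.1, y))
      (fun _ => by fun_prop) (fun _ => by fun_prop)
      (S := fun _ => Icc (M - 1) (M + 1) ×ˢ Icc (a - 1) (a + 1) ×ˢ Icc r1 ρ)
      (fun i => cv.segment_subset ⟨⟨by linarith, by linarith⟩, ⟨by linarith, by linarith⟩, i.2.2⟩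
        (have e1 := abs_le.1 ((le_add_of_nonneg_right (abs_nonneg _)).trans i.2.1)
        have e2 := abs_le.1 ((le_add_of_nonneg_left (abs_nonneg _)).trans i.2.1)
        ⟨⟨by linarith [e1.1], by linarith [e1.2]⟩, ⟨by linarith [e2.1], by linarith [e2.2]⟩, i.2.2⟩))
      N (fd (fun _ => M) (fun _ => a) _) (fd _ _ _)
      ((Oj.const (v := fun i : J => ((M - i.1.1, a - i.1.2.1, 0) : ℝ × ℝ × ℝ))
        (fun _ => by positivity) ⟨1, fun i => by
          rw [one_mul, abs_sub_comm, abs_sub_comm i.1.2.1]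
          exact norm_prod_le_iff.2 ⟨le_add_of_nonneg_right (abs_nonneg _), norm_prod_le_iff.2
            ⟨le_add_of_nonneg_left (abs_nonneg _), by rw [norm_zero]; positivity⟩⟩⟩).congr'
        fun _ _ => by simp)
      (Oj.fix (isCompact_Icc.prod (isCompact_Icc.prod isCompact_Icc)) (fun _ _ => hF.contDiffAt)
        fun i => i.2)
  obtain ⟨C, c0, hC⟩ := (k.clm (ContinuousLinearMap.smulRightL ℝ ℝ ℝ 1)).bd
  obtain ⟨C', c1, hC'⟩ := k.val
  refine ⟨C + C' * |ρ - r1|, by positivity, fun M' a' h r hr => ?_⟩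
  have c : Continuous fun x => F (M, a, x) - F (M', a', x) := by
    have := hF.continuous
    fun_prop
  have p : 0 ≤ |M' - M| + |a' - a| := by positivity
  refine (Jb.succ ?_ (((hC ⟨(M', a', r), h, hr⟩).congr (.of_forall fun y =>
    (prim_d c r1 y).hasFDerivAt.fderiv)).mono le_rfl ?_)).mono (Nat.le_succ N) le_rfl
  · refine (intervalIntegral.norm_integral_le_of_norm_le_const
      (C := C' * (|M' - M| + |a' - a|)) fun x hx => ?_).trans ?_
    · rw [uIoc_of_le hr.1] at hx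
      simpa using hC' ⟨(M', a', x), h, hx.1.le, hx.2.trans hr.2⟩
    · have : |r - r1| ≤ |ρ - r1| := abs_le_abs (by linarith [hr.2]) (by linarith [hr.1, hr.2])
      nlinarith [mul_le_mul_of_nonneg_left this (mul_nonneg c1 p), mul_nonneg c0 p]
  · simp only [one_mul]
    exact mul_le_mul_of_nonneg_right (le_add_of_nonneg_right (by positivity)) p

/-- **THS.** -/
theorem ths : P354YQ.THS := by
  intro M a r1 ρ N h0 ε ε0
  have hs := P354CV.hs_cd h0
  have js : ContDiff ℝ ∞ fun p => 2 * P354Z.js M p := contDiff_const.mul (P354CV.js_cd h0)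
  obtain ⟨C, c0, hC⟩ := prim_jb hs M a r1 ρ N
  obtain ⟨C', c1, hC'⟩ := prim_jb js M a r1 ρ N
  refine ⟨min 1 (ε / (C + C' + 1)), by positivity, fun M' a' A B h t => ?_⟩
  obtain ⟨h1, h2⟩ := le_min_iff.1 h
  rw [le_div_iff₀ (by positivity)] at h2
  have p : 0 ≤ |M' - M| + |a' - a| := by positivity
  have c := hs.continuous
  have c' := js.continuous
  refine ⟨fun r => A r - ∫ x in r1..r, (P354Z.hs M (M, a, x) - P354Z.hs M (M', a', x)),
    fun r => B r - ∫ x in r1..r, (2 * P354Z.js M (M, a, x) - 2 * P354Z.js M (M', a', x)),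
    fun r => ⟨((t r).1.sub (prim_d (by fun_prop) r1 r)).congr_deriv (by ring),
      ((t r).2.sub (prim_d ((c'.comp (f := fun x => (M, a, x)) (by fun_prop)).sub
        (c'.comp (f := fun x => (M', a', x)) (by fun_prop))) r1 r)).congr_deriv 
          (sub_sub_cancel _ _)⟩, fun r hr => ⟨?_, ?_⟩⟩
  · exact ((hC M' a' h1 r hr).congr (.of_forall fun y => sub_sub_cancel _ _)).mono le_rfl
      (by nlinarith [mul_nonneg c1 p])
  · exact ((hC' M' a' h1 r hr).congr (.of_forall fun y => sub_sub_cancel _ _)).mono le_rfl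
      (by nlinarith [mul_nonneg c0 p])

end Vale.Agent.P354LC
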